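import Vale.Agent.P301Z.Tor.Defs
import Vale.Agent.P301Z.An.Sk

/-!
# P301Z, block TOR: the analytic statements
-/

open scoped ContDiff Topology NNReal Matrix
open Set Filter Complex Module Metric MeasureTheory
open Vale.Agent.P272.K Vale.Agent.P272.K.LIN Vale.Agent.P301Z.An

set_option maxSynthPendingDepth 3

noncomputable section

namespace Vale.Agent.P301Z.Tor

/-- a statement on all models -/
def ForK (Q : ∀ N n : ℕ, (E N ≃L[ℝ] Cm n) → Prop) : Prop := ∀ (N n : ℕ) (κ : E N ≃L[ℝ] Cm n), Q N n κ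

/-- **FD**: Fourier coefficients of derivatives -/
def FD : Prop := ∀ N : ℕ, ForC fun W _ _ _ => ∀ (u : E N → W) (u' : E N → E N →L[ℝ] W), Pe u →
  (∀ x, HasFDerivAt u (u' x) x) → Continuous u' → ∀ k a,
    fc (fun x => u' x a) k = (2 * Real.pi * I * kv k a : ℂ) • fc u k

/-- **PARS**: a consequence of the identity of Parseval -/
def PARS : Prop := ∀ N : ℕ, ForC fun W _ _ _ => ForC fun W' _ _ _ => ∀ C : ℝ, ∃ ε : ℝ, 0 < ε ∧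
  ∀ (u : E N → W) (e : E N → W'), Continuous u → Continuous e → Pe u → Pe e →
    (∀ k, ‖fc u k‖ ≤ C * ‖fc e k‖) → (∀ x, ‖e x‖ ≤ ε * ‖u x‖) → ∀ x, u x = 0

/-- **GRN**: the Green operator -/
def GRN : Prop := ∀ (N : ℕ) (ι : Type) [Fintype ι] (b : Basis ι ℝ (E N)), ForR fun V _ _ =>
  ∃ G : Hs N V →L[ℝ] Hs N (Jt (E N) V), (∀ u, IsJet fun x => G u (pr x)) ∧
    (∀ u, ∃ c, ∀ t, trL b (G u t) = u t - c) ∧
    ∀ u u' s, (∀ t, u' t = u (t + s)) → ∀ t, G u' t = G u (t + s)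

/-- **PNEM**: superposition operators with translations -/
def PNEM : Prop := ∀ N : ℕ, ForR fun V _ _ => ForR fun W _ _ => ∀ Ψ : E N × V → W,
  ContDiff ℝ ∞ Ψ → Pe2 Ψ → ∃ S : E N × Hs N V → Hs N W, ContDiff ℝ ∞ S ∧
    ∀ s v x, S (s, v) (pr x) = Ψ (x + s, v (pr x))

/-- **LIP**: bounds for superposition operators -/
def LIP : Prop := ∀ N : ℕ, ForR fun V _ _ => ForR fun W _ _ => ∀ (Ψ : E N × V → W) (ε : ℝ),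
  ContDiff ℝ ∞ Ψ → (∀ z : E N × V, ‖z.2‖ < 1 → ‖Ψ z‖ ≤ ε ∧ ‖fderiv ℝ Ψ z‖ ≤ ε ∧
    ‖fderiv ℝ (fderiv ℝ Ψ) z‖ ≤ ε) → ∀ (v v' : Hs N V) (a a' : Hs N W), ‖v‖ < 1 → ‖v'‖ < 1 →
  (∀ x, a (pr x) = Ψ (x, v (pr x))) → (∀ x, a' (pr x) = Ψ (x, v' (pr x))) →
    ‖a‖ ≤ 3 * ε ∧ ‖a - a'‖ ≤ 3 * ε * ‖v - v'‖

/-- **FIX**: the family of solutions of the fixed point equation -/
def FIX : Prop := ForK fun N n κ => ∀ η : ℝ, 0 < η → ∃ ε : ℝ, 0 < ε ∧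
  ∀ Ω : P N n → B2 (P N n), Dat κ ε Ω → ∃ f, Gf η f ∧ Eqn κ Ω f

/-- **PRIM**: the radial primitive -/
def PRIM : Prop := ∀ (N n : ℕ) (Ω : P N n → B2 (P N n)), Fm Ω → ∃ θ, Prim Ω θ

/-- **PW**: pointwise algebra -/
def PW : Prop := ForK fun N n κ => ∃ C η₀ : ℝ, 0 < C ∧ 0 < η₀ ∧ ∀ η, η ≤ η₀ →
  ∀ (o : B2 (P N n)) (p : E N →L[ℝ] Cm n), Sk o → Cx o → ‖o - om0 κ‖ ≤ η → ‖p‖ ≤ η →
    ‖p02 κ (rs o p)‖ ≤ C * η * ‖rs o p‖ ∧ (∀ V, ‖r10 κ (nv o p V) - V‖ ≤ C * η * ‖V‖) ∧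
    (rs o p = 0 → ∀ V V', ‖p01 κ (nv o p V' - I • nv o p V)‖ ≤ C * η * ‖nv o p V' - I • nv o p V‖)

/-- **SYM**: the symbols -/
def SYM : Prop := ForK fun N _ κ => ∃ C : ℝ, 0 < C ∧
  (∀ (k : E N →L[ℝ] ℝ) (τ : B2 (E N)), k ≠ 0 → Sk τ →
    (∀ a b c, k a * τ b c + k b * τ c a + k c * τ a b = 0) → rho κ (k.smulRight τ) = 0 →
    ‖τ‖ ≤ C * ‖p02 κ τ‖) ∧
  (∀ (k : E N →L[ℝ] ℝ) y, rho κ (k.smulRight (wg k (pa κ y))) = (∑ i, k (bs κ i) ^ 2) • y) ∧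
  (∀ (k : E N →L[ℝ] ℝ) (β : E N →L[ℝ] ℂ), k ≠ 0 → wg k β = 0 → ‖β‖ ≤ C * ‖p01 κ β‖) ∧
  (∀ β : E N →L[ℝ] ℂ, r10 κ β = 0 → ‖β‖ ≤ C * ‖p01 κ β‖) ∧
  (∀ (c : ℂ) (β : E N →L[ℝ] ℂ), r10 κ (c • β) = c • r10 κ β) ∧
  ∀ (c : ℂ) (D : E N →L[ℝ] B2 (E N)), rho κ (c • D) = c • rho κ D

/-- **LAGR**: the solutions are Lagrangian -/
def LAGR : Prop := ForK fun N n κ => ∃ η : ℝ, 0 < η ∧ ∀ (Ω : P N n → B2 (P N n)) f, Dat κ η Ω →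
  Gf η f → Eqn κ Ω f → Lg Ω f

/-- **ACT**: the action function -/
def ACT : Prop := ForK fun N n κ => ∃ η : ℝ, 0 < η ∧ ∀ (Ω : P N n → B2 (P N n)) f, Dat κ η Ω →
  Gf η f → Lg Ω f → ∃ A A', Act Ω f A A'

/-- **FIB**: the fibration -/
def FIB : Prop := ∀ (N n : ℕ) (Ω : P N n → B2 (P N n)) f A A', Gf (1 / 8) f → Lg Ω f →
  Act Ω f A A' → ∃ U π g b₀ r, Fb Ω U π g b₀ r

/-- **LAG**: Lagrangian tori near the flat torus -/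
def LAG : Prop := ForK fun N n κ => ∃ ε : ℝ, 0 < ε ∧ ∀ Ω : P N n → B2 (P N n), Dat κ ε Ω →
  ∃ U π g b₀ r, Fb Ω U π g b₀ r

/-- **EXA**: closed forms without periods are exact -/
def EXA : Prop := ∀ (N n : ℕ) (Ω : P N n → B2 (P N n)), Fm Ω →
  ∃ γ : P N n → P N n →L[ℝ] ℂ, ContDiff ℝ ∞ γ ∧ Pe2 γ ∧
    ∀ z : P N n, ‖z.2‖ < 1 → ∀ u v, fderiv ℝ γ z u v - fderiv ℝ γ z v u = Ω z u v

theorem Gf.mono {N n : ℕ} {η η' : ℝ} {f : P N n → Cm n} (h : Gf η f) (hη : η ≤ η') : Gf η' f :=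
  ⟨h.sm, h.per, fun z hz => (h.n0 z hz).trans hη, fun z hz => (h.n1 z hz).trans hη⟩

theorem Dat.mono {N n : ℕ} {κ : E N ≃L[ℝ] Cm n} {η η' : ℝ} {Ω : P N n → B2 (P N n)}
    (h : Dat κ η Ω) (hη : η ≤ η') : Dat κ η' Ω :=
  ⟨h.toFm, h.cx, fun z hz => (h.b0 z hz).trans hη, fun z hz => (h.b1 z hz).trans hη,
    fun z hz => (h.b2 z hz).trans hη⟩

theorem lag_of (h1 : FIX) (h2 : LAGR) (h3 : ACT) (h4 : FIB) : LAG := by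
  intro N n κ
  obtain ⟨η₂, p2, h2⟩ := h2 N n κ
  obtain ⟨η₃, p3, h3⟩ := h3 N n κ
  obtain ⟨ε, p1, h1⟩ := h1 N n κ (min (1 / 8) (min η₂ η₃)) (by positivity)
  refine ⟨min ε (min η₂ η₃), by positivity, fun Ω hΩ => ?_⟩
  obtain ⟨f, hf, he⟩ := h1 Ω (hΩ.mono (min_le_left _ _))
  have hl := h2 Ω f (hΩ.mono ((min_le_right _ _).trans (min_le_left _ _)))
    (hf.mono ((min_le_right _ _).trans (min_le_left _ _))) he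
  obtain ⟨A, A', hA⟩ := h3 Ω f (hΩ.mono ((min_le_right _ _).trans (min_le_right _ _)))
    (hf.mono ((min_le_right _ _).trans (min_le_right _ _))) hl
  exact h4 N n Ω f A A' (hf.mono (min_le_left _ _)) hl hA

end Vale.Agent.P301Z.Tor
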