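import Vale.Agent.P301Z.Tor.Bas
import Vale.Agent.P301Z.Tor.Sk
import Mathlib.Analysis.Calculus.ParametricIntegral

/-!
# P301Z, block TOR: the action function
-/

open scoped ContDiff Topology NNReal Matrix
open Set Filter Complex Module Metric MeasureTheory
open Vale.Agent.P272.K Vale.Agent.P272.K.LIN Vale.Agent.P301Z.An

set_option maxSynthPendingDepth 3

noncomputable section

namespace Vale.Agent.P301Z.Tor

namespace ActX

variable {N n : ℕ}

/-- smooth on the thin tube and periodic -/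
structure Sm {W : Type} [NormedAddCommGroup W] [NormedSpace ℝ W] (G : P N n → W) : Prop where
  sm : ∀ z : P N n, ‖z.2‖ < 1 / 4 → ContDiffAt ℝ ∞ G z
  per : Pe2 G

section gen

variable {W : Type} [NormedAddCommGroup W] [NormedSpace ℝ W] {G : P N n → W} {a : Cm n}

theorem Sm.d (h : Sm G) : Sm (fderiv ℝ G) :=
  ⟨fun z hz => (h.sm z hz).fderiv_right (m := ∞) (by norm_cast), h.per.fderiv⟩

theorem Sm.clm {W' : Type} [NormedAddCommGroup W'] [NormedSpace ℝ W'] (h : Sm G)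
    (L : W →L[ℝ] W') : Sm fun z => L (G z) :=
  ⟨fun z hz => L.contDiff.contDiffAt.comp z (h.sm z hz), fun x y q => by
    show L (G _) = L (G _)
    rw [h.per]⟩

theorem Sm.pe (h : Sm G) (a : Cm n) : Pe fun x => G (x, a) := fun x q => h.per x a q

theorem Sm.cont (h : Sm G) (ha : ‖a‖ < 1 / 4) : Continuous fun x => G (x, a) :=
  continuous_iff_continuousAt.2 fun x =>
    ContinuousAt.comp (f := fun x : E N => ((x, a) : P N n)) (h.sm (x, a) ha).continuousAt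
      (by fun_prop)

theorem Sm.has (h : Sm G) {z : P N n} (hz : ‖z.2‖ < 1 / 4) : HasFDerivAt G (fderiv ℝ G z) z :=
  ((h.sm z hz).differentiableAt (by simp)).hasFDerivAt

theorem Sm.d_clm {W' : Type} [NormedAddCommGroup W'] [NormedSpace ℝ W'] (h : Sm G)
    (L : W →L[ℝ] W') {z : P N n} (hz : ‖z.2‖ < 1 / 4) (u : P N n) :
    fderiv ℝ (fun z => L (G z)) z u = L (fderiv ℝ G z u) := by
  have := (L.hasFDerivAt.comp z (h.has hz)).fderiv
  exact congrArg (fun M : P N n →L[ℝ] W' => M u) this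

variable [NormedSpace ℂ W] [IsScalarTower ℝ ℂ W] [FiniteDimensional ℝ W]

theorem Sm.fdx (hFD : FD) (h : Sm G) (ha : ‖a‖ < 1 / 4) (k : Fin N → ℤ) (c : E N) :
    fc (fun x => fderiv ℝ G (x, a) (c, 0)) k =
      (2 * Real.pi * I * kv k c : ℂ) • fc (fun x => G (x, a)) k :=
  hFD N W (fun x => G (x, a))
    (fun x => (fderiv ℝ G (x, a)).comp (ContinuousLinearMap.inl ℝ (E N) (Cm n))) (h.pe a)
    (fun x => HasFDerivAt.comp (f := fun x : E N => ((x, a) : P N n)) x (h.has (z := (x, a)) ha)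
      (hasFDerivAt_prodMk_left x a))
    ((h.d.cont ha).clm_comp continuous_const) k c

theorem Sm.dui (h : Sm G) (ha : ‖a‖ < 1 / 4) (k : Fin N → ℤ) : ∃ L : Cm n →L[ℝ] W,
    HasFDerivAt (fun a => fc (fun x => G (x, a)) k) L a ∧
      ∀ V, L V = fc (fun x => fderiv ℝ G (x, a) (0, V)) k := by
  have : CompleteSpace W := FiniteDimensional.complete ℝ W
  have : SMulCommClass ℝ ℂ W := ⟨fun r c x => by
    rw [← smul_one_smul ℂ r (c • x), ← smul_one_smul ℂ r x, smul_comm]⟩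
  obtain ⟨r, hr, hr4⟩ : ∃ r : ℝ, ‖a‖ < r ∧ r < 1 / 4 := exists_between ha
  have hs : closedBall (0 : Cm n) r ∈ 𝓝 a :=
    mem_of_superset (isOpen_ball.mem_nhds (mem_ball_zero_iff.2 hr)) ball_subset_closedBall
  have hlt : ∀ y ∈ closedBall (0 : Cm n) r, ‖y‖ < 1 / 4 := fun y hy =>
    (mem_closedBall_zero_iff.1 hy).trans_lt hr4
  obtain ⟨B, hB⟩ := ((isCompact_Icc (a := (0 : E N)) (b := 1)).prod
    (isCompact_closedBall (0 : Cm n) r)).exists_bound_of_continuousOn (f := fderiv ℝ G)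
    fun z hz => (h.d.sm z (hlt _ hz.2)).continuousAt.continuousWithinAt
  have hc : Continuous fun t : T N => UnitAddTorus.mFourier (-k) t •
      (fderiv ℝ G (lf t, a)).comp (ContinuousLinearMap.inr ℝ (E N) (Cm n)) :=
    (UnitAddTorus.mFourier (-k)).continuous.smul
      (((h.d.pe a).continuous_lf (h.d.cont ha)).clm_comp continuous_const)
  have hi : Integrable (fun t : T N => UnitAddTorus.mFourier (-k) t •
      (fderiv ℝ G (lf t, a)).comp (ContinuousLinearMap.inr ℝ (E N) (Cm n))) (mu N) :=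
    hc.integrable_of_hasCompactSupport (HasCompactSupport.of_compactSpace _)
  refine ⟨∫ t, UnitAddTorus.mFourier (-k) t •
      (fderiv ℝ G (lf t, a)).comp (ContinuousLinearMap.inr ℝ (E N) (Cm n)) ∂mu N, ?_, fun V => ?_⟩
  · simp only [fc_eqR]
    refine hasFDerivAt_integral_of_dominated_of_fderiv_le (bound := fun _ => B)
      (F' := fun y t => UnitAddTorus.mFourier (-k) t •
        (fderiv ℝ G (lf t, y)).comp (ContinuousLinearMap.inr ℝ (E N) (Cm n))) hs ?_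
      ((h.pe a).integrable_fc (h.cont ha) k) hc.aestronglyMeasurable
      (Eventually.of_forall fun t y hy => ?_) (integrable_const B)
      (Eventually.of_forall fun t y hy => ?_)
    · filter_upwards [hs] with y hy
      exact ((h.pe y).integrable_fc (h.cont (hlt y hy)) k).aestronglyMeasurable
    · have h1 : ‖UnitAddTorus.mFourier (-k) t‖ ≤ 1 :=
        ((UnitAddTorus.mFourier (-k)).norm_coe_le_norm t).trans_eq UnitAddTorus.mFourier_norm
      have h2 : ‖(fderiv ℝ G (lf t, y)).comp (ContinuousLinearMap.inr ℝ (E N) (Cm n))‖ ≤ B :=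
        (ContinuousLinearMap.opNorm_comp_le _ _).trans
          ((mul_le_of_le_one_right (norm_nonneg _)
            (ContinuousLinearMap.norm_inr_le_one ℝ _ _)).trans (hB (lf t, y) ⟨lf_mem t, hy⟩))
      rw [norm_smul]
      exact (mul_le_of_le_one_left (norm_nonneg _) h1).trans h2
    · exact (HasFDerivAt.comp (f := fun y : Cm n => ((lf t, y) : P N n)) y
        (h.has (z := (lf t, y)) (hlt y hy)) (hasFDerivAt_prodMk_right (lf t) y)).const_smul _
  · rw [ContinuousLinearMap.integral_apply hi, fc_eqR]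
    rfl

end gen

variable {Ω : P N n → B2 (P N n)} {θ : P N n → P N n →L[ℝ] ℂ} {f : P N n → Cm n} {η : ℝ}

/-- the pull back of the primitive -/
def Th (θ : P N n → P N n →L[ℝ] ℂ) (f : P N n → Cm n) (z : P N n) : P N n →L[ℝ] ℂ :=
  (θ (z.1, f z)).comp ((ContinuousLinearMap.fst ℝ _ _).prod (fderiv ℝ f z))

theorem tube_open : IsOpen {z : P N n | ‖z.2‖ < 1 / 4} := isOpen_lt (by fun_prop) continuous_const

theorem dG (hf : Gf η f) {z : P N n} (hz : ‖z.2‖ < 1 / 4) :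
    fderiv ℝ (fun z : P N n => ((z.1, f z) : P N n)) z =
      (ContinuousLinearMap.fst ℝ _ _).prod (fderiv ℝ f z) :=
  (hasFDerivAt_fst.prodMk ((hf.sm z hz).differentiableAt (by simp)).hasFDerivAt).fderiv

theorem Th_ev (hf : Gf η f) {z : P N n} (hz : ‖z.2‖ < 1 / 4) : Th θ f =ᶠ[𝓝 z] fun z =>
    (θ (z.1, f z)).comp (fderiv ℝ (fun z : P N n => ((z.1, f z) : P N n)) z) := by
  filter_upwards [tube_open.mem_nhds hz] with y hy
  rw [dG hf hy]
  rfl

theorem Th_sm (hθ : Prim Ω θ) (hf : Gf η f) : Sm (Th θ f) := by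
  refine ⟨fun z hz => ?_, fun x y q => ?_⟩
  · have h1 : ContDiffAt ℝ ∞ (fun z : P N n => ((z.1, f z) : P N n)) z :=
      contDiffAt_fst.prodMk (hf.sm z hz)
    exact ((hθ.sm.contDiffAt.comp z h1).clm_comp
      (h1.fderiv_right (m := ∞) (by norm_cast))).congr_of_eventuallyEq (Th_ev hf hz)
  · unfold Th
    rw [hf.per x y q, hθ.per, hf.per.fderiv x y q]

theorem norm_f (hf : Gf η f) (hη : η ≤ 1 / 2) {z : P N n} (hz : ‖z.2‖ < 1 / 4) : ‖f z‖ < 1 := by
  have h1 := hf.n0 z hz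
  have h2 := norm_add_le (f z - z.2) z.2
  rw [sub_add_cancel] at h2
  linarith

theorem Th_d (hθ : Prim Ω θ) (hf : Gf η f) (hη : η ≤ 1 / 2) {z : P N n} (hz : ‖z.2‖ < 1 / 4)
    (u v : P N n) : fderiv ℝ (Th θ f) z u v - fderiv ℝ (Th θ f) z v u =
      Ω (z.1, f z) (u.1, fderiv ℝ f z u) (v.1, fderiv ℝ f z v) - Ω (z.1, 0) (u.1, 0) (v.1, 0) := by
  have h1 : ContDiffAt ℝ 2 (fun z : P N n => ((z.1, f z) : P N n)) z :=
    contDiffAt_fst.prodMk ((hf.sm z hz).of_le (by norm_cast))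
  rw [(Th_ev hf hz).fderiv_eq, pb_d (Γ := fun z : P N n => ((z.1, f z) : P N n)) h1
    (hθ.sm.differentiable (by simp) _), dG hf hz, hθ.eq (z.1, f z) (norm_f hf hη hz)]
  rfl

/-- the one-form of the variation `V` -/
def al (Ω : P N n → B2 (P N n)) (f : P N n → Cm n) (V : Cm n) (z : P N n) : E N →L[ℝ] ℂ :=
  nv (Ω (z.1, f z)) (dx f z) (fderiv ℝ f z (0, V))

theorem al_eq (hθ : Prim Ω θ) (hf : Gf η f) (hη : η ≤ 1 / 2) {z : P N n} (hz : ‖z.2‖ < 1 / 4)
    (V : Cm n) (b : E N) : al Ω f V z b =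
      fderiv ℝ (Th θ f) z (0, V) (b, 0) - fderiv ℝ (Th θ f) z (b, 0) (0, V) := by
  rw [Th_d hθ hf hη hz]
  have e : (((0 : E N), V) : P N n).1 = 0 := rfl
  have e0 : (((0 : E N), (0 : Cm n)) : P N n) = 0 := rfl
  rw [e, e0, map_zero, zero_apply, sub_zero]
  rfl

/-- restriction to the first factor -/
def rl (N n : ℕ) : (P N n →L[ℝ] ℂ) →L[ℝ] (E N →L[ℝ] ℂ) :=
  (ContinuousLinearMap.compL ℝ (E N) (P N n) ℂ).flip (ContinuousLinearMap.inl ℝ _ _)

theorem rl_apply (α : P N n →L[ℝ] ℂ) (b : E N) : rl N n α b = α (b, 0) := rfl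

theorem al_sm (hΩ : Pe2 Ω) (hθ : Prim Ω θ) (hf : Gf η f) (hη : η ≤ 1 / 2) (V : Cm n) :
    Sm (al Ω f V) := by
  refine ⟨fun z hz => ?_, fun x y q => ?_⟩
  · have h1 := (((Th_sm hθ hf).d.clm (ContinuousLinearMap.apply ℝ (P N n →L[ℝ] ℂ)
      (((0 : E N), V) : P N n))).clm (rl N n)).sm z hz
    have h2 := (((Th_sm hθ hf).d.clm ((ContinuousLinearMap.compL ℝ (P N n) (P N n →L[ℝ] ℂ) ℂ)
      (ContinuousLinearMap.apply ℝ ℂ (((0 : E N), V) : P N n)))).clm (rl N n)).sm z hz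
    refine (h1.sub h2).congr_of_eventuallyEq ?_
    filter_upwards [tube_open.mem_nhds hz] with y hy
    ext1 b
    exact al_eq hθ hf hη hy V b
  · unfold al dx
    rw [hf.per x y q, hΩ, hf.per.fderiv x y q]

theorem fc_al (hFD : FD) (hΩ : Pe2 Ω) (hθ : Prim Ω θ) (hf : Gf η f) (hη : η ≤ 1 / 2)
    (hl : Lg Ω f) {a : Cm n} (ha : ‖a‖ < 1 / 4) (k : Fin N → ℤ) :
    ∃ L : Cm n →L[ℝ] (E N →L[ℝ] ℂ),
      HasFDerivAt (fun a => fc (fun x => rl N n (Th θ f (x, a))) k) L a ∧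
      (∀ V, ∃ γ : ℂ, ∀ b, fc (fun x => al Ω f V (x, a)) k b = L V b - kv k b * γ) ∧
      ∀ V b c, (kv k c : ℂ) * L V b - kv k b * L V c = 0 := by
  have hT := Th_sm hθ hf
  have ht := hT.clm (rl N n)
  obtain ⟨L, hL, hLV⟩ := ht.dui ha k
  have hsc : ∀ (v : P N n) (y : Cm n), ‖y‖ < 1 / 4 → ∀ c : E N,
      fc (fun x => fderiv ℝ (Th θ f) (x, y) (c, 0) v) k =
        2 * Real.pi * I * kv k c * fc (fun x => Th θ f (x, y) v) k := by
    intro v y hy c
    have h1 := (hT.clm (ContinuousLinearMap.apply ℝ ℂ v)).fdx hFD hy k c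
    simp only [hT.d_clm (ContinuousLinearMap.apply ℝ ℂ v) (z := (_, y)) hy] at h1
    exact h1
  have hd : ∀ (u v : P N n), Sm fun z => fderiv ℝ (Th θ f) z u v := fun u v =>
    (hT.d.clm (ContinuousLinearMap.apply ℝ (P N n →L[ℝ] ℂ) u)).clm
      (ContinuousLinearMap.apply ℝ ℂ v)
  refine ⟨L, hL, fun V => ⟨2 * Real.pi * I * fc (fun x => Th θ f (x, a) (0, V)) k, fun b => ?_⟩,
    fun V b c => ?_⟩
  · have hs := al_sm hΩ hθ hf hη V
    have hs' := ht.d.clm (ContinuousLinearMap.apply ℝ (E N →L[ℝ] ℂ) (((0 : E N), V) : P N n))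
    have e1 : L V b = fc (fun x => fderiv ℝ (Th θ f) (x, a) (0, V) (b, 0)) k := by
      rw [hLV]
      refine (fc_ap (hs'.pe a) (hs'.cont ha) k b).symm.trans ?_
      refine congrArg (fun u => fc u k) (funext fun x => ?_)
      exact congrArg (fun M : E N →L[ℝ] ℂ => M b) (hT.d_clm (rl N n) (z := (x, a)) ha (0, V))
    rw [← fc_ap (hs.pe a) (hs.cont ha), e1]
    simp only [al_eq hθ hf hη (z := (_, a)) ha]
    rw [fc_sub ((hd _ _).pe a) ((hd _ _).cont ha) ((hd _ _).pe a) ((hd _ _).cont ha), hsc _ a ha]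
    ring
  · have hev : ∀ b : E N, HasFDerivAt (fun y => fc (fun x => rl N n (Th θ f (x, y))) k b)
        ((ContinuousLinearMap.apply ℝ ℂ b).comp L) a := fun b =>
      (ContinuousLinearMap.apply ℝ ℂ b).hasFDerivAt.comp a hL
    have h1 := ((hev b).const_mul (2 * Real.pi * I * kv k c : ℂ)).sub
      ((hev c).const_mul (2 * Real.pi * I * kv k b : ℂ))
    have h2 : (fun y => (2 * Real.pi * I * kv k c : ℂ) * fc (fun x => rl N n (Th θ f (x, y))) k b -
        (2 * Real.pi * I * kv k b : ℂ) * fc (fun x => rl N n (Th θ f (x, y))) k c) =ᶠ[𝓝 a]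
        fun _ => fc (fun x => -Ω (x, 0) (c, 0) (b, 0)) k := by
      filter_upwards [isOpen_ball.mem_nhds (mem_ball_zero_iff.2 ha)] with y hy
      have hy' : ‖y‖ < 1 / 4 := mem_ball_zero_iff.1 hy
      rw [← fc_ap (ht.pe y) (ht.cont hy'), ← fc_ap (ht.pe y) (ht.cont hy')]
      simp only [rl_apply]
      rw [← hsc _ y hy', ← hsc _ y hy',
        ← fc_sub ((hd _ _).pe y) ((hd _ _).cont hy') ((hd _ _).pe y) ((hd _ _).cont hy')]
      refine congrArg (fun u => fc u k) (funext fun x => ?_)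
      rw [Th_d hθ hf hη (z := (x, y)) hy']
      have h3 : Ω (x, f (x, y)) (c, fderiv ℝ f (x, y) (c, 0)) (b, fderiv ℝ f (x, y) (b, 0)) = 0 :=
        congrArg (fun M : B2 (E N) => M c b) (hl (x, y) hy')
      simp only [h3, zero_sub]
    have h3 := h1.unique ((hasFDerivAt_const _ a).congr_of_eventuallyEq h2)
    have h4 : (2 * Real.pi * I * kv k c : ℂ) * L V b - (2 * Real.pi * I * kv k b : ℂ) * L V c = 0 :=
      congrArg (fun M : Cm n →L[ℝ] ℂ => M V) h3
    have h5 : (2 * Real.pi * I : ℂ) ≠ 0 := Complex.two_pi_I_ne_zero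
    refine mul_left_cancel₀ h5 ?_
    rw [mul_zero, ← h4]
    ring

theorem norm_dx (hf : Gf η f) {z : P N n} (hz : ‖z.2‖ < 1 / 4) : ‖dx f z‖ ≤ η := by
  have e : dx f z = (fderiv ℝ f z - ContinuousLinearMap.snd ℝ _ _).comp
      (ContinuousLinearMap.inl ℝ _ _) := by
    ext1 b
    simp [dx]
  rw [e]
  exact (ContinuousLinearMap.opNorm_comp_le _ _).trans
    ((mul_le_of_le_one_right (norm_nonneg _) (ContinuousLinearMap.norm_inl_le_one ℝ _ _)).trans
      (hf.n1 z hz))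

theorem norm_dy (hf : Gf η f) {z : P N n} (hz : ‖z.2‖ < 1 / 4) (V : Cm n) :
    ‖fderiv ℝ f z (0, V) - V‖ ≤ η * ‖V‖ := by
  have h1 := (fderiv ℝ f z - ContinuousLinearMap.snd ℝ _ _).le_of_opNorm_le (hf.n1 z hz)
    (((0 : E N), V) : P N n)
  simpa using h1

theorem fc_p01 (κ : E N ≃L[ℝ] Cm n) {β : E N → E N →L[ℝ] ℂ} (h : Pe β) (hc : Continuous β)
    (k : Fin N → ℤ) : Pe (fun x => p01 κ (β x)) ∧ Continuous (fun x => p01 κ (β x)) ∧
      fc (fun x => p01 κ (β x)) k = p01 κ (fc β k) := by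
  have h1 : Pe fun x => p01 κ (β x) := fun x q => by
    show p01 κ (β _) = p01 κ (β _)
    rw [h]
  have h2 : Continuous fun x => p01 κ (β x) :=
    hc.add ((hc.clm_comp continuous_const).const_smul I)
  refine ⟨h1, h2, ?_⟩
  ext1 b
  have p1 : ∀ b, Pe fun x => β x b := fun b x q => by
    show β _ b = β _ b
    rw [h]
  have p2 : ∀ b, Continuous fun x => β x b := fun b => hc.clm_apply continuous_const
  rw [← fc_ap h1 h2, p01_apply, ← fc_ap h hc, ← fc_ap h hc, ← smul_eq_mul, ← fc_smul,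
    ← fc_add (v := fun x => I • β x (jj κ b)) (p1 b) (p2 b) (fun x q => by
      show I • β _ _ = I • β _ _
      rw [h]) ((p2 _).const_smul I)]
  rfl

end ActX

open ActX

theorem act_of (hFD : FD) (hPA : PARS) (hPR : PRIM) (hPW : PW) (hSY : SYM) : ACT := by
  intro N n κ
  obtain ⟨C, η₀, hC, hη₀, hW⟩ := hPW N n κ
  obtain ⟨C', hC', -, -, s3, s4, s5, -⟩ := hSY N n κ
  obtain ⟨ε, hε, hP⟩ := hPA N (E N →L[ℝ] ℂ) (E N →L[ℝ] ℂ) C'
  obtain ⟨η, hη, e1, e2, e3, e4⟩ : ∃ η : ℝ, 0 < η ∧ η ≤ η₀ ∧ η ≤ 1 / 4 ∧ C * η ≤ 1 / 8 ∧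
      C * η ≤ ε := by
    refine ⟨min (min η₀ (1 / 4)) (min (1 / 8) ε / C), by positivity,
      (min_le_left _ _).trans (min_le_left _ _), (min_le_left _ _).trans (min_le_right _ _),
      ?_, ?_⟩
    · exact ((le_div_iff₀' hC).1 (min_le_right _ _)).trans (min_le_left _ _)
    · exact ((le_div_iff₀' hC).1 (min_le_right _ _)).trans (min_le_right _ _)
  refine ⟨η, hη, fun Ω f hΩ hf hl => ?_⟩
  have e2' : η ≤ 1 / 2 := by linarith
  obtain ⟨θ, hθ⟩ := hPR N n Ω hΩ.toFm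
  have hw := fun (z : P N n) (hz : ‖z.2‖ < 1 / 4) =>
    hW η e1 (Ω (z.1, f z)) (dx f z) (hΩ.skew _) (hΩ.cx (z.1, f z) (norm_f hf e2' hz))
      (hΩ.b0 (z.1, f z) (norm_f hf e2' hz)) (norm_dx hf hz)
  have hs := al_sm hΩ.per hθ hf e2'
  have hfc := fun (a : Cm n) (ha : ‖a‖ < 1 / 4) => fc_al hFD hΩ.per hθ hf e2' hl ha
  obtain ⟨A, hA⟩ : ∃ A : Cm n → Cm n,
      A = fun a => r10 κ (fc (fun x => rl N n (Th θ f (x, a))) 0) := ⟨_, rfl⟩
  have h0 : ∀ a : Cm n, ‖a‖ < 1 / 4 → HasFDerivAt A (fderiv ℝ A a) a ∧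
      ∀ V, fderiv ℝ A a V = r10 κ (fc (fun x => al Ω f V (x, a)) 0) := by
    intro a ha
    obtain ⟨L, h1, h2, -⟩ := hfc a ha 0
    have h3 : HasFDerivAt A ((r10 κ).comp L) a := by
      rw [hA]; exact (r10 κ).hasFDerivAt.comp a h1
    refine ⟨h3.differentiableAt.hasFDerivAt, fun V => ?_⟩
    obtain ⟨γ, hγ⟩ := h2 V
    have h4 : fc (fun x => al Ω f V (x, a)) 0 = L V := by
      ext1 b
      rw [hγ, kv_zero]
      simp
    rw [h3.fderiv, h4]
    rfl
  have hn : ∀ a : Cm n, ‖a‖ < 1 / 4 → ∀ V, ‖fderiv ℝ A a V - V‖ ≤ 1 / 2 * ‖V‖ := by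
    intro a ha V
    have hr := (hs V).clm (r10 κ)
    rw [(h0 a ha).2, fc_zero, ← mean_clm (r10 κ) ((hs V).pe a) ((hs V).cont ha)]
    have e : mean (fun x => r10 κ (al Ω f V (x, a))) - V =
        mean fun x => r10 κ (al Ω f V (x, a)) - V := by
      rw [mean_sub (hr.pe a) (hr.cont ha) (fun _ _ => rfl) continuous_const, mean_const]
    rw [e]
    refine norm_mean_le fun x => ?_
    have k1 := (hw (x, a) ha).2.1 (fderiv ℝ f (x, a) (0, V))
    have k2 := norm_dy hf (z := (x, a)) ha V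
    have k3 := norm_add_le (fderiv ℝ f (x, a) (0, V) - V) V
    rw [sub_add_cancel] at k3
    have k4 := norm_add_le (r10 κ (al Ω f V (x, a)) - fderiv ℝ f (x, a) (0, V))
      (fderiv ℝ f (x, a) (0, V) - V)
    rw [sub_add_sub_cancel] at k4
    have k5 : η * ‖V‖ ≤ 1 / 4 * ‖V‖ := mul_le_mul_of_nonneg_right e2 (norm_nonneg _)
    have k6 : C * η * ‖fderiv ℝ f (x, a) (0, V)‖ ≤ 1 / 8 * ‖fderiv ℝ f (x, a) (0, V)‖ :=
      mul_le_mul_of_nonneg_right e3 (norm_nonneg _)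
    have k7 : ‖r10 κ (al Ω f V (x, a)) - fderiv ℝ f (x, a) (0, V)‖ ≤
      C * η * ‖fderiv ℝ f (x, a) (0, V)‖ := k1
    have k8 := norm_nonneg V
    linarith
  refine ⟨A, fderiv ℝ A, fun a ha => (h0 a ha).1, fun a ha =>
    ContinuousLinearMap.opNorm_le_bound _ (by norm_num) (hn a ha), fun z hz u u' hu => ?_⟩
  have hinj : Function.Injective (fderiv ℝ A z.2 : Cm n →ₗ[ℝ] Cm n) := by
    refine (injective_iff_map_eq_zero _).2 fun V hV => ?_
    have k1 := hn z.2 hz V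
    have hV' : fderiv ℝ A z.2 V = 0 := hV
    rw [hV', zero_sub, norm_neg] at k1
    exact norm_le_zero_iff.1 (by linarith)
  obtain ⟨W, hW'⟩ := LinearMap.injective_iff_surjective.1 hinj (I • fderiv ℝ A z.2 u.2)
  have hWe : fderiv ℝ A z.2 W = I • fderiv ℝ A z.2 u.2 := hW'
  have b1 : Pe fun x => I • al Ω f u.2 (x, z.2) := fun x q =>
    congrArg (fun M => I • M) ((hs u.2).pe z.2 x q)
  have b2 : Continuous fun x => I • al Ω f u.2 (x, z.2) := ((hs u.2).cont hz).const_smul I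
  have b3 : Pe fun x => al Ω f W (x, z.2) - I • al Ω f u.2 (x, z.2) := fun x q =>
    congrArg₂ (fun M M' => M - M') ((hs W).pe z.2 x q) (b1 x q)
  have b4 : Continuous fun x => al Ω f W (x, z.2) - I • al Ω f u.2 (x, z.2) :=
    ((hs W).cont hz).sub b2
  have hβ := hP _ _ b4 (fc_p01 κ b3 b4 0).2.1 b3 (fc_p01 κ b3 b4 0).1 (fun k => by
      rw [(fc_p01 κ b3 b4 k).2.2, fc_sub ((hs W).pe z.2) ((hs W).cont hz) b1 b2, fc_smul]
      by_cases hk : k = 0
      · refine s4 _ ?_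
        rw [hk, map_sub, s5, ← (h0 z.2 hz).2, ← (h0 z.2 hz).2, hWe, sub_self]
      · refine s3 _ _ (kv_ne hk) ?_
        obtain ⟨L, -, h2, h3⟩ := hfc z.2 hz k
        obtain ⟨γ, hγ⟩ := h2 W
        obtain ⟨γ', hγ'⟩ := h2 u.2
        ext1 b
        ext1 c
        rw [wg_apply]
        simp only [sub_apply, smul_apply, hγ, hγ', smul_eq_mul, zero_apply]
        linear_combination h3 W c b - I * h3 u.2 c b)
    (fun x => ((hw (x, z.2) hz).2.2 (hl (x, z.2) hz) _ _).trans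
      (mul_le_mul_of_nonneg_right e4 (norm_nonneg _))) z.1
  have hsplit : ∀ (v : P N n) (b : E N), Ω (z.1, f z) (v.1, fderiv ℝ f z v) (b, dx f z b) =
      al Ω f v.2 z b := by
    intro v b
    have k1 : ((v.1, fderiv ℝ f z v) : P N n) = (v.1, dx f z v.1) + (0, fderiv ℝ f z (0, v.2)) := by
      have : v = (v.1, 0) + (0, v.2) := by simp
      refine Prod.ext (by simp) ?_
      show fderiv ℝ f z v = fderiv ℝ f z (v.1, 0) + fderiv ℝ f z (0, v.2)
      rw [← map_add, ← this]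
    have k2 : Ω (z.1, f z) (v.1, dx f z v.1) (b, dx f z b) = 0 :=
      congrArg (fun M : B2 (E N) => M v.1 b) (hl z hz)
    rw [k1, map_add, add_apply, k2, zero_add]
    rfl
  have hz0 : nv (Ω (z.1, f z)) (dx f z) (fderiv ℝ f z (0, u'.2 - W)) = 0 := by
    ext1 b
    have k1 := hu (b, dx f z b)
    rw [hsplit, hsplit] at k1
    have k2 : al Ω f W z b - I * al Ω f u.2 z b = 0 :=
      congrArg (fun M : E N →L[ℝ] ℂ => M b) hβ
    have k3 : (((0 : E N), fderiv ℝ f z (0, u'.2 - W)) : P N n) =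
        (0, fderiv ℝ f z (0, u'.2)) - (0, fderiv ℝ f z (0, W)) := by
      refine Prod.ext (by simp) ?_
      show fderiv ℝ f z (0, u'.2 - W) = fderiv ℝ f z (0, u'.2) - fderiv ℝ f z (0, W)
      rw [← map_sub]
      simp
    rw [nv_apply, k3, map_sub, sub_apply]
    show al Ω f u'.2 z b - al Ω f W z b = 0
    linear_combination k1 - k2
  have k1 := (hw z hz).2.1 (fderiv ℝ f z (0, u'.2 - W))
  rw [hz0, map_zero, zero_sub, norm_neg] at k1
  have k2 : C * η * ‖fderiv ℝ f z (0, u'.2 - W)‖ ≤ 1 / 8 * ‖fderiv ℝ f z (0, u'.2 - W)‖ :=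
    mul_le_mul_of_nonneg_right e3 (norm_nonneg _)
  have k3 : fderiv ℝ f z (0, u'.2 - W) = 0 := norm_le_zero_iff.1 (by linarith)
  have k4 := norm_dy hf hz (u'.2 - W)
  rw [k3, zero_sub, norm_neg] at k4
  have k5 : η * ‖u'.2 - W‖ ≤ 1 / 4 * ‖u'.2 - W‖ := mul_le_mul_of_nonneg_right e2 (norm_nonneg _)
  have k6 : u'.2 = W := sub_eq_zero.1 (norm_le_zero_iff.1 (by linarith))
  rw [k6, hWe]

end Vale.Agent.P301Z.Tor
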