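import Vale.Agent.P301Z.Tor.Sk2

/-!
# P301Z, block TOR: from the model to the tube
-/

open scoped ContDiff Topology NNReal Matrix
open Set Filter Complex Module Metric MeasureTheory
open Vale.Agent.P272.K Vale.Agent.P272.K.LIN Vale.Agent.P301Z.An

set_option maxSynthPendingDepth 3

noncomputable section

namespace Vale.Agent.P301Z.Tor

namespace Back

variable {N n : ℕ}

theorem exists_equiv (μ : Cm n ≃L[ℝ] E N) : ∃ L : P N n ≃L[ℝ] Cm N, ∀ z, L z = lm μ z := by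
  let A : Cm N →L[ℝ] E N :=
    (2 * Real.pi)⁻¹ • ContinuousLinearMap.pi fun i => imCLM.comp (ContinuousLinearMap.proj i)
  let B : Cm N →L[ℝ] E N :=
    ContinuousLinearMap.pi fun i => reCLM.comp (ContinuousLinearMap.proj i)
  have hA : ∀ v i, A v i = (2 * Real.pi)⁻¹ * (v i).im := fun _ _ => rfl
  have hB : ∀ v i, B v i = (v i).re := fun _ _ => rfl
  have hpi : (2 * Real.pi) ≠ 0 := by positivity
  refine ⟨ContinuousLinearEquiv.equivOfInverse (lm μ)
    (A.prod ((μ.symm : E N →L[ℝ] Cm n).comp B)) (fun z => ?_) (fun v => ?_), fun _ => rfl⟩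
  · refine Prod.ext (funext fun i => ?_) ?_
    · show A (lm μ z) i = z.1 i
      rw [hA]
      have : (lm μ z i).im = 2 * Real.pi * z.1 i := by simp [lm_apply, imL_apply, reL_apply]
      rw [this, inv_mul_cancel_left₀ hpi]
    · show μ.symm (B (lm μ z)) = z.2
      rw [show B (lm μ z) = μ z.2 from funext fun i => lm_re μ z i, μ.symm_apply_apply]
  · funext i
    show imL N (A v) i + reL N (μ (μ.symm (B v))) i = v i
    rw [μ.apply_symm_apply, imL_apply, reL_apply, hA, hB]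
    have h1 : (2 * Real.pi : ℂ) ≠ 0 := by exact_mod_cast hpi
    push_cast
    field_simp
    rw [add_comm, mul_comm]
    exact re_add_im (v i)

variable {μ : Cm n ≃L[ℝ] E N} {L : P N n ≃L[ℝ] Cm N}

theorem symm_per (hL : ∀ z, L z = lm μ z) (v : Cm N) (q : Fin N → ℤ) :
    L.symm (v + per q) = ((L.symm v).1 + zv q, (L.symm v).2) := by
  have h1 : per q = L (zv q, 0) := by rw [hL, lm_apply, imL_zv, map_zero, map_zero, add_zero]
  rw [map_add, h1, L.symm_apply_apply]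
  exact Prod.ext rfl (add_zero _)

theorem re_le (hμ : ∀ y, ‖μ y‖ ≤ ‖y‖) (hL : ∀ z, L z = lm μ z) (v : Cm N) (i : Fin N) :
    |(v i).re| ≤ ‖(L.symm v).2‖ := by
  have h1 := lm_re μ (L.symm v) i
  rw [← hL, L.apply_symm_apply] at h1
  rw [h1]
  exact (norm_le_pi_norm (μ (L.symm v).2) i).trans (hμ _)

theorem fib (hμ : ∀ y, ‖μ y‖ ≤ ‖y‖) (hL : ∀ z, L z = lm μ z) {Ω : Cm N → B2 (Cm N)}
    {Ω' : P N n → B2 (P N n)} {U π g b₀ r}
    (hΩ : ∀ z : P N n, ‖z.2‖ < 1 → Ω' z = pl μ (Ω (lm μ z))) (F : Fb Ω' U π g b₀ r) :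
    TFb Ω (L.symm ⁻¹' U) fun v => r⁻¹ • (π (L.symm v) - b₀) := by
  have hr := F.pos
  have h1 : ∀ z ∈ U, π z ∈ ball b₀ r ∧ z.2 = g (z.1, π z) := fun z hz => by
    obtain ⟨b, hb, e⟩ := (F.mem z).1 hz
    have : π z = b := by rw [← F.inv z.1 b hb, ← e]
    rw [this]
    exact ⟨hb, e⟩
  have h2 : ∀ z ∈ U, ‖z.2‖ < 1 / 2 := fun z hz => by
    rw [(h1 z hz).2]
    exact F.small _ _ (h1 z hz).1
  have h3 : ∀ c ∈ ball (0 : Cm n) 1, b₀ + r • c ∈ ball b₀ r := fun c hc => by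
    rw [mem_ball_iff_norm, add_sub_cancel_left, norm_smul, Real.norm_of_nonneg hr.le]
    exact mul_lt_of_lt_one_right hr (mem_ball_zero_iff.1 hc)
  have h4 : ∀ x, ∀ c ∈ ball (0 : Cm n) 1, L (x, g (x, b₀ + r • c)) ∈ L.symm ⁻¹' U ∧
      r⁻¹ • (π (L.symm (L (x, g (x, b₀ + r • c)))) - b₀) = c := fun x c hc => by
    rw [mem_preimage, L.symm_apply_apply, F.inv _ _ (h3 c hc), add_sub_cancel_left,
      inv_smul_smul₀ hr.ne']
    exact ⟨(F.mem _).2 ⟨_, h3 c hc, rfl⟩, rfl⟩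
  have h5 : ∀ t : Cm n, b₀ + r • r⁻¹ • (t - b₀) = t := fun t => by
    rw [smul_inv_smul₀ hr.ne', add_sub_cancel]
  have h6 : ContinuousOn (fun p : E N × Cm n => L (p.1, g (p.1, b₀ + r • p.2)))
      (univ ×ˢ ball 0 1) := by
    refine L.continuous.comp_continuousOn (continuousOn_fst.prodMk ?_)
    exact F.cont.comp (f := fun p : E N × Cm n => (p.1, b₀ + r • p.2)) (by fun_prop)
      fun p hp => ⟨trivial, h3 _ hp.2⟩
  refine ⟨F.opn.preimage L.symm.continuous, fun v hv i => ?_, fun v hv q => ?_, fun v hv => ?_,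
    fun c hc => ⟨_, h4 0 c hc⟩, fun K hK hKc => ?_, fun c hc => ?_, fun v hv => ?_⟩
  · exact (re_le hμ hL v i).trans_lt ((h2 _ hv).trans (by norm_num))
  · obtain ⟨k1, k2⟩ := h1 _ hv
    have k3 : (L.symm v).2 = g ((L.symm v).1 + zv q, π (L.symm v)) := by rw [F.per, ← k2]
    rw [mem_preimage, symm_per hL]
    refine ⟨(F.mem _).2 ⟨_, k1, k3⟩, ?_⟩
    rw [k3, F.inv _ _ k1]
  · rw [mem_ball_zero_iff, norm_smul, norm_inv, Real.norm_of_nonneg hr.le, inv_mul_lt_iff₀ hr,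
      mul_one]
    exact mem_ball_iff_norm.1 (h1 _ hv).1
  · refine ⟨_, (isCompact_Icc (a := (0 : E N)) (b := 1)).prod hKc |>.image_of_continuousOn
      (h6.mono (prod_mono (subset_univ _) hK)), ?_, ?_, fun v hv hvK => ?_⟩
    · rintro _ ⟨p, hp, rfl⟩
      exact (h4 p.1 p.2 (hK hp.2)).1
    · rintro _ ⟨p, hp, rfl⟩
      show _ ∈ K
      rw [(h4 p.1 p.2 (hK hp.2)).2]
      exact hp.2
    · obtain ⟨q, hq⟩ := pr_eq_iff.1 (pr_lf (pr (L.symm v).1))
      refine ⟨q, (lf (pr (L.symm v).1), r⁻¹ • (π (L.symm v) - b₀)), ⟨lf_mem (pr (L.symm v).1), hvK⟩, ?_⟩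
      show L _ = _
      rw [h5, hq, F.per, ← (h1 _ hv).2, ← symm_per hL, L.apply_symm_apply]
  · have e : L.symm ⁻¹' U ∩ (fun v => r⁻¹ • (π (L.symm v) - b₀)) ⁻¹' {c} =
        (fun x => L (x, g (x, b₀ + r • c))) '' univ := by
      ext v
      constructor
      · rintro ⟨k1, k2⟩
        refine ⟨(L.symm v).1, trivial, ?_⟩
        show L _ = _
        rw [← show r⁻¹ • (π (L.symm v) - b₀) = c from k2, h5, ← (h1 _ k1).2, L.apply_symm_apply]
      · rintro ⟨x, -, rfl⟩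
        exact h4 x c hc
    rw [e]
    exact isPreconnected_univ.image _ (h6.comp (f := fun x : E N => (x, c)) (by fun_prop)
      fun x _ => ⟨trivial, hc⟩)
  · obtain ⟨D, k1, k2⟩ := F.dif _ hv
    have k3 : ∀ u w, Ω' (L.symm v) (L.symm u) w = Ω v u (L w) := fun u w => by
      rw [hΩ _ ((h2 _ hv).trans (by norm_num)), pl_apply, ← hL, ← hL, ← hL, L.apply_symm_apply,
        L.apply_symm_apply]
    refine ⟨r⁻¹ • D.comp (L.symm : Cm N →L[ℝ] P N n),
      ((k1.comp v L.symm.hasFDerivAt).sub_const b₀).const_smul r⁻¹, fun t => ?_, fun u u' h => ?_,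
      fun u w hu hw => ?_⟩
    · obtain ⟨z, hz⟩ := k2.onto (r • t)
      refine ⟨L z, ?_⟩
      show r⁻¹ • D (L.symm (L z)) = t
      rw [L.symm_apply_apply, hz, inv_smul_smul₀ hr.ne']
    · show r⁻¹ • D (L.symm u') = I • r⁻¹ • D (L.symm u)
      rw [k2.hol (L.symm u) (L.symm u') fun w => by rw [k3, k3, h], smul_comm]
    · have j : ∀ u, (r⁻¹ • D.comp (L.symm : Cm N →L[ℝ] P N n)) u = 0 → D (L.symm u) = 0 :=
        fun u h => (smul_eq_zero.1 h).resolve_left (inv_ne_zero hr.ne')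
      have := k2.lag _ _ (j u hu) (j w hw)
      rwa [k3, L.apply_symm_apply] at this

theorem prim (hμ : ∀ y, ‖μ y‖ ≤ ‖y‖) (hL : ∀ z, L z = lm μ z) {b : Cm N → B2 (Cm N)}
    {b' : P N n → B2 (P N n)} {U : Set (P N n)} {γ : P N n → P N n →L[ℝ] ℂ}
    (hb : ∀ z : P N n, ‖z.2‖ < 1 → b' z = pl μ (b (lm μ z))) (hU : ∀ z ∈ U, ‖z.2‖ < 1 / 2)
    (h1 : ContDiff ℝ ∞ γ) (h2 : Pe2 γ)
    (h3 : ∀ z : P N n, ‖z.2‖ < 1 → ∀ u v, fderiv ℝ γ z u v - fderiv ℝ γ z v u = b' z u v) :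
    ∃ γ', TP b (L.symm ⁻¹' U) γ' := by
  let β : ContDiffBump (0 : Cm n) := ⟨1 / 2, 3 / 4, by norm_num, by norm_num⟩
  let G : Cm N → Cm N →L[ℝ] ℂ := fun v => (γ (L.symm v)).comp (L.symm : Cm N →L[ℝ] P N n)
  have hG : ContDiff ℝ ∞ G := (h1.comp L.symm.contDiff).clm_comp contDiff_const
  refine ⟨fun v => β (L.symm v).2 • G v,
    (β.contDiff.comp (contDiff_snd.comp L.symm.contDiff)).smul hG, fun v q => ?_, fun v hv => ?_,
    fun v hv p q => ?_⟩
  · simp only [G, symm_per hL, h2 _ _ q]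
  · obtain ⟨i, hi⟩ := not_forall.1 hv
    have := (not_lt.1 hi).trans (re_le hμ hL v i)
    rw [β.zero_of_le_dist, zero_smul]
    rw [dist_zero_right]
    exact le_trans (by norm_num [β]) this
  · have k1 : (fun v => β (L.symm v).2 • G v) =ᶠ[𝓝 v] G := by
      have hc : Continuous fun v => ‖(L.symm v).2‖ := by fun_prop
      filter_upwards [hc.continuousAt.eventually_lt_const (hU _ hv)] with w hw
      rw [β.one_of_mem_closedBall (mem_closedBall_zero_iff.2 hw.le), one_smul]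
    have k2 : HasFDerivAt G _ v :=
      (((h1.differentiable (by simp)) _).hasFDerivAt.comp v L.symm.hasFDerivAt).clm_comp
        (hasFDerivAt_const _ _)
    have k3 : ∀ p q, fderiv ℝ G v p q = fderiv ℝ γ (L.symm v) (L.symm p) (L.symm q) := by
      intro p q
      rw [k2.fderiv]
      simp
    have k4 := (hU _ hv).trans (by norm_num : (1 / 2 : ℝ) < 1)
    rw [k1.fderiv_eq, k3, k3, h3 _ k4, hb _ k4, pl_apply, ← hL, ← hL, ← hL, L.apply_symm_apply,
      L.apply_symm_apply, L.apply_symm_apply]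

end Back

theorem back : BACK := by
  intro N n μ hμ Ω b Ω' b' U π g b₀ r γ hΩ hb F h1 h2 h3
  obtain ⟨L, hL⟩ := Back.exists_equiv μ
  obtain ⟨γ', h4⟩ := Back.prim (U := U) hμ hL hb (fun z hz => by
    obtain ⟨t, ht, e⟩ := (F.mem z).1 hz
    rw [e]
    exact F.small _ _ ht) h1 h2 h3
  exact ⟨_, _, γ', Back.fib hμ hL hΩ F, h4⟩

end Vale.Agent.P301Z.Tor
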