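import Vale.Agent.P301Z.Tor.Sk2

/-!
# P301Z, block TOR: the compactness argument (row TOR-CMP)
-/

open scoped ContDiff Topology NNReal Matrix
open Set Filter Complex Module Metric MeasureTheory
open Vale.Agent.P272.K Vale.Agent.P272.K.LIN Vale.Agent.P301Z.An

set_option maxSynthPendingDepth 3

noncomputable section

namespace Vale.Agent.P301Z.Tor

variable {N : ℕ}

theorem cmp_cvx (N : ℕ) (R : ℝ) : Convex ℝ (Tb N R) := by
  have : Tb N R = ⋂ i, (reLm.comp (LinearMap.proj i : Cm N →ₗ[ℝ] ℂ)) ⁻¹' Ioo (-R) R := by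
    ext v
    simp [Tb, abs_lt]
  rw [this]
  exact convex_iInter fun i => (convex_Ioo _ _).linear_preimage _

theorem cmp_zero : (0 : Cm N) ∈ Tb N 2 := fun i => by simp

theorem cmp_osc {Ω : Cm N → B2 (Cm N)} (h : TF Ω) {η : ℝ}
    (hb : ∀ v ∈ Tb N 2, ‖fderiv ℝ Ω v‖ ≤ η) {v : Cm N} (hv : v ∈ Tb N 2) :
    ‖Ω v - Ω 0‖ ≤ 10 * η := by
  have hη : 0 ≤ η := (norm_nonneg _).trans (hb 0 cmp_zero)
  have hπ := Real.pi_pos
  set q : Fin N → ℤ := fun i => -round ((v i).im / (2 * Real.pi)) with hq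
  have hre : ∀ i, ((v + per q) i).re = (v i).re := fun i => by simp [per]
  have him : ∀ i, |((v + per q) i).im| ≤ Real.pi := fun i => by
    have e : ((v + per q) i).im = 2 * Real.pi * ((v i).im / (2 * Real.pi) -
        round ((v i).im / (2 * Real.pi))) := by
      simp only [per, hq, Pi.add_apply, add_im, mul_im, mul_re, re_ofNat, ofReal_re, im_ofNat,
        ofReal_im, I_re, I_im, intCast_re, intCast_im, Int.cast_neg, neg_re, neg_im]
      field_simp
      ring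
    rw [e, abs_mul, abs_of_pos (by positivity : 0 < 2 * Real.pi)]
    nlinarith [abs_sub_round ((v i).im / (2 * Real.pi))]
  have hw : v + per q ∈ Tb N 2 := fun i => by rw [hre]; exact hv i
  have hn : ‖v + per q‖ ≤ 10 := (pi_norm_le_iff_of_nonneg (by norm_num)).2 fun i => by
    refine (norm_le_abs_re_add_abs_im _).trans ?_
    have := hw i
    have := him i
    linarith [Real.pi_le_four]
  rw [← h.per v hv q]
  refine ((cmp_cvx N 2).norm_image_sub_le_of_norm_fderiv_le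
    (fun x hx => (h.sm x hx).differentiableAt (by simp)) hb cmp_zero hw).trans ?_
  rw [sub_zero, mul_comm]
  exact mul_le_mul_of_nonneg_right hn hη

theorem cmp_per {Ω : Cm N → B2 (Cm N)} (h : TF Ω) {η : ℝ}
    (hb : ∀ v ∈ Tb N 2, ‖fderiv ℝ Ω v‖ ≤ η) (i j : Fin N) :
    ‖Ω 0 (pv i) (pv j)‖ ≤ 10 * η * ‖pv i‖ * ‖pv j‖ := by
  have hm : ∀ a : Fin 2 → ℝ, (0 : Cm N) + a 0 • pv i + a 1 • pv j ∈ Tb N 2 := fun a k => by
    simp [pv, Pi.single_apply, apply_ite re]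
  have hc : Continuous fun a : Fin 2 → ℝ => Ω (0 + a 0 • pv i + a 1 • pv j) :=
    continuous_iff_continuousAt.2 fun a => ContinuousAt.comp (g := Ω)
      (f := fun a : Fin 2 → ℝ => (0 : Cm N) + a 0 • pv i + a 1 • pv j)
      (h.sm _ (hm a)).continuousAt (by fun_prop)
  have hv : volume (Icc (0 : Fin 2 → ℝ) 1) = 1 := by simp [Real.volume_Icc_pi]
  have hr : (volume : Measure (Fin 2 → ℝ)).real (Icc 0 1) = 1 := by simp [Measure.real, hv]
  have hi : IntegrableOn (fun a : Fin 2 → ℝ => Ω (0 + a 0 • pv i + a 1 • pv j) (pv i) (pv j))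
      (Icc 0 1) := ((hc.clm_apply continuous_const).clm_apply
        continuous_const).continuousOn.integrableOn_compact isCompact_Icc
  have e : ∫ a in Icc (0 : Fin 2 → ℝ) 1, (Ω (0 + a 0 • pv i + a 1 • pv j) (pv i) (pv j) -
      Ω 0 (pv i) (pv j)) = -Ω 0 (pv i) (pv j) := by
    rw [integral_sub hi (integrableOn_const (by simp [hv])), h.zero 0 cmp_zero, setIntegral_const,
      hr, one_smul, zero_sub]
  rw [← norm_neg, ← e, ← mul_one (_ * ‖pv j‖), ← hr]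
  refine norm_setIntegral_le_of_norm_le_const (by simp [hv]) fun a _ => ?_
  refine (((Ω (0 + a 0 • pv i + a 1 • pv j) - Ω 0).le_opNorm₂ (pv i) (pv j))).trans ?_
  gcongr
  exact cmp_osc h hb (hm a)

theorem cmp_ev {o : ℕ → B2 (Cm N)} {l : B2 (Cm N)} (ho : Tendsto o atTop (𝓝 l)) {u : ℕ → Cm N}
    {w : Cm N} (hu : Tendsto u atTop (𝓝 w)) : Tendsto (fun m => o m (u m)) atTop (𝓝 (l w)) :=
  ((continuous_fst.clm_apply continuous_snd).tendsto (l, w)).comp (ho.prodMk_nhds hu)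

theorem cmp_ev2 {o : ℕ → B2 (Cm N)} {l : B2 (Cm N)} (ho : Tendsto o atTop (𝓝 l)) {u : ℕ → Cm N}
    {w : Cm N} (hu : Tendsto u atTop (𝓝 w)) (v : Cm N) :
    Tendsto (fun m => o m (u m) v) atTop (𝓝 (l w v)) :=
  ((continuous_id.clm_apply (continuous_const (y := v))).tendsto (l w)).comp (cmp_ev ho hu)

theorem cmp_cx {o : ℕ → B2 (Cm N)} {l : B2 (Cm N)} {C : ℝ} (ho : Tendsto o atTop (𝓝 l))
    (h1 : ∀ m, Cx (o m)) (h2 : ∀ m, ‖o m‖ ≤ C) (h3 : ∀ m p, ‖p‖ ≤ C * ‖o m p‖) : Cx l := by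
  intro u
  choose w hw using fun m => h1 m u
  have hC : 0 ≤ C := (norm_nonneg _).trans (h2 0)
  have hb : ∀ m, w m ∈ closedBall (0 : Cm N) (C * (C * ‖u‖)) := fun m => by
    have e : o m (w m) = I • o m u := ContinuousLinearMap.ext (hw m)
    rw [mem_closedBall_zero_iff]
    refine (h3 m _).trans (mul_le_mul_of_nonneg_left ?_ hC)
    rw [e, norm_smul, norm_I, one_mul]
    exact (o m).le_of_opNorm_le (h2 m) u
  obtain ⟨w₀, -, φ, hφ, hw₀⟩ := (isCompact_closedBall _ _).tendsto_subseq hb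
  have ho' := ho.comp hφ.tendsto_atTop
  exact ⟨w₀, fun v => tendsto_nhds_unique (cmp_ev2 ho' hw₀ v)
    (((cmp_ev2 ho' tendsto_const_nhds v).const_mul I).congr fun m => (hw _ v).symm)⟩

theorem cmp_im {o : B2 (Cm N)} (h : ∀ i j, o (pv i) (pv j) = 0) (x x' : E N) :
    o (imL N x) (imL N x') = 0 := by
  have e : ∀ x : E N, imL N x = ∑ i, x i • pv i := fun x => by
    conv_lhs => rw [← Finset.univ_sum_single x]
    rw [map_sum]
    refine Finset.sum_congr rfl fun i _ => ?_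
    rw [← imL_single, ← map_smul, ← Pi.single_smul', smul_eq_mul, mul_one]
  simp [e, h]

theorem cmp_re (y : E N) : I • reL N y = imL N ((2 * Real.pi)⁻¹ • y) := funext fun i => by
  have : (Real.pi : ℂ) ≠ 0 := ofReal_ne_zero.2 Real.pi_ne_zero
  simp only [Pi.smul_apply, reL_apply, imL_apply, smul_eq_mul, ofReal_mul, ofReal_inv,
    ofReal_ofNat]
  field_simp

theorem tub_of (h1 : LAG) (h2 : EXA) (h3 : MOD) (h4 : TRF) (h5 : BACK) : TUB := by
  intro n C
  by_contra hc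
  have hc' : ∀ m : ℕ, ∃ Ω b : Cm (n + n) → B2 (Cm (n + n)), TF Ω ∧ TF b ∧
      TD C (1 / ((m : ℝ) + 1)) Ω ∧ ¬∃ (U : Set (Cm (n + n))) (π : Cm (n + n) → Cm n)
        (γ : Cm (n + n) → Cm (n + n) →L[ℝ] ℂ), TFb Ω U π ∧ TP b U γ := fun m => by
    by_contra h
    exact hc ⟨1 / ((m : ℝ) + 1), by positivity, fun Ω b a1 a2 a3 => by
      by_contra h'
      exact h ⟨Ω, b, a1, a2, a3, h'⟩⟩
  choose Ω b a1 a2 a3 a4 using hc'
  have : ProperSpace (B2 (Cm (n + n))) := FiniteDimensional.proper ℝ _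
  obtain ⟨o, -, φ, hφ, ho⟩ := (isCompact_closedBall (0 : B2 (Cm (n + n))) C).tendsto_subseq
    (x := fun m => Ω m 0) fun m => mem_closedBall_zero_iff.2 (a3 m).up
  have hη : Tendsto (fun m => 1 / ((φ m : ℝ) + 1)) atTop (𝓝 0) :=
    tendsto_one_div_add_atTop_nhds_zero_nat.comp hφ.tendsto_atTop
  have ev := fun u v => cmp_ev2 ho (tendsto_const_nhds (x := u)) v
  have s1 : Sk o := fun u v =>
    tendsto_nhds_unique (ev u v) ((ev v u).neg.congr fun m => ((a1 _).skew 0 u v).symm)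
  have s2 : Cx o := cmp_cx ho (fun m => (a3 _).cx 0 cmp_zero) (fun m => (a3 _).up)
    fun m => (a3 _).lo
  have s3 : ∀ p, o p = 0 → p = 0 := fun p hp => by
    have := ge_of_tendsto' ((cmp_ev ho (tendsto_const_nhds (x := p))).norm.const_mul C)
      fun m => (a3 _).lo p
    rwa [hp, norm_zero, mul_zero, norm_le_zero_iff] at this
  have s4 : ∀ x x', o (imL _ x) (imL _ x') = 0 := cmp_im fun i j => by
    have := le_of_tendsto_of_tendsto' (ev (pv i) (pv j)).norm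
      (((hη.const_mul 10).mul_const ‖pv i‖).mul_const ‖pv j‖)
      fun m => cmp_per (a1 _) (a3 _).b1 i j
    rwa [mul_zero, zero_mul, zero_mul, norm_le_zero_iff] at this
  have s5 : ∀ y y', o (reL _ y) (reL _ y') = 0 := fun y y' => by
    have := tendsto_nhds_unique (ev (I • reL _ y) (I • reL _ y'))
      ((ev (reL _ y) (reL _ y')).star.congr fun m => ((a3 _).cj _ _).symm)
    rw [cmp_re, cmp_re, s4] at this
    exact star_eq_zero.1 this.symm
  obtain ⟨κ, μ, hμ, hκ⟩ := h3 n o s1 s2 s3 s4 s5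
  obtain ⟨ε, hε, h1⟩ := h1 (n + n) n κ
  obtain ⟨c, hc0, h4⟩ := h4 (n + n) n μ hμ
  have hT : Tendsto (fun m => c * (‖Ω (φ m) 0 - o‖ + 11 * (1 / ((φ m : ℝ) + 1)))) atTop (𝓝 0) := by
    simpa using ((tendsto_iff_norm_sub_tendsto_zero.1 ho).add (hη.const_mul 11)).const_mul c
  obtain ⟨m, hm⟩ := (hT.eventually (ge_mem_nhds hε)).exists
  obtain ⟨Ω', -, e1, hd⟩ := h4 _ (a1 (φ m))
  obtain ⟨b', hb', e2, -⟩ := h4 _ (a2 (φ m))
  have hp : 0 < 1 / ((φ m : ℝ) + 1) := by positivity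
  obtain ⟨U, π, g, b₀, r, hF⟩ := h1 Ω' ((hd κ o _ hκ fun v hv => by
    have t1 := cmp_osc (a1 (φ m)) (a3 _).b1 hv
    have t2 := norm_sub_le_norm_sub_add_norm_sub (Ω (φ m) v) (Ω (φ m) 0) o
    have t3 := norm_nonneg (Ω (φ m) 0 - o)
    have t4 := (a3 (φ m)).b1 v hv
    have t5 := (a3 (φ m)).b2 v hv
    exact ⟨(a3 _).cx v hv, by linarith, by linarith, by linarith⟩).mono hm)
  obtain ⟨γ, g1, g2, g3⟩ := h2 _ _ b' hb'
  exact a4 _ (h5 _ _ μ hμ _ _ Ω' b' U π g b₀ r γ e1 e2 hF g1 g2 g3)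

end Vale.Agent.P301Z.Tor
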