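import Vale.Agent.P301Z.Tor.Defs
import Mathlib.Analysis.Calculus.ParametricIntegral

/-!
# P301Z, block TOR: smooth parameter integrals over a compact parameter set
-/

open MeasureTheory Set Metric Filter
open scoped ContDiff Topology

namespace Vale.Agent.P301Z.Tor.Par

section
variable {S F : Type} [NormedAddCommGroup S] [NormedSpace ℝ S] [MeasurableSpace S] [BorelSpace S]
  [SecondCountableTopology S]
  [NormedAddCommGroup F] [NormedSpace ℝ F] [FiniteDimensional ℝ F]

omit [MeasurableSpace S] [BorelSpace S] [SecondCountableTopology S] [FiniteDimensional ℝ F] in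
/-- The derivative in the second variable of a jointly smooth function is jointly smooth. -/
theorem contDiff_fderiv_snd {E : Type} [NormedAddCommGroup E] [NormedSpace ℝ E]
    {f : S → F → E} (hf : ContDiff ℝ ∞ (Function.uncurry f)) :
    ContDiff ℝ ∞ (Function.uncurry fun s y => fderiv ℝ (f s) y) := by
  have h : ContDiff ℝ ∞ fun p : S × F => fderiv ℝ (f p.1) p.2 := by
    refine ContDiff.fderiv (f := fun (p : S × F) (y : F) => f p.1 y) (g := fun p : S × F => p.2)
      (n := ∞) (m := ∞) ?_ contDiff_snd (by norm_num)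
    exact hf.comp ((contDiff_fst.comp contDiff_fst).prodMk contDiff_snd)
  exact h

variable (ν : Measure S) [IsFiniteMeasure ν] {K : Set S}

theorem hasFDerivAt_integral_param {E : Type} [NormedAddCommGroup E] [NormedSpace ℝ E]
    (hK : IsCompact K) (hν : ν Kᶜ = 0)
    {f : S → F → E} (hf : ContDiff ℝ ∞ (Function.uncurry f)) (y0 : F) :
    HasFDerivAt (fun y => ∫ s, f s y ∂ν) (∫ s, fderiv ℝ (f s) y0 ∂ν) y0 := by
  have hf' := contDiff_fderiv_snd hf
  have hcs : ∀ y, Continuous fun s => f s y := fun y =>
    hf.continuous.comp (continuous_id.prodMk continuous_const)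
  have hcs' : ∀ y, Continuous fun s => fderiv ℝ (f s) y := fun y =>
    hf'.continuous.comp (continuous_id.prodMk continuous_const)
  have hae : ∀ᵐ s ∂ν, s ∈ K := by
    rw [ae_iff]; exact hν
  obtain ⟨C, hC⟩ := (hK.prod (isCompact_closedBall y0 1)).exists_bound_of_continuousOn
    (f := Function.uncurry fun s y => fderiv ℝ (f s) y) hf'.continuous.continuousOn
  have hint : ∀ y, Integrable (fun s => f s y) ν := by
    intro y
    obtain ⟨C1, hC1⟩ := hK.exists_bound_of_continuousOn (f := fun s => f s y) (hcs y).continuousOn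
    refine Integrable.of_bound (hcs y).aestronglyMeasurable C1 ?_
    filter_upwards [hae] with s hs using hC1 s hs
  refine hasFDerivAt_integral_of_dominated_of_fderiv_le (F := fun y s => f s y)
    (F' := fun y s => fderiv ℝ (f s) y) (bound := fun _ => C) (s := ball y0 1)
    (ball_mem_nhds y0 one_pos) ?_ (hint y0) (hcs' y0).aestronglyMeasurable ?_
    (integrable_const C) ?_
  · exact Eventually.of_forall fun y => (hcs y).aestronglyMeasurable
  · filter_upwards [hae] with s hs y hy
    exact hC (s, y) ⟨hs, ball_subset_closedBall hy⟩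
  · refine Eventually.of_forall fun s y _ => ?_
    have : ContDiff ℝ ∞ (f s) := hf.comp (contDiff_const.prodMk contDiff_id)
    exact (this.differentiable (by norm_num) y).hasFDerivAt

theorem contDiff_integral_param_aux (hK : IsCompact K) (hν : ν Kᶜ = 0) (n : ℕ) :
    ∀ (E : Type) [NormedAddCommGroup E] [NormedSpace ℝ E] (f : S → F → E),
      ContDiff ℝ ∞ (Function.uncurry f) → ContDiff ℝ n fun y => ∫ s, f s y ∂ν := by
  induction n with
  | zero =>
    intro E _ _ f hf
    rw [Nat.cast_zero, contDiff_zero, continuous_iff_continuousAt]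
    exact fun y => (hasFDerivAt_integral_param ν hK hν hf y).continuousAt
  | succ n ih =>
    intro E _ _ f hf
    rw [show ((n + 1 : ℕ) : WithTop ℕ∞) = (n : WithTop ℕ∞) + 1 by push_cast; rfl,
      contDiff_succ_iff_fderiv]
    refine ⟨fun y => (hasFDerivAt_integral_param ν hK hν hf y).differentiableAt, by simp, ?_⟩
    have h : (fderiv ℝ fun y => ∫ s, f s y ∂ν) = fun y => ∫ s, fderiv ℝ (f s) y ∂ν := by
      funext y
      exact (hasFDerivAt_integral_param ν hK hν hf y).fderiv
    rw [h]
    exact ih (F →L[ℝ] E) _ (contDiff_fderiv_snd hf)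

/-- Smoothness of parameter integrals. -/
theorem contDiff_integral_param {E : Type} [NormedAddCommGroup E] [NormedSpace ℝ E]
    (hK : IsCompact K) (hν : ν Kᶜ = 0)
    {f : S → F → E} (hf : ContDiff ℝ ∞ (Function.uncurry f)) :
    ContDiff ℝ ∞ fun y => ∫ s, f s y ∂ν := by
  rw [contDiff_infty]
  exact fun n => contDiff_integral_param_aux ν hK hν n E f hf

end

/-- Smoothness of parameter integrals over the unit interval. -/
theorem contDiff_int01 {F E : Type} [NormedAddCommGroup F] [NormedSpace ℝ F]
    [FiniteDimensional ℝ F] [NormedAddCommGroup E] [NormedSpace ℝ E]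
    {f : ℝ → F → E} (hf : ContDiff ℝ ∞ (Function.uncurry f)) :
    ContDiff ℝ ∞ fun y => ∫ s in (0 : ℝ)..1, f s y := by
  simp only [intervalIntegral.integral_of_le zero_le_one, ← integral_Icc_eq_integral_Ioc]
  exact contDiff_integral_param (volume.restrict (Icc (0 : ℝ) 1)) isCompact_Icc
    (by rw [Measure.restrict_apply measurableSet_Icc.compl, compl_inter_self, measure_empty]) hf

/-- Derivatives of parameter integrals over the unit interval. -/
theorem hasFDerivAt_int01 {F E : Type} [NormedAddCommGroup F] [NormedSpace ℝ F]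
    [FiniteDimensional ℝ F] [NormedAddCommGroup E] [NormedSpace ℝ E]
    {f : ℝ → F → E} (hf : ContDiff ℝ ∞ (Function.uncurry f)) (y0 : F) :
    HasFDerivAt (fun y => ∫ s in (0 : ℝ)..1, f s y)
      (∫ s in (0 : ℝ)..1, fderiv ℝ (f s) y0) y0 := by
  simp only [intervalIntegral.integral_of_le zero_le_one, ← integral_Icc_eq_integral_Ioc]
  exact hasFDerivAt_integral_param (volume.restrict (Icc (0 : ℝ) 1)) isCompact_Icc
    (by rw [Measure.restrict_apply measurableSet_Icc.compl, compl_inter_self, measure_empty]) hf y0

end Vale.Agent.P301Z.Tor.Par
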