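import Vale.Agent.P301Z.Tor.Sk
import Vale.Agent.P301Z.Tor.Par

/-!
# P301Z, block TOR: the radial primitive
-/

open scoped ContDiff Topology
open Set Filter

set_option maxSynthPendingDepth 3

noncomputable section

namespace Vale.Agent.P301Z.Tor

namespace Prm

section

variable {X : Type} [NormedAddCommGroup X] [NormedSpace ℝ X]

/-- evaluation of a form -/
def ev (b c : X) : B2 X →L[ℝ] ℂ :=
  (ContinuousLinearMap.apply ℝ ℂ c).comp (ContinuousLinearMap.apply ℝ (X →L[ℝ] ℂ) b)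

theorem ev_apply (b c : X) (o : B2 X) : ev b c o = o b c := rfl

theorem sk_fderiv {Z : Type} [NormedAddCommGroup Z] [NormedSpace ℝ Z] {Ω : Z → B2 X}
    {D : Z →L[ℝ] B2 X} {z : Z} (h : HasFDerivAt Ω D z) (hs : ∀ z, Sk (Ω z)) (a : Z) :
    Sk (D a) := by
  intro b c
  have h1 := (ev b c).hasFDerivAt.comp z h
  have h2 := ((ev c b).hasFDerivAt.comp z h).neg
  have h3 : (ev b c) ∘ Ω = -((ev c b) ∘ Ω) := funext fun y => hs y b c
  rw [h3] at h1
  exact congrArg (fun L : Z →L[ℝ] ℂ => L a) (h1.unique h2)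

theorem th_has {Ω : X → B2 X} {D : X →L[ℝ] B2 X} (M Y : X →L[ℝ] X) (z u v : X)
    (h : HasFDerivAt Ω D (M z)) :
    fderiv ℝ (fun z => (Ω (M z) (Y z)).comp M) z u v =
      D (M u) (Y z) (M v) + Ω (M z) (Y u) (M v) := by
  have h0 : HasFDerivAt (fun z => Ω (M z)) (D.comp M) z := h.comp z M.hasFDerivAt
  have h1 := h0.clm_apply Y.hasFDerivAt
  have h2 := (h1.clm_comp (hasFDerivAt_const M z)).fderiv
  rw [h2]
  simp [add_comm]

theorem ds0 {Ω : X → B2 X} {D : X →L[ℝ] B2 X} {z u v : ℝ → X} {z' u' v' : X} {s : ℝ}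
    (h : HasFDerivAt Ω D (z s)) (hz : HasDerivAt z z' s) (hu : HasDerivAt u u' s)
    (hv : HasDerivAt v v' s) : HasDerivAt (fun s => Ω (z s) (u s) (v s))
      (D z' (u s) (v s) + Ω (z s) u' (v s) + Ω (z s) (u s) v') s := by
  have h0 : HasDerivAt (fun s => Ω (z s)) (D z') s := h.comp_hasDerivAt s hz
  exact (h0.clm_apply hu).clm_apply hv

variable (A Y : X →L[ℝ] X) (Ω : X → B2 X)

/-- the integrand -/
def th (s : ℝ) (z : X) : X →L[ℝ] ℂ := (Ω ((A + s • Y) z) (Y z)).comp (A + s • Y)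

variable {A Y Ω}

theorem th_sm (h : ContDiff ℝ ∞ Ω) : ContDiff ℝ ∞ (Function.uncurry (th A Y Ω)) := by
  have h1 : ContDiff ℝ ∞ fun p : ℝ × X => A + p.1 • Y :=
    contDiff_const.add (contDiff_fst.smul contDiff_const)
  exact ((h.comp (h1.clm_apply contDiff_snd)).clm_apply
    (Y.contDiff.comp contDiff_snd)).clm_comp h1

theorem ds (h : ContDiff ℝ ∞ Ω) (hs : ∀ z, Sk (Ω z)) (s : ℝ) (z u v : X)
    (hc : Cl Ω ((A + s • Y) z)) :
    HasDerivAt (fun s : ℝ => Ω ((A + s • Y) z) ((A + s • Y) u) ((A + s • Y) v))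
      (fderiv ℝ (th A Y Ω s) z u v - fderiv ℝ (th A Y Ω s) z v u) s := by
  have h0 : ∀ w, HasDerivAt (fun s : ℝ => (A + s • Y) w) (Y w) s := fun w => by
    simpa using ((hasDerivAt_id s).smul_const (Y w)).const_add (A w)
  have hd : HasFDerivAt Ω (fderiv ℝ Ω ((A + s • Y) z)) ((A + s • Y) z) :=
    (h.differentiable (by simp) _).hasFDerivAt
  refine (ds0 (z := fun s : ℝ => (A + s • Y) z) hd (h0 z) (h0 u) (h0 v)).congr_deriv ?_
  have e1 := th_has (A + s • Y) Y z u v hd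
  have e2 := th_has (A + s • Y) Y z v u hd
  have h2 := hc (Y z) ((A + s • Y) u) ((A + s • Y) v)
  have h3 := sk_fderiv hd hs ((A + s • Y) u) (Y z) ((A + s • Y) v)
  have h4 := hs ((A + s • Y) z) (Y v) ((A + s • Y) u)
  unfold th
  linear_combination h2 - h3 + h4 - e1 + e2

theorem homot [FiniteDimensional ℝ X] (h : ContDiff ℝ ∞ Ω) (hs : ∀ z, Sk (Ω z)) (z u v : X)
    (hc : ∀ s ∈ uIcc (0 : ℝ) 1, Cl Ω ((A + s • Y) z)) :
    fderiv ℝ (fun z => ∫ s in (0 : ℝ)..1, th A Y Ω s z) z u v -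
      fderiv ℝ (fun z => ∫ s in (0 : ℝ)..1, th A Y Ω s z) z v u =
      Ω ((A + Y) z) ((A + Y) u) ((A + Y) v) - Ω (A z) (A u) (A v) := by
  have c : Continuous fun s => fderiv ℝ (th A Y Ω s) z :=
    (Par.contDiff_fderiv_snd (th_sm h)).continuous.comp (continuous_id.prodMk continuous_const)
  have e : ∀ u v, (∫ s in (0 : ℝ)..1, fderiv ℝ (th A Y Ω s) z) u v =
      ∫ s in (0 : ℝ)..1, fderiv ℝ (th A Y Ω s) z u v := fun u v =>
    ((ev u v).intervalIntegral_comp_comm (c.intervalIntegrable 0 1)).symm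
  have c' : ∀ u v, Continuous fun s => fderiv ℝ (th A Y Ω s) z u v := fun u v =>
    (ev u v).continuous.comp c
  rw [(Par.hasFDerivAt_int01 (th_sm h) z).fderiv, e, e, ← intervalIntegral.integral_sub
    ((c' u v).intervalIntegrable 0 1) ((c' v u).intervalIntegrable 0 1),
    intervalIntegral.integral_eq_sub_of_hasDerivAt (fun s hs' => ds h hs s z u v (hc s hs'))
      (((c' u v).sub (c' v u)).intervalIntegrable 0 1)]
  simp only [one_smul, zero_smul, add_zero]

end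

variable {N n : ℕ}

/-- the projection to the zero section -/
def pA (N n : ℕ) : P N n →L[ℝ] P N n :=
  (ContinuousLinearMap.inl ℝ _ _).comp (ContinuousLinearMap.fst ℝ _ _)

/-- the projection to the fibre -/
def pY (N n : ℕ) : P N n →L[ℝ] P N n :=
  (ContinuousLinearMap.inr ℝ _ _).comp (ContinuousLinearMap.snd ℝ _ _)

theorem m_apply (s : ℝ) (z : P N n) : (pA N n + s • pY N n) z = (z.1, s • z.2) := by
  simp [pA, pY]

theorem m_one (z : P N n) : (pA N n + pY N n) z = z := by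
  simp [pA, pY]

end Prm

theorem prim : PRIM := by
  intro N n Ω h
  refine ⟨fun z => ∫ s in (0 : ℝ)..1, Prm.th (Prm.pA N n) (Prm.pY N n) Ω s z,
    Par.contDiff_int01 (Prm.th_sm h.sm), fun x y q => ?_, fun z hz u v => ?_⟩
  · refine intervalIntegral.integral_congr fun s _ => ?_
    simp only [Prm.th, Prm.m_apply, h.per x (s • y) q]
    rfl
  · rw [Prm.homot h.sm h.skew z u v fun s hs => h.closed _ ?_, Prm.m_one, Prm.m_one, Prm.m_one]
    · rfl
    · rw [uIcc_of_le zero_le_one] at hs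
      rw [Prm.m_apply, norm_smul, Real.norm_of_nonneg hs.1]
      exact (mul_le_of_le_one_left (norm_nonneg _) hs.2).trans_lt hz

end Vale.Agent.P301Z.Tor
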