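import Vale.Agent.P301Z.Tor.Bas
import Vale.Agent.P301Z.Tor.Prim

/-!
# P301Z, block TOR: closed forms without periods are exact
-/

open scoped ContDiff Topology
open Set Filter Complex MeasureTheory
open Vale.Agent.P272.K Vale.Agent.P272.K.LIN Vale.Agent.P301Z.An

set_option maxSynthPendingDepth 3

noncomputable section

namespace Vale.Agent.P301Z.Tor

namespace Exa

open Prm (ev ev_apply)

variable {N : ℕ}

theorem alg {ι : Type} [Fintype ι] {l ga gb ua ub : ι → ℂ} {la lb U L : ℂ} (h0 : L ≠ 0)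
    (hL : ∑ i, l i * l i = L) (ha : ∀ i, L * ga i = ua i) (hb : ∀ i, L * gb i = ub i)
    (hc : ∀ i, la * ub i - lb * ua i = l i * U) :
    ∑ i, la * (l i * gb i) - ∑ i, lb * (l i * ga i) - U = 0 := by
  refine (mul_eq_zero.1 ?_).resolve_left h0
  have e : L * U = ∑ i, l i * l i * U := by rw [← Finset.sum_mul, hL]
  rw [mul_sub, mul_sub, e, Finset.mul_sum, Finset.mul_sum, ← Finset.sum_sub_distrib,
    ← Finset.sum_sub_distrib]
  exact Finset.sum_eq_zero fun i _ => by
    linear_combination la * l i * hb i - lb * l i * ha i + l i * hc i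

/-- the symbol of a derivative -/
def lam (k : Fin N → ℤ) (a : E N) : ℂ := 2 * Real.pi * I * kv k a

/-- the standard basis -/
abbrev e (i : Fin N) : E N := Pi.basisFun ℝ (Fin N) i

theorem lam_ne {k : Fin N → ℤ} (hk : k ≠ 0) : ∑ i, lam k (e i) * lam k (e i) ≠ 0 := by
  have h1 : ∀ i, lam k (e i) * lam k (e i) = (2 * Real.pi * I) ^ 2 * ((k i ^ 2 : ℤ) : ℂ) :=
    fun i => by
      have : kv k (e i) = k i := by simp [kv_apply, Pi.single_apply]
      rw [lam, this]
      push_cast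
      ring
  rw [Finset.sum_congr rfl fun i _ => h1 i, ← Finset.mul_sum, ← Int.cast_sum]
  refine mul_ne_zero (pow_ne_zero 2 two_pi_I_ne_zero) (Int.cast_ne_zero.2 fun h => hk ?_)
  exact funext fun i => pow_eq_zero_iff two_ne_zero |>.1
    ((Finset.sum_eq_zero_iff_of_nonneg fun i _ => sq_nonneg (k i)).1 h i (Finset.mem_univ i))

theorem fc_sum {ι : Type} [Fintype ι] {u : ι → E N → ℂ} (h : ∀ i, Pe (u i))
    (hc : ∀ i, Continuous (u i)) (k : Fin N → ℤ) :
    fc (fun x => ∑ i, u i x) k = ∑ i, fc (u i) k := by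
  simp only [fc_eq, Finset.smul_sum]
  exact integral_finsetSum _ fun i _ => (h i).integrable_fc (hc i) k

theorem fd_app (hF : FD) {W : Type} [NormedAddCommGroup W] [NormedSpace ℝ W] (L : W →L[ℝ] ℂ)
    {u : E N → W} {u' : E N → E N →L[ℝ] W} (hp : Pe u) (hd : ∀ x, HasFDerivAt u (u' x) x)
    (hc : Continuous u') (k : Fin N → ℤ) (a : E N) :
    fc (fun x => L (u' x a)) k = lam k a * fc (fun x => L (u x)) k :=
  hF N ℂ (fun x => L (u x)) (fun x => L.comp (u' x)) (fun x q => congrArg L (hp x q))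
    (fun x => L.hasFDerivAt.comp x (hd x)) (continuous_const.clm_comp hc) k a

theorem fc_sk {u : E N → B2 (E N)} (hs : ∀ x, Sk (u x)) (k : Fin N → ℤ) (a b : E N) :
    fc (fun x => u x a b) k = -fc (fun x => u x b a) k := by
  rw [← neg_one_smul ℂ (fc _ k), ← fc_smul]
  exact congrArg (fc · k) (funext fun x => by rw [hs x a b, neg_one_smul])

theorem fc_cl (hF : FD) {u : E N → B2 (E N)} (hu : ContDiff ℝ ∞ u) (hp : Pe u)
    (hc : ∀ x, Cl u x) (k : Fin N → ℤ) (a b c : E N) :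
    lam k a * fc (fun x => u x b c) k + lam k b * fc (fun x => u x c a) k +
      lam k c * fc (fun x => u x a b) k = 0 := by
  have c1 : Continuous (fderiv ℝ u) := hu.continuous_fderiv (by simp)
  have h1 : ∀ a b c, fc (fun x => fderiv ℝ u x a b c) k = lam k a * fc (fun x => u x b c) k :=
    fun a b c => fd_app hF (ev b c) hp (fun x => (hu.differentiable (by simp) x).hasFDerivAt) c1 k a
  have c2 : ∀ a b c, Continuous fun x => fderiv ℝ u x a b c := fun a b c =>
    (ev b c).continuous.comp (c1.clm_apply continuous_const)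
  have p2 : ∀ a b c, Pe fun x => fderiv ℝ u x a b c := fun a b c x q => by simp only [hp.fderiv x q]
  rw [← h1, ← h1, ← h1, ← fc_add (p2 _ _ _) (c2 _ _ _) (p2 _ _ _) (c2 _ _ _),
    ← fc_add (fun x q => by simp only [hp.fderiv x q]) ((c2 a b c).fun_add (c2 b c a)) (p2 _ _ _) (c2 _ _ _),
    funext fun x => hc x a b c]
  simp [fc_eq]

theorem core (hF : FD) (hP : PARS) {u g0 : E N → B2 (E N)} {g1 : E N → E N →L[ℝ] B2 (E N)}
    {g2 : E N → E N →L[ℝ] E N →L[ℝ] B2 (E N)} {c0 : B2 (E N)} (hu : ContDiff ℝ ∞ u) (hp : Pe u)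
    (hs : ∀ x, Sk (u x)) (hc : ∀ x, Cl u x) (hm : ∀ a b, mean (fun x => u x a b) = 0)
    (p0 : Pe g0) (p1 : Pe g1) (p2 : Pe g2) (d0 : ∀ x, HasFDerivAt g0 (g1 x) x)
    (d1 : ∀ x, HasFDerivAt g1 (g2 x) x) (c2 : Continuous g2)
    (hl : ∀ x, ∑ i, g2 x (e i) (e i) = u x - c0) (a b x : E N) :
    ∑ i, g2 x a (e i) (e i) b - ∑ i, g2 x b (e i) (e i) a - u x a b = 0 := by
  have c1 : Continuous g1 := continuous_iff_continuousAt.2 fun x => (d1 x).continuousAt
  have h2 : ∀ k a b c d, fc (fun x => g2 x a b c d) k =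
      lam k a * (lam k b * fc (fun x => g0 x c d) k) := fun k a b c d =>
    (fd_app hF ((ev c d).comp (ContinuousLinearMap.apply ℝ (B2 (E N)) b)) p1 d1 c2 k a).trans
      (congrArg _ (fd_app hF (ev c d) p0 d0 c1 k b))
  have cg : ∀ a b c d, Continuous fun x => g2 x a b c d := fun a b c d =>
    (ev c d).continuous.comp ((c2.clm_apply continuous_const).clm_apply continuous_const)
  have pg : ∀ a b c d, Pe fun x => g2 x a b c d := fun a b c d x q => by simp only [p2 x q]
  have cu : ∀ a b, Continuous fun x => u x a b := fun a b =>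
    (ev a b).continuous.comp hu.continuous
  have pu : ∀ a b, Pe fun x => u x a b := fun a b x q => by simp only [hp x q]
  have cs : ∀ a b, Continuous fun x => ∑ i, g2 x a (e i) (e i) b := fun a b =>
    continuous_finsetSum _ fun i _ => cg _ _ _ _
  have ps : ∀ a b, Pe fun x => ∑ i, g2 x a (e i) (e i) b := fun a b x q => by simp only [p2 x q]
  obtain ⟨ε, hε, hP⟩ := hP N ℂ ℂ 0
  refine hP (fun x => ∑ i, g2 x a (e i) (e i) b - ∑ i, g2 x b (e i) (e i) a - u x a b)
    (fun _ => 0) (((cs a b).fun_sub (cs b a)).fun_sub (cu a b)) continuous_const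
    (fun x q => by simp only [p2 x q, hp x q]) (fun _ _ => rfl) (fun k => ?_)
    (fun x => by rw [norm_zero]; positivity) x
  rw [zero_mul, norm_le_zero_iff,
    fc_sub (fun x q => by simp only [p2 x q]) ((cs a b).fun_sub (cs b a)) (pu a b) (cu a b),
    fc_sub (ps a b) (cs a b) (ps b a) (cs b a), fc_sum (fun i => pg _ _ _ _) (fun i => cg _ _ _ _),
    fc_sum (fun i => pg _ _ _ _) (fun i => cg _ _ _ _)]
  simp only [h2]
  by_cases hk : k = 0
  · subst hk
    simp [lam, kv_zero, fc_zero, hm]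
  have h3 : ∀ c d, (∑ i, lam k (e i) * lam k (e i)) * fc (fun x => g0 x c d) k =
      fc (fun x => u x c d) k := fun c d => by
    have h4 : (fun x => ∑ i, g2 x (e i) (e i) c d) = fun x => u x c d - c0 c d := funext fun x => by
      have := congrArg (ev c d) (hl x)
      rwa [map_sum, map_sub] at this
    have h5 := fc_sum (fun i => pg (e i) (e i) c d) (fun i => cg _ _ _ _) k
    rw [h4, fc_sub (pu c d) (cu c d) (fun _ _ => rfl) continuous_const, fc_const _ hk,
      sub_zero] at h5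
    rw [h5, Finset.sum_mul]
    exact Finset.sum_congr rfl fun i _ => by rw [h2, mul_assoc]
  refine alg (lam_ne hk) rfl (fun i => h3 (e i) a) (fun i => h3 (e i) b) fun i => ?_
  have h6 := fc_cl hF hu hp hc k a b (e i)
  rw [fc_sk hs k b] at h6
  linear_combination -h6

/-- the contraction -/
def ct (N : ℕ) : (E N →L[ℝ] B2 (E N)) →L[ℝ] (E N →L[ℝ] ℂ) :=
  ∑ i, (ContinuousLinearMap.apply ℝ (E N →L[ℝ] ℂ) (e i)).comp
    (ContinuousLinearMap.apply ℝ (B2 (E N)) (e i))

theorem ct_apply (D : E N →L[ℝ] B2 (E N)) (b : E N) : ct N D b = ∑ i, D (e i) (e i) b := by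
  simp [ct]

theorem green (hG : GRN) (hN : PNEM) {V : Type} [NormedAddCommGroup V] [NormedSpace ℝ V]
    [FiniteDimensional ℝ V] {u : E N → V} (hu : ContDiff ℝ ∞ u) (hp : Pe u) :
    ∃ (h : E N → Jt (E N) V) (c : V), ContDiff ℝ ∞ h ∧ Pe h ∧ IsJet h ∧
      ∀ x, ∑ i, (h x).2.2 (e i) (e i) = u x - c := by
  obtain ⟨S, hS, hS'⟩ := hN N ℝ V (fun p => u p.1) (hu.comp contDiff_fst) fun x _ q => hp x q
  obtain ⟨G, g1, g2, g3⟩ := hG N (Fin N) (Pi.basisFun ℝ (Fin N)) V
  obtain ⟨c0, g2⟩ := g2 (S (0, 0))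
  have h1 : (fun x => G (S (0, 0)) (pr x)) = fun x => Hol.evalL 0 (G (S (x, 0))) :=
    funext fun x => by
      rw [Hol.evalL_apply, g3 (S (0, 0)) (S (x, 0)) (pr x) fun t => ?_, zero_add]
      obtain ⟨y, rfl⟩ := pr_surj t
      rw [← pr_add, hS', hS', add_zero]
  refine ⟨fun x => G (S (0, 0)) (pr x), c0, ?_, pe_pr _, g1 _, fun x => ?_⟩
  · rw [h1]
    exact (Hol.evalL 0).contDiff.comp
      (G.contDiff.comp (hS.comp (contDiff_id.prodMk contDiff_const)))
  · rw [← trL_apply, g2, hS', add_zero]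

theorem torus (hG : GRN) (hN : PNEM) (hF : FD) (hP : PARS) {u : E N → B2 (E N)}
    (hu : ContDiff ℝ ∞ u) (hp : Pe u) (hs : ∀ x, Sk (u x)) (hc : ∀ x, Cl u x)
    (hm : ∀ a b, mean (fun x => u x a b) = 0) :
    ∃ η : E N → E N →L[ℝ] ℂ, ContDiff ℝ ∞ η ∧ Pe η ∧
      ∀ x a b, fderiv ℝ η x a b - fderiv ℝ η x b a = u x a b := by
  obtain ⟨h, c0, h2, h3, hj, h4⟩ := green hG hN hu hp
  have h5 : ∀ x, HasFDerivAt (fun x => ct N (h x).2.1) ((ct N).comp (h x).2.2) x := fun x =>
    (ct N).hasFDerivAt.comp x (hj x).2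
  refine ⟨fun x => ct N (h x).2.1, (ct N).contDiff.comp h2.snd.fst,
    fun x q => by simp only [h3 x q], fun x a b => ?_⟩
  rw [(h5 x).fderiv, ContinuousLinearMap.comp_apply, ContinuousLinearMap.comp_apply, ct_apply,
    ct_apply, ← sub_eq_zero]
  exact core hF hP (g0 := fun x => (h x).1) (g1 := fun x => (h x).2.1) (g2 := fun x => (h x).2.2)
    hu hp hs hc hm (fun x q => by simp only [h3 x q]) (fun x q => by simp only [h3 x q])
    (fun x q => by simp only [h3 x q]) (fun x => (hj x).1) (fun x => (hj x).2)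
    h2.continuous.snd.snd h4 a b x

/-- the restriction to the zero section -/
def rz (N n : ℕ) : B2 (P N n) →L[ℝ] B2 (E N) :=
  LinearMap.toContinuousLinearMap
    { toFun := fun o => o.bilinearComp (ContinuousLinearMap.inl ℝ _ _) (ContinuousLinearMap.inl ℝ _ _)
      map_add' := fun _ _ => rfl
      map_smul' := fun _ _ => rfl }

theorem rz_apply {n : ℕ} (o : B2 (P N n)) (a b : E N) : rz N n o a b = o (a, 0) (b, 0) := rfl

end Exa

theorem exa_of (h0 : PRIM) (hG : GRN) (hN : PNEM) (hF : FD) (hP : PARS) : EXA := by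
  intro N n Ω h
  obtain ⟨θ, hθ⟩ := h0 N n Ω h
  have d : ∀ x : E N, HasFDerivAt (fun x : E N => Exa.rz N n (Ω (x, 0)))
      ((Exa.rz N n).comp ((fderiv ℝ Ω (x, 0)).comp (ContinuousLinearMap.inl ℝ _ _))) x := fun x =>
    (Exa.rz N n).hasFDerivAt.comp x ((h.sm.differentiable (by simp) _).hasFDerivAt.comp x
      (hasFDerivAt_prodMk_left x 0))
  obtain ⟨η, e1, e2, e3⟩ := Exa.torus hG hN hF hP (u := fun x : E N => Exa.rz N n (Ω (x, 0)))
    ((Exa.rz N n).contDiff.comp (h.sm.comp (contDiff_id.prodMk contDiff_const)))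
    (fun x q => by simp only [h.per x 0 q]) (fun x a b => h.skew (x, 0) (a, 0) (b, 0))
    (fun x a b c => by
      rw [(d x).fderiv]
      exact h.closed (x, 0) (by simp) (a, 0) (b, 0) (c, 0)) h.zero
  refine ⟨fun z => θ z + (η z.1).comp (ContinuousLinearMap.fst ℝ _ _),
    hθ.sm.add ((e1.comp contDiff_fst).clm_comp contDiff_const),
    fun x y q => by simp only [hθ.per x y q, e2 x q], fun z hz u v => ?_⟩
  have d1 : HasFDerivAt (fun z : P N n => η z.1)
      ((fderiv ℝ η z.1).comp (ContinuousLinearMap.fst ℝ _ _)) z :=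
    (e1.differentiable (by simp) _).hasFDerivAt.comp z hasFDerivAt_fst
  have d2 := (hθ.sm.differentiable (by simp) z).hasFDerivAt.fun_add
    (d1.clm_comp (hasFDerivAt_const (ContinuousLinearMap.fst ℝ (E N) (Cm n)) z))
  have d3 : ∀ u v : P N n, fderiv ℝ (fun z : P N n =>
      θ z + (η z.1).comp (ContinuousLinearMap.fst ℝ (E N) (Cm n))) z u v = fderiv ℝ θ z u v + fderiv ℝ η z.1 u.1 v.1 := fun u v => by
    rw [d2.fderiv]
    simp
  have e4 : _ = Ω (z.1, 0) (u.1, 0) (v.1, 0) := e3 z.1 u.1 v.1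
  rw [d3, d3]
  linear_combination hθ.eq z hz u v + e4

theorem exa_of' (hG : GRN) (hN : PNEM) (hF : FD) (hP : PARS) : EXA := exa_of prim hG hN hF hP

end Vale.Agent.P301Z.Tor
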