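import Vale.Agent.P301Z.Tor.Sk
import Mathlib.Analysis.Calculus.ParametricIntegral

/-!
# P301Z, block TOR: Fourier coefficients of derivatives and the identity of Parseval
-/

open scoped ContDiff Topology NNReal Matrix
open Set Filter Complex Module Metric MeasureTheory
open Vale.Agent.P272.K Vale.Agent.P272.K.LIN Vale.Agent.P301Z.An

set_option maxSynthPendingDepth 3

noncomputable section

namespace Vale.Agent.P301Z.Tor

namespace FdX

variable {N : ℕ}

theorem pr_add (x y : E N) : pr (x + y) = pr x + pr y := by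
  funext i
  exact AddCircle.coe_add 1 (x i) (y i)

theorem pr_lf (t : T N) : pr (lf t) = t := by
  funext i
  exact (AddCircle.equivIoc 1 0).symm_apply_apply (t i)

theorem exq {x y : E N} (h : pr x = pr y) : ∃ q, x = y + zv q := by
  have h1 : ∀ i, ∃ m : ℤ, x i = y i + m := by
    intro i
    have h2 : ((x i - y i : ℝ) : UnitAddCircle) = 0 := by
      rw [AddCircle.coe_sub]
      exact sub_eq_zero.2 (congrFun h i)
    obtain ⟨m, hm⟩ := (AddCircle.coe_eq_zero_iff 1).1 h2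
    refine ⟨m, ?_⟩
    rw [zsmul_eq_mul, mul_one] at hm
    linarith
  choose q hq using h1
  exact ⟨q, funext hq⟩

theorem per_eq {V : Type} {u : E N → V} (h : Pe u) {x y : E N} (hxy : pr x = pr y) :
    u x = u y := by
  obtain ⟨q, rfl⟩ := exq hxy
  exact h y q

theorem lf_pr {V : Type} {u : E N → V} (h : Pe u) (x : E N) : u (lf (pr x)) = u x :=
  per_eq h (pr_lf _)

theorem quot : IsOpenQuotientMap (pr : E N → T N) :=
  IsOpenQuotientMap.piMap (f := fun (_ : Fin N) (x : ℝ) => (x : UnitAddCircle))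
    fun _ => QuotientAddGroup.isOpenQuotientMap_mk

theorem cont {V : Type} [TopologicalSpace V] {u : E N → V} (h : Pe u) (hc : Continuous u) :
    Continuous fun t => u (lf t) := by
  rw [← quot.continuous_comp_iff]
  exact hc.congr fun x => (lf_pr h x).symm

theorem fin_mu : IsFiniteMeasure (mu N) := by
  unfold mu
  infer_instance

theorem inv_mu : (mu N).IsAddRightInvariant := by
  unfold mu
  infer_instance

theorem pos_mu : (mu N).IsOpenPosMeasure := by
  unfold mu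
  infer_instance

theorem intg {V : Type} [NormedAddCommGroup V] {f : T N → V} (hf : Continuous f) :
    Integrable f (mu N) := by
  have := fin_mu (N := N)
  exact hf.integrable_of_hasCompactSupport (HasCompactSupport.of_compactSpace f)

theorem mf_add (k : Fin N → ℤ) (s t : T N) :
    UnitAddTorus.mFourier k (s + t) = UnitAddTorus.mFourier k s * UnitAddTorus.mFourier k t := by
  simp only [UnitAddTorus.mFourier, ContinuousMap.coe_mk, Pi.add_apply, fourier_apply, zsmul_add,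
    AddCircle.toCircle_add, Circle.coe_mul, Finset.prod_mul_distrib]

theorem mf_pr (k : Fin N → ℤ) (x : E N) :
    UnitAddTorus.mFourier k (pr x) = Complex.exp (2 * Real.pi * I * kv k x) := by
  simp only [UnitAddTorus.mFourier, ContinuousMap.coe_mk, pr, fourier_coe_apply, kv_apply]
  rw [← Complex.exp_sum]
  refine congrArg Complex.exp ?_
  push_cast
  rw [Finset.mul_sum]
  refine Finset.sum_congr rfl fun i _ => ?_
  ring

section Cx

variable {W : Type} [NormedAddCommGroup W] [NormedSpace ℂ W]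

theorem fc_eq (u : E N → W) (k : Fin N → ℤ) :
    fc u k = ∫ t, UnitAddTorus.mFourier (-k) t • u (lf t) ∂mu N := rfl

theorem fc_shift {u : E N → W} (h : Pe u) (k : Fin N → ℤ) (y : E N) :
    ∫ t, UnitAddTorus.mFourier (-k) t • u (lf t + y) ∂mu N =
      Complex.exp (2 * Real.pi * I * kv k y) • fc u k := by
  have := inv_mu (N := N)
  have h1 := integral_add_right_eq_self (μ := mu N)
    (fun t => UnitAddTorus.mFourier (-k) t • u (lf t)) (pr y)
  rw [fc_eq, ← h1, ← integral_smul]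
  refine integral_congr_ae (Eventually.of_forall fun t => ?_)
  have h2 : u (lf (t + pr y)) = u (lf t + y) := per_eq h (by rw [pr_lf, pr_add, pr_lf])
  have h3 : UnitAddTorus.mFourier k (pr y) * UnitAddTorus.mFourier (-k) (pr y) = 1 := by
    rw [← UnitAddTorus.mFourier_add, add_neg_cancel, UnitAddTorus.mFourier_zero]
    rfl
  simp only [h2, mf_add, smul_smul, ← mf_pr]
  rw [mul_left_comm, h3, mul_one]

theorem fd0 [CompleteSpace W] {u : E N → W} {u' : E N → E N →L[ℝ] W} (h : Pe u)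
    (hd : ∀ x, HasFDerivAt u (u' x) x) (hc : Continuous u') (k : Fin N → ℤ) (a : E N) :
    fc (fun x => u' x a) k = (2 * Real.pi * I * kv k a : ℂ) • fc u k := by
  have := fin_mu (N := N)
  have hu : Continuous u := continuous_iff_continuousAt.2 fun x => (hd x).continuousAt
  have hp : Pe u' := by
    intro x q
    have h1 : HasFDerivAt (fun y => u (y + zv q)) (u' (x + zv q)) x :=
      (hasFDerivAt_comp_add_right (zv q)).2 (hd _)
    have h2 : (fun y => u (y + zv q)) = u := funext fun y => h y q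
    rw [h2] at h1
    exact h1.unique (hd x)
  have hv : Continuous fun x => u' x a := hc.clm_apply continuous_const
  have hpv : Pe fun x => u' x a := fun x q => by simp only [hp x q]
  obtain ⟨M, hM⟩ : ∃ M, ∀ x, ‖u' x a‖ ≤ M := by
    obtain ⟨M, hM⟩ := (isCompact_univ.image (cont hpv hv)).isBounded.exists_norm_le
    exact ⟨M, fun x => (lf_pr hpv x) ▸ hM _ ⟨pr x, mem_univ _, rfl⟩⟩
  have hm : Continuous fun t : T N => UnitAddTorus.mFourier (-k) t := ContinuousMap.continuous _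
  have hF : ∀ s : ℝ, Continuous fun t : T N => UnitAddTorus.mFourier (-k) t • u (lf t + s • a) := by
    intro s
    refine hm.smul (cont (u := fun x => u (x + s • a)) (fun x q => ?_) (by fun_prop))
    simp only [add_right_comm x (zv q), h _ q]
  have hF' : Continuous fun t : T N =>
      UnitAddTorus.mFourier (-k) t • u' (lf t + (0 : ℝ) • a) a := by
    simp only [zero_smul, add_zero]
    exact hm.smul (cont hpv hv)
  have key := (hasDerivAt_integral_of_dominated_loc_of_deriv_le (μ := mu N) (x₀ := (0 : ℝ))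
    (F := fun (s : ℝ) (t : T N) => UnitAddTorus.mFourier (-k) t • u (lf t + s • a))
    (F' := fun (s : ℝ) (t : T N) => UnitAddTorus.mFourier (-k) t • u' (lf t + s • a) a)
    (bound := fun _ => M) (s := univ) univ_mem
    (Eventually.of_forall fun s => (hF s).aestronglyMeasurable) (intg (hF 0))
    hF'.aestronglyMeasurable (Eventually.of_forall fun t s _ => ?_) (integrable_const M)
    (Eventually.of_forall fun t s _ => ?_)).2
  · have e1 : (fun s : ℝ => ∫ t, UnitAddTorus.mFourier (-k) t • u (lf t + s • a) ∂mu N) =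
        fun s : ℝ => Complex.exp ((2 * Real.pi * I * kv k a) * s) • fc u k := by
      funext s
      rw [fc_shift h, map_smul, smul_eq_mul]
      push_cast
      ring_nf
    have e2 : HasDerivAt (fun s : ℝ => Complex.exp ((2 * Real.pi * I * kv k a) * s))
        (2 * Real.pi * I * kv k a) 0 := by
      have e3 := (((hasDerivAt_id ((0 : ℝ) : ℂ)).const_mul
        (2 * Real.pi * I * kv k a : ℂ)).cexp).comp_ofReal
      simpa using e3
    rw [e1] at key
    have e4 := key.unique (e2.smul_const (fc u k))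
    rw [← e4, fc_eq]
    simp only [zero_smul, add_zero]
  · have h1 := (UnitAddTorus.mFourier (-k)).norm_coe_le_norm t
    rw [UnitAddTorus.mFourier_norm] at h1
    rw [norm_smul]
    exact (mul_le_of_le_one_left (norm_nonneg _) h1).trans (hM _)
  · have h1 : HasDerivAt (fun s : ℝ => lf t + s • a) a s := by
      simpa using ((hasDerivAt_id s).smul_const a).const_add (lf t)
    exact ((hd _).comp_hasDerivAt s h1).const_smul _

theorem par0 {g : T N → ℂ} (hg : Continuous g) :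
    HasSum (fun k => ‖∫ t, UnitAddTorus.mFourier (-k) t • g t ∂mu N‖ ^ 2)
      (∫ t, ‖g t‖ ^ 2 ∂mu N) := by
  have := fin_mu (N := N)
  obtain ⟨f, rfl⟩ : ∃ f : C(T N, ℂ), ⇑f = g := ⟨⟨_, hg⟩, rfl⟩
  have h2 := UnitAddTorus.hasSum_sq_mFourierCoeff (ContinuousMap.toLp 2 (mu N) ℂ f)
  have h5 : ∫ t, ‖ContinuousMap.toLp 2 (mu N) ℂ f t‖ ^ 2 ∂mu N = ∫ t, ‖f t‖ ^ 2 ∂mu N := by
    refine integral_congr_ae ?_
    filter_upwards [ContinuousMap.coeFn_toLp (p := 2) (𝕜 := ℂ) (mu N) f] with t ht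
    rw [ht]
  rw [← h5]
  refine h2.congr_fun fun k => ?_
  exact congrArg (fun z : ℂ => ‖z‖ ^ 2) (UnitAddTorus.mFourierCoeff_toLp f k).symm

theorem par1 [CompleteSpace W] (φ : W →L[ℂ] ℂ) {u : E N → W} (h : Pe u) (hc : Continuous u) :
    HasSum (fun k => ‖φ (fc u k)‖ ^ 2) (∫ t, ‖φ (u (lf t))‖ ^ 2 ∂mu N) := by
  have hf := cont h hc
  have h0 := par0 (g := fun t => φ (u (lf t))) (φ.continuous.comp hf)
  refine h0.congr_fun fun k => ?_
  have hm : Continuous fun t : T N => UnitAddTorus.mFourier (-k) t := ContinuousMap.continuous _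
  have h4 := φ.integral_comp_comm (intg (N := N)
    (f := fun t => UnitAddTorus.mFourier (-k) t • u (lf t)) (hm.smul hf))
  simp only [map_smul] at h4
  rw [h4, fc_eq]

theorem coo [FiniteDimensional ℂ W] : ∃ (m : ℕ) (φ : Fin m → W →L[ℂ] ℂ) (c : ℝ), 0 < c ∧
    (∀ w, ‖w‖ ^ 2 ≤ c * ∑ i, ‖φ i w‖ ^ 2) ∧ ∀ w, ∑ i, ‖φ i w‖ ^ 2 ≤ c * ‖w‖ ^ 2 := by
  obtain ⟨L⟩ : Nonempty (W ≃L[ℂ] EuclideanSpace ℂ (Fin (finrank ℂ W))) :=
    ⟨ContinuousLinearEquiv.ofFinrankEq (by simp)⟩
  obtain ⟨A, hA⟩ : ∃ A, A = ‖(L : W →L[ℂ] EuclideanSpace ℂ (Fin (finrank ℂ W)))‖ := ⟨_, rfl⟩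
  obtain ⟨B, hB⟩ : ∃ B, B = ‖(L.symm : EuclideanSpace ℂ (Fin (finrank ℂ W)) →L[ℂ] W)‖ := ⟨_, rfl⟩
  obtain ⟨φ, hφ⟩ : ∃ φ : Fin (finrank ℂ W) → W →L[ℂ] ℂ, ∀ i w, φ i w = L w i :=
    ⟨fun i => (EuclideanSpace.proj i : EuclideanSpace ℂ (Fin (finrank ℂ W)) →L[ℂ] ℂ).comp
      (L : W →L[ℂ] EuclideanSpace ℂ (Fin (finrank ℂ W))), fun _ _ => rfl⟩
  have hs : ∀ w, ∑ i, ‖φ i w‖ ^ 2 = ‖L w‖ ^ 2 := fun w => by
    simp only [hφ, EuclideanSpace.norm_sq_eq]
  refine ⟨_, φ, A ^ 2 + B ^ 2 + 1, by positivity, fun w => ?_, fun w => ?_⟩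
  · have h1 : ‖w‖ ≤ B * ‖L w‖ := by
      have h2 := (L.symm : EuclideanSpace ℂ (Fin (finrank ℂ W)) →L[ℂ] W).le_opNorm (L w)
      simpa [hB] using h2
    have h2 := pow_le_pow_left₀ (norm_nonneg _) h1 2
    rw [mul_pow] at h2
    rw [hs]
    nlinarith [sq_nonneg A, sq_nonneg ‖L w‖, mul_nonneg (sq_nonneg A) (sq_nonneg ‖L w‖)]
  · have h1 : ‖L w‖ ≤ A * ‖w‖ := by
      have h2 := (L : W →L[ℂ] EuclideanSpace ℂ (Fin (finrank ℂ W))).le_opNorm w
      simpa [hA] using h2
    have h2 := pow_le_pow_left₀ (norm_nonneg _) h1 2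
    rw [mul_pow] at h2
    rw [hs]
    nlinarith [sq_nonneg B, sq_nonneg ‖w‖, mul_nonneg (sq_nonneg B) (sq_nonneg ‖w‖)]

theorem par [FiniteDimensional ℂ W] : ∃ (Q : W → ℝ) (c : ℝ), 0 < c ∧ Continuous Q ∧
    (∀ w, ‖w‖ ^ 2 ≤ c * Q w) ∧ (∀ w, Q w ≤ c * ‖w‖ ^ 2) ∧ ∀ u : E N → W, Pe u → Continuous u →
      HasSum (fun k => Q (fc u k)) (∫ t, Q (u (lf t)) ∂mu N) := by
  have : CompleteSpace W := FiniteDimensional.complete ℂ W
  obtain ⟨m, φ, c, hc, l1, l2⟩ := coo (W := W)
  refine ⟨fun w => ∑ i, ‖φ i w‖ ^ 2, c, hc, by fun_prop, l1, l2, fun u h hu => ?_⟩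
  have h6 := hasSum_sum fun i (_ : i ∈ Finset.univ) => par1 (φ i) h hu
  rw [← integral_finsetSum _ fun i _ =>
    intg (f := fun t => ‖φ i (u (lf t))‖ ^ 2) (((φ i).continuous.comp (cont h hu)).norm.pow 2)] at h6
  exact h6

end Cx

theorem inst_eq {W : Type} [NormedAddCommGroup W] (i : NormedSpace ℝ W) [NormedSpace ℂ W]
    (h : @IsScalarTower ℝ ℂ W _ _ i.toModule.toDistribMulAction.toMulAction.toSMul) :
    i = NormedSpace.complexToReal := by
  refine NormedSpace.ext (funext fun r => funext fun w => ?_)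
  have h1 := h.smul_assoc r 1 w
  rw [one_smul] at h1
  refine h1.symm.trans ?_
  rw [Complex.real_smul, mul_one]
  rfl

end FdX

theorem fd : FD := by
  intro N W _ i _ h _ u u' hp hd hc k a
  have : CompleteSpace W := FiniteDimensional.complete ℝ W
  obtain rfl := FdX.inst_eq i h
  exact FdX.fd0 hp hd hc k a

theorem pars : PARS := by
  intro N W _ _ _ _ _ W' _ _ _ _ _ C
  have : FiniteDimensional ℂ W := Module.Finite.of_restrictScalars_finite ℝ ℂ W
  have : FiniteDimensional ℂ W' := Module.Finite.of_restrictScalars_finite ℝ ℂ W'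
  have := FdX.pos_mu (N := N)
  obtain ⟨Q, c, hc, hQ, l1, l2, hs⟩ := FdX.par (N := N) (W := W)
  obtain ⟨Q', c', hc', hQ', l1', l2', hs'⟩ := FdX.par (N := N) (W := W')
  obtain ⟨A, hA⟩ : ∃ A, A = c * c' * |C| := ⟨_, rfl⟩
  have hA0 : 0 ≤ A := by rw [hA]; positivity
  obtain ⟨ε, hε⟩ : ∃ ε, ε = 1 / (2 * A + 1) := ⟨_, rfl⟩
  have hε0 : 0 < ε := by rw [hε]; positivity
  have hAε : A * ε ≤ 1 / 2 := by
    rw [hε, mul_one_div, div_le_iff₀ (by positivity)]
    linarith
  have hAε2 : (A * ε) ^ 2 ≤ 1 / 4 := by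
    have := pow_le_pow_left₀ (by positivity) hAε 2
    linarith
  refine ⟨ε, hε0, fun u e hu he pu pe h1 h2 x => ?_⟩
  have hQ0 : ∀ w, 0 ≤ Q w := fun w => nonneg_of_mul_nonneg_right
    ((sq_nonneg _).trans (l1 w)) hc
  have cu : Continuous fun t => Q (u (lf t)) := hQ.comp (FdX.cont pu hu)
  have ce : Continuous fun t => Q' (e (lf t)) := hQ'.comp (FdX.cont pe he)
  have a1 : ∫ t, Q (u (lf t)) ∂mu N ≤ (c * C ^ 2 * c') * ∫ t, Q' (e (lf t)) ∂mu N := by
    refine hasSum_le (fun k => ?_) (hs u pu hu) ((hs' e pe he).mul_left _)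
    have b1 := pow_le_pow_left₀ (norm_nonneg _) (h1 k) 2
    rw [mul_pow] at b1
    calc Q (fc u k) ≤ c * ‖fc u k‖ ^ 2 := l2 _
      _ ≤ c * (C ^ 2 * ‖fc e k‖ ^ 2) := by gcongr
      _ ≤ c * (C ^ 2 * (c' * Q' (fc e k))) := by gcongr; exact l1' _
      _ = _ := by ring
  have a2 : ∫ t, Q' (e (lf t)) ∂mu N ≤ (c' * ε ^ 2 * c) * ∫ t, Q (u (lf t)) ∂mu N := by
    rw [← integral_const_mul]
    refine integral_mono (FdX.intg ce) (FdX.intg (continuous_const.mul cu)) fun t => ?_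
    have b1 := pow_le_pow_left₀ (norm_nonneg _) (h2 (lf t)) 2
    rw [mul_pow] at b1
    calc Q' (e (lf t)) ≤ c' * ‖e (lf t)‖ ^ 2 := l2' _
      _ ≤ c' * (ε ^ 2 * ‖u (lf t)‖ ^ 2) := by gcongr
      _ ≤ c' * (ε ^ 2 * (c * Q (u (lf t)))) := by gcongr; exact l1 _
      _ = _ := by ring
  have a3 : 0 ≤ ∫ t, Q (u (lf t)) ∂mu N := integral_nonneg fun t => hQ0 _
  have a4 : ∫ t, Q (u (lf t)) ∂mu N = 0 := by
    have b1 := a1.trans (mul_le_mul_of_nonneg_left a2 (by positivity))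
    have b2 : c * C ^ 2 * c' * (c' * ε ^ 2 * c) = (A * ε) ^ 2 := by
      rw [hA, ← sq_abs C]
      ring
    rw [← mul_assoc, b2] at b1
    nlinarith
  have a5 := (integral_eq_zero_iff_of_nonneg (fun t => hQ0 _) (FdX.intg cu)).1 a4
  have a6 := congrFun ((Continuous.ae_eq_iff_eq (mu N) cu continuous_zero).1 a5) (pr x)
  have a7 := l1 (u x)
  rw [← FdX.lf_pr pu x] at a7 ⊢
  simp only [Pi.zero_apply] at a6
  rw [a6, mul_zero] at a7
  exact norm_eq_zero.1 (pow_eq_zero_iff two_ne_zero |>.1 (le_antisymm a7 (sq_nonneg _)))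

end Vale.Agent.P301Z.Tor
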