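import Vale.Agent.P301Z.Tor.Sk

/-!
# P301Z, block TOR: the fibration
-/

open scoped ContDiff Topology NNReal
open Set Filter Metric
open Vale.Agent.P272.K

set_option maxSynthPendingDepth 3

noncomputable section

namespace Vale.Agent.P301Z.Tor

namespace FibA

variable {F : Type} [NormedAddCommGroup F] [NormedSpace ℝ F] [FiniteDimensional ℝ F]

theorem loc_inv {S : Set F} (ho : IsOpen S) (hc : Convex ℝ S) {φ : F → F} {φ' : F → F →L[ℝ] F}
    (h : ∀ x ∈ S, HasFDerivAt φ (φ' x) x)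
    (b : ∀ x ∈ S, ‖φ' x - ContinuousLinearMap.id ℝ F‖ ≤ 1 / 2) :
    ∃ Φ : OpenPartialHomeomorph F F, Φ.source = S ∧ ∀ x, Φ x = φ x := by
  have := FiniteDimensional.complete ℝ F
  have h1 : ApproximatesLinearOn φ ((ContinuousLinearEquiv.refl ℝ F : F ≃L[ℝ] F) : F →L[ℝ] F) S
      (1 / 2) := fun x hx y hy => by
    simpa using hc.norm_image_sub_le_of_norm_hasFDerivWithin_le'
      (fun x hx => (h x hx).hasFDerivWithinAt) b hy hx
  refine ⟨h1.toOpenPartialHomeomorph φ S ?_ ho, rfl, fun _ => rfl⟩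
  rcases subsingleton_or_nontrivial F with k | k
  · exact Or.inl k
  · right
    simp only [ContinuousLinearEquiv.refl_symm, ContinuousLinearEquiv.coe_refl,
      ContinuousLinearMap.nnnorm_id, inv_one]
    norm_num

theorem lin_inv {L : F →L[ℝ] F} (b : ‖L - ContinuousLinearMap.id ℝ F‖ ≤ 1 / 2) :
    ∃ e : F ≃L[ℝ] F, (e : F →L[ℝ] F) = L := by
  have h : Function.Injective (L : F →ₗ[ℝ] F) := (injective_iff_map_eq_zero _).2 fun u hu => by
    have h1 := (L - ContinuousLinearMap.id ℝ F).le_of_opNorm_le b u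
    have h2 : L u = 0 := hu
    simp only [sub_apply, h2, ContinuousLinearMap.id_apply, zero_sub,
      norm_neg] at h1
    exact norm_le_zero_iff.1 (by linarith)
  exact ⟨(LinearEquiv.ofInjectiveEndo _ h).toContinuousLinearEquiv, rfl⟩

end FibA

open FibA in
theorem fib : FIB := by
  intro N n Ω f A A' hf hl hA
  have hd : ∀ z : P N n, ‖z.2‖ < 1 / 4 → HasFDerivAt (fun z : P N n => (z.1, f z))
      ((ContinuousLinearMap.fst ℝ _ _).prod (fderiv ℝ f z)) z := fun z hz =>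
    hasFDerivAt_fst.prodMk ((hf.sm z hz).differentiableAt (by simp)).hasFDerivAt
  have hb : ∀ z : P N n, ‖z.2‖ < 1 / 4 → ‖(ContinuousLinearMap.fst ℝ _ _).prod (fderiv ℝ f z) -
      ContinuousLinearMap.id ℝ (P N n)‖ ≤ 1 / 2 := fun z hz =>
    ContinuousLinearMap.opNorm_le_bound _ (by norm_num) fun u => by
      have h1 := (fderiv ℝ f z - ContinuousLinearMap.snd ℝ _ _).le_of_opNorm_le (hf.n1 z hz) u
      have h2 : ((ContinuousLinearMap.fst ℝ _ _).prod (fderiv ℝ f z) -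
          ContinuousLinearMap.id ℝ (P N n)) u =
          (0, (fderiv ℝ f z - ContinuousLinearMap.snd ℝ (E N) (Cm n)) u) := Prod.ext (by simp) (by simp)
      rw [h2, Prod.norm_mk, norm_zero, max_eq_right (norm_nonneg _)]
      nlinarith [norm_nonneg u]
  obtain ⟨Γ, s1, e1⟩ := loc_inv (S := {z : P N n | ‖z.2‖ < 1 / 4})
    (isOpen_lt (by fun_prop) continuous_const) (by
      simpa only [preimage, mem_ball_zero_iff, LinearMap.snd_apply] using
        (convex_ball (0 : Cm n) (1 / 4)).linear_preimage (LinearMap.snd ℝ (E N) (Cm n))) hd hb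
  obtain ⟨Φ, s2, e2⟩ := loc_inv (S := ball (0 : Cm n) (1 / 4)) isOpen_ball (convex_ball _ _)
    (fun a ha => hA.has a (mem_ball_zero_iff.1 ha)) fun a ha => hA.near a (mem_ball_zero_iff.1 ha)
  have m1 : ∀ z : P N n, z ∈ Γ.source ↔ ‖z.2‖ < 1 / 4 := fun z => by rw [s1]; rfl
  have m2 : ∀ a, a ∈ Φ.source ↔ ‖a‖ < 1 / 4 := fun a => by rw [s2, mem_ball_zero_iff]
  obtain ⟨r, hr, hT⟩ := Metric.isOpen_iff.1 Φ.open_target _ (Φ.map_source ((m2 0).2 (by simp)))
  have m3 : ∀ b ∈ ball (Φ 0) r, ‖Φ.symm b‖ < 1 / 4 := fun b hb => (m2 _).1 (Φ.map_target (hT hb))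
  refine ⟨Γ '' (Prod.snd ⁻¹' (Φ.source ∩ Φ ⁻¹' ball (Φ 0) r)), fun z => A (Γ.symm z).2,
    fun z => f (z.1, Φ.symm z.2), Φ 0, r, hr, Γ.isOpen_image_of_subset_source
      ((Φ.isOpen_inter_preimage isOpen_ball).preimage continuous_snd)
      (fun z hz => (m1 z).2 ((m2 _).1 hz.1)), fun z hz => ?_, fun x y q => hf.per _ _ _,
    fun x b hb => ?_, fun z => ⟨?_, ?_⟩, fun x b hb => ?_, ?_⟩
  · exact ((hf.sm (z.1, Φ.symm z.2) (m3 _ hz.2)).continuousAt.comp_of_eq
      (continuousAt_fst.prodMk ((Φ.continuousAt_symm (hT hz.2)).comp continuousAt_snd))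
      rfl).continuousWithinAt
  · have h1 := hf.n0 (x, Φ.symm b) (m3 b hb)
    have h2 := m3 b hb
    have h3 := norm_le_norm_sub_add (f (x, Φ.symm b)) (Φ.symm b)
    simp only at h1 ⊢
    linarith
  · rintro ⟨w, hw, rfl⟩
    exact ⟨Φ w.2, hw.2, by simp only [e1, Φ.left_inv hw.1]⟩
  · rintro ⟨b, hb, e⟩
    refine ⟨(z.1, Φ.symm b), ⟨Φ.map_target (hT hb), ?_⟩, by rw [e1]; exact Prod.ext rfl e.symm⟩
    simpa only [mem_preimage, Φ.right_inv (hT hb)] using hb
  · have h1 := Γ.left_inv ((m1 (x, Φ.symm b)).2 (m3 b hb))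
    rw [e1] at h1
    simp only at h1 ⊢
    rw [h1, ← e2, Φ.right_inv (hT hb)]
  · rintro _ ⟨w, hw, rfl⟩
    have hw' := (m2 _).1 hw.1
    have hs := (m1 w).2 hw'
    obtain ⟨e, he⟩ := lin_inv (hb w hw')
    obtain ⟨a, ha⟩ := lin_inv (hA.near _ hw')
    have h1 : HasFDerivAt Γ.symm (e.symm : P N n →L[ℝ] P N n) (Γ w) :=
      Γ.hasFDerivAt_symm (Γ.map_source hs) (by
        rw [Γ.left_inv hs, he, funext e1]
        exact hd w hw')
    have h2 : HasFDerivAt A (A' w.2) (Γ.symm (Γ w)).2 := by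
      rw [Γ.left_inv hs]
      exact hA.has _ hw'
    have h3 : ∀ u, e u = (u.1, fderiv ℝ f w u) := fun u => DFunLike.congr_fun he u
    have h4 : ∀ u, a u = A' w.2 u := fun u => DFunLike.congr_fun ha u
    refine ⟨_, h2.comp (Γ w) (hasFDerivAt_snd.comp (Γ w) h1), fun y => ⟨e (0, a.symm y), ?_⟩,
      fun u u' k => ?_, fun u v k k' => ?_⟩
    · simp [← h4]
    · obtain ⟨u, rfl⟩ := e.surjective u
      obtain ⟨u', rfl⟩ := e.surjective u'
      rw [e1, h3, h3] at k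
      simpa using hA.hol w hw' u u' k
    · obtain ⟨⟨u₁, u₂⟩, rfl⟩ := e.surjective u
      obtain ⟨⟨v₁, v₂⟩, rfl⟩ := e.surjective v
      obtain rfl : u₂ = 0 := by simpa [← h4] using k
      obtain rfl : v₂ = 0 := by simpa [← h4] using k'
      rw [e1, h3, h3]
      exact DFunLike.congr_fun (DFunLike.congr_fun (hl w hw') u₁) v₁

end Vale.Agent.P301Z.Tor
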