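import Vale.Agent.P301Z.Tor.FixA

/-!
# P301Z, block TOR: the family of solutions of the fixed point equation
-/

open scoped ContDiff Topology NNReal Matrix
open Set Filter Complex Module Metric
open Vale.Agent.P272.K Vale.Agent.P272.K.LIN Vale.Agent.P301Z.An
open ContinuousLinearMap (compL inl inr)

set_option maxSynthPendingDepth 3

noncomputable section

namespace Vale.Agent.P301Z.Tor

namespace FixA

variable {N n : ℕ}

/-- first slot -/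
def s1 (N n : ℕ) : B2 (P N n) →L[ℝ] (E N →L[ℝ] P N n) →L[ℝ] (E N →L[ℝ] P N n →L[ℝ] ℂ) :=
  compL ℝ (E N) (P N n) (P N n →L[ℝ] ℂ)

/-- second slot -/
def s2 (N n : ℕ) : (E N →L[ℝ] P N n →L[ℝ] ℂ) →L[ℝ] (E N →L[ℝ] P N n) →L[ℝ] B2 (E N) :=
  ((compL ℝ (E N) (P N n →L[ℝ] ℂ) (E N →L[ℝ] ℂ)).comp (compL ℝ (E N) (P N n) ℂ).flip).flip

theorem s_apply (o : B2 (P N n)) (g : E N →L[ℝ] P N n) (a b : E N) :
    s2 N n (s1 N n o g) g a b = o (g a) (g b) := rfl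

section

variable {X W V : Type} [NormedAddCommGroup X] [NormedSpace ℝ X] [NormedAddCommGroup W]
  [NormedSpace ℝ W] [NormedAddCommGroup V] [NormedSpace ℝ V]

/-- the values of the solution -/
def r0 (ρ : (X →L[ℝ] W) →L[ℝ] V) : Jt X W →L[ℝ] V :=
  ρ.comp ((ContinuousLinearMap.fst ℝ _ _).comp (ContinuousLinearMap.snd ℝ _ _))

/-- the derivative of the solution -/
def r1 (ρ : (X →L[ℝ] W) →L[ℝ] V) : Jt X W →L[ℝ] (X →L[ℝ] X × V) :=
  (compL ℝ X (X →L[ℝ] W) (X × V) ((inr ℝ _ _).comp ρ)).comp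
    ((ContinuousLinearMap.snd ℝ _ _).comp (ContinuousLinearMap.snd ℝ _ _))

theorem r1_apply (ρ : (X →L[ℝ] W) →L[ℝ] V) (j : Jt X W) (u : X) :
    (inl ℝ X V - r1 ρ j) u = (u, (-ρ.comp j.2.2) u) := by
  change ((u, 0) : X × V) - (0, ρ (j.2.2 u)) = _
  simp

theorem gf_of {ρ : (X →L[ℝ] W) →L[ℝ] V} {h : V → X → Jt X W} {η : ℝ} (hη : 0 < η)
    (hj : ∀ a, IsJet (h a))
    (h1 : ∀ a, ‖a‖ < 1 / 4 → ∀ x, ‖r1 ρ (h a x)‖ ≤ η / 2)
    (h2 : ∀ a a', ‖a‖ < 1 / 4 → ‖a'‖ < 1 / 4 → ∀ x,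
      ‖r0 ρ (h a x) - r0 ρ (h a' x)‖ ≤ η / 2 * ‖a - a'‖) {z : X × V} (hz : ‖z.2‖ < 1 / 4)
    (h3 : DifferentiableAt ℝ (fun z : X × V => z.2 - r0 ρ (h z.2 z.1)) z) :
    (fderiv ℝ (fun z : X × V => z.2 - r0 ρ (h z.2 z.1)) z).comp (inl ℝ _ _) =
      -ρ.comp (h z.2 z.1).2.2 ∧
    ‖fderiv ℝ (fun z : X × V => z.2 - r0 ρ (h z.2 z.1)) z - ContinuousLinearMap.snd ℝ _ _‖ ≤ η := by
  have fx : ∀ a x, HasFDerivAt (fun x => a - r0 ρ (h a x)) (-ρ.comp (h a x).2.2) x := fun a x =>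
    (ρ.hasFDerivAt.comp x (hj a x).2).const_sub a
  have nx : ∀ a x, ‖a‖ < 1 / 4 → ‖-ρ.comp (h a x).2.2‖ ≤ η / 2 := fun a x ha => by
    refine ContinuousLinearMap.opNorm_le_bound _ (by positivity) fun u => ?_
    refine le_trans ?_ (((r1 ρ (h a x)).le_opNorm u).trans
      (mul_le_mul_of_nonneg_right (h1 a ha x) (norm_nonneg u)))
    rw [neg_apply, norm_neg]
    exact norm_snd_le (r1 ρ (h a x) u)
  have h7 : HasFDerivAt (fun x => z.2 - r0 ρ (h z.2 x))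
      ((fderiv ℝ (fun z : X × V => z.2 - r0 ρ (h z.2 z.1)) z).comp (inl ℝ _ _)) z.1 :=
    HasFDerivAt.comp z.1 (f := fun x => (x, z.2)) h3.hasFDerivAt (hasFDerivAt_prodMk_left z.1 z.2)
  refine ⟨h7.unique (fx z.2 z.1), ?_⟩
  refine HasFDerivAt.le_of_lip' (h3.hasFDerivAt.sub hasFDerivAt_snd) hη.le ?_
  filter_upwards [(isOpen_lt continuous_snd.norm continuous_const).mem_nhds hz] with y hy
  have h4 : ‖y.2 - r0 ρ (h y.2 y.1) - (y.2 - r0 ρ (h y.2 z.1))‖ ≤ η / 2 * ‖y.1 - z.1‖ :=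
    convex_univ.norm_image_sub_le_of_norm_hasFDerivWithin_le (f := fun x => y.2 - r0 ρ (h y.2 x))
      (fun x _ => (fx y.2 x).hasFDerivWithinAt) (fun x _ => nx y.2 x hy) (mem_univ _) (mem_univ _)
  have e : y.2 - r0 ρ (h y.2 y.1) - y.2 - (z.2 - r0 ρ (h z.2 z.1) - z.2) =
      y.2 - r0 ρ (h y.2 y.1) - (y.2 - r0 ρ (h y.2 z.1)) -
        (r0 ρ (h y.2 z.1) - r0 ρ (h z.2 z.1)) := by abel
  refine le_trans (le_of_eq (congrArg norm e)) ((norm_sub_le _ _).trans ?_)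
  have h5 : ‖y.1 - z.1‖ ≤ ‖y - z‖ := norm_fst_le (y - z)
  have h6 : ‖y.2 - z.2‖ ≤ ‖y - z‖ := norm_snd_le (y - z)
  nlinarith [h2 y.2 z.2 hy hz z.1]

end

end FixA

open FixA

theorem fix_of (hG : GRN) (hN : PNEM) (hL : LIP) : FIX := by
  intro N n κ η hη
  obtain ⟨G, G1, G2, G3⟩ := hG N _ (bs κ) (B2 (E N))
  obtain ⟨ε, ε0, H⟩ := core hN hL (s1 N n) (s2 N n) G (fun s u => G3 u _ s fun _ => rfl)
    (r0 (rho κ)) (r1 (rho κ)) (ContinuousLinearMap.norm_inl_le_one ℝ (E N) (Cm n)) (half_pos hη)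
  refine ⟨ε, ε0, fun Ω hΩ => ?_⟩
  obtain ⟨τ, hτ⟩ := H (fun z => Ω z - om0 κ) (hΩ.sm.sub contDiff_const)
    (fun x y q => by simp only [hΩ.per x y q]) fun z hz => by
      rw [show (fderiv ℝ fun z => Ω z - om0 κ) = fderiv ℝ Ω from
        funext fun z => fderiv_sub_const _]
      exact ⟨hΩ.b0 z hz, hΩ.b1 z hz, hΩ.b2 z hz⟩
  have fsm : ∀ z : P N n, ‖z.2‖ < 1 / 4 → ContDiffAt ℝ ∞
      (fun z : P N n => z.2 - r0 (rho κ) (G (τ z.2) (pr z.1))) z := fun z hz =>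
    contDiffAt_snd.sub ((hτ z.2 hz).2.2.2 z.1)
  have gf := fun (z : P N n) (hz : ‖z.2‖ < 1 / 4) => gf_of (ρ := rho κ)
    (h := fun a x => G (τ a) (pr x)) hη (fun a => G1 _) (fun a ha x => ((hτ a ha).2.1 _).2)
    (fun a a' ha ha' x => (hτ a ha).2.2.1 a' ha' _) hz ((fsm z hz).differentiableAt (by simp))
  refine ⟨fun z => z.2 - r0 (rho κ) (G (τ z.2) (pr z.1)), ⟨fsm, fun x y q => by
    simp only [pr_add_zv], fun z hz => ?_, fun z hz => (gf z hz).2⟩, fun a ha => ?_⟩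
  · rw [sub_sub_cancel_left, norm_neg]
    exact ((hτ z.2 hz).2.1 _).1.trans (half_le_self hη.le)
  · obtain ⟨c, hc⟩ := G2 (τ a)
    refine ⟨fun x => G (τ a) (pr x), c, pe_pr _, (Hs.continuous _).comp continuous_pr, G1 _,
      fun x => ?_, fun x => rfl⟩
    refine (hc (pr x)).trans (congrArg (· - c) (((hτ a ha).1 x).trans ?_))
    refine Eq.trans ?_ (congrArg (rs _) (gf (x, a) ha).1.symm)
    refine ContinuousLinearMap.ext fun u => ContinuousLinearMap.ext fun v => ?_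
    exact (s_apply _ _ u v).trans (congrArg₂ (fun p q => (Ω _ - om0 κ) p q) (r1_apply _ _ u)
      (r1_apply _ _ v))

end Vale.Agent.P301Z.Tor
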