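import Vale.Agent.P301Z.Tor.Bas
import Vale.Agent.P301Z.Tor.Sk
import Vale.Agent.P301Z.An.Res

/-!
# P301Z, block TOR: the Green operator of the torus
-/

open scoped ContDiff Topology NNReal
open Set Filter Module Metric MeasureTheory
open Vale.Agent.P272.K Vale.Agent.P272.K.LIN Vale.Agent.P301Z.An

set_option maxSynthPendingDepth 3
set_option linter.unusedSectionVars false

noncomputable section

namespace Vale.Agent.P301Z.Tor

namespace Grn

variable {N : ℕ} {V W : Type} [NormedAddCommGroup V] [NormedSpace ℝ V] [NormedAddCommGroup W]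
  [NormedSpace ℝ W]

theorem up_hol (u : Hs N V) (x y : E N) : ‖u (pr x) - u (pr y)‖ ≤ u.N1 * wt (E N) x y :=
  (u.le_N1 _ _).trans (mul_le_mul_of_nonneg_left (by rw [coe_wt]; exact wT_pr_le x y) u.N1_nonneg)

/-- the lift to the universal cover -/
def up : Hs N V →L[ℝ] H (E N) V :=
  LinearMap.mkContinuous
    { toFun := fun u => ⟨fun x => u (pr x), ⟨_, fun _ => u.le_N0 _⟩, ⟨_, up_hol u⟩⟩
      map_add' := fun _ _ => rfl
      map_smul' := fun _ _ => rfl } 1 fun u => by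
    rw [one_mul]
    exact Hol.norm_le_of u.N0_nonneg u.N1_nonneg (fun _ => u.le_N0 _) (up_hol u)

theorem norm_up (u : Hs N V) : ‖up u‖ ≤ ‖u‖ :=
  Hol.norm_le_of u.N0_nonneg u.N1_nonneg (fun _ => u.le_N0 _) (up_hol u)

/-- translation -/
def sh (s : E N) (f : H (E N) V) : H (E N) V :=
  ⟨fun x => f (x + s), ⟨_, fun _ => f.le_N0 _⟩, ⟨f.N1, fun x y => by
    have := f.le_N1 (x + s) (y + s)
    rwa [coe_wt, add_sub_add_right_eq_sub, ← coe_wt] at this⟩⟩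

theorem dn_hol (f : H (E N) W) (h : Pe f) (s t : T N) :
    ‖f (lf s) - f (lf t)‖ ≤ f.N1 * wT N s t := by
  obtain ⟨x, y, rfl, rfl, h1, -⟩ := exists_lift s t
  rw [h.lf_pr, h.lf_pr, coe_wT, ← h1, ← coe_wt]
  exact f.le_N1 x y

/-- the descent of an operator with periodic values -/
def dn (S : Hs N V →L[ℝ] H (E N) W) (h : ∀ u, Pe (S u)) : Hs N V →L[ℝ] Hs N W :=
  LinearMap.mkContinuous
    { toFun := fun u => ⟨fun t => S u (lf t), ⟨_, fun _ => (S u).le_N0 _⟩, ⟨_, dn_hol _ (h u)⟩⟩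
      map_add' := fun u v => Hol.ext fun t =>
        congrArg (fun f : H (E N) W => f (lf t)) (S.map_add u v)
      map_smul' := fun c u => Hol.ext fun t =>
        congrArg (fun f : H (E N) W => f (lf t)) (S.map_smul c u) } ‖S‖ fun u =>
    le_trans (Hol.norm_le_of (S u).N0_nonneg (S u).N1_nonneg (fun t => (S u).le_N0 (lf t))
      (dn_hol _ (h u))) (S.le_opNorm u)

theorem dn_pr (S : Hs N V →L[ℝ] H (E N) W) (h : ∀ u, Pe (S u)) (u : Hs N V) (x : E N) :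
    dn S h u (pr x) = S u x := (h u).lf_pr x

theorem intg (u : Hs N V) : Integrable u (mu N) :=
  u.continuous.integrable_of_hasCompactSupport (HasCompactSupport.of_compactSpace _)

theorem norm_int (u : Hs N V) {C : ℝ} (h : ∀ t, ‖u t‖ ≤ C) : ‖∫ t, u t ∂mu N‖ ≤ C := by
  simpa using norm_integral_le_of_norm_le_const (μ := mu N) (f := u) (Eventually.of_forall h)

/-- the mean value as a constant function -/
def av : Hs N V →L[ℝ] Hs N V :=
  LinearMap.mkContinuous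
    { toFun := fun u => Hol.const (∫ t, u t ∂mu N)
      map_add' := fun u v => Hol.ext fun _ => integral_add (intg u) (intg v)
      map_smul' := fun c u => Hol.ext fun _ => integral_smul c u } 1 fun u => by
    rw [one_mul]
    exact (Hol.norm_const_le _).trans (norm_int u u.norm_apply_le)

theorem av_apply (u : Hs N V) (s : T N) : av u s = ∫ t, u t ∂mu N := rfl

theorem norm_sub_av [CompleteSpace V] (u : Hs N V) {L : ℝ} (hL : 0 ≤ L)
    (h : ∀ s t, ‖u s - u t‖ ≤ L * dist s t) : ‖u - av u‖ ≤ L + L := by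
  refine Hol.norm_le_of hL hL (fun s => ?_) fun s t => ?_
  · have e : (u - av u) s = ∫ t, (Hol.const (u s) - u : Hs N V) t ∂mu N := by
      simp only [Hol.sub_apply, Hol.const_apply, av_apply]
      rw [integral_sub (integrable_const _) (intg u)]
      simp
    rw [e]
    refine norm_int _ fun t => (h s t).trans ?_
    obtain ⟨-, -, -, -, -, k⟩ := exists_lift s t
    nlinarith
  · simp only [Hol.sub_apply, av_apply, sub_sub_sub_cancel_right]
    exact (h s t).trans (mul_le_mul_of_nonneg_left (dist_le_wT s t) hL)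

variable {ι : Type} [Fintype ι] {b : ι → E N}

/-- the homothety -/
def ht (N : ℕ) (δ : ℝ) : E N →L[ℝ] E N := δ • ContinuousLinearMap.id ℝ _

theorem ht_apply (δ : ℝ) (x : E N) : ht N δ x = δ • x := rfl

theorem norm_ht {δ : ℝ} (h : 0 ≤ δ) : ‖ht N δ‖ ≤ δ := (norm_smul_le _ _).trans (by
  rw [Real.norm_of_nonneg h]
  exact mul_le_of_le_one_right h ContinuousLinearMap.norm_id_le)

theorem trL_smul (c : ℝ) (j : Jt (E N) V) : trL (fun i => c • b i) j = (c * c) • trL b j := by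
  simp only [trL_apply, map_smul, smul_apply, smul_smul, Finset.smul_sum]

theorem norm_pull {ε : ℝ} (h0 : 0 < ε) (he : ε ≤ 1) (u : Hs N V) :
    ‖Res.pull (ht N (ε ^ 2)⁻¹) (up u)‖ ≤ 2 * ε⁻¹ * ‖u‖ := by
  have n3 : ‖ht N (ε ^ 2)⁻¹‖ ^ (1 / 2 : ℝ) ≤ ε⁻¹ := by
    refine (Real.rpow_le_rpow (norm_nonneg _) (norm_ht (by positivity)) (by norm_num)).trans
      (le_of_eq ?_)
    rw [← inv_pow, ← Real.sqrt_eq_rpow, Real.sqrt_sq (inv_pos.2 h0).le]
  have n4 : ‖Res.pull (ht N (ε ^ 2)⁻¹) (up u)‖ ≤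
      ‖up u‖ + ‖ht N (ε ^ 2)⁻¹‖ ^ (1 / 2 : ℝ) * ‖up u‖ :=
    Hol.norm_le_of (norm_nonneg _) (by positivity) (fun _ => (up u).norm_apply_le _)
      (Res.hol_comp _ (up u))
  have a := norm_up u
  have a1 : 1 ≤ ε⁻¹ := (one_le_inv₀ h0).2 he
  have a2 := mul_le_mul n3 a (norm_nonneg _) (inv_pos.2 h0).le
  have a3 := mul_le_mul_of_nonneg_right a1 (norm_nonneg u)
  linarith

variable (R : H (E N) V →L[ℝ] H (E N) (Jt (E N) V))

/-- the rescaled resolvent -/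
def sc (δ : ℝ) : Hs N V →L[ℝ] H (E N) (Jt (E N) V) :=
  ((Res.trH (ht N δ) (ContinuousLinearMap.id ℝ V)).comp R).comp ((Res.pull (ht N δ⁻¹)).comp up)

theorem sc_eq (δ : ℝ) (u : Hs N V) : sc R δ u =
    Res.trH (ht N δ) (ContinuousLinearMap.id ℝ V) (R (Res.pull (ht N δ⁻¹) (up u))) := rfl

theorem trH_apply (L : E N →L[ℝ] E N) (m : V →L[ℝ] W) (h : H (E N) (Jt (E N) V)) (x : E N) :
    Res.trH L m h x = Res.tr L m (h (L x)) := rfl

theorem tr_snd (L : E N →L[ℝ] E N) (j : Jt (E N) V) :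
    (Res.tr L (ContinuousLinearMap.id ℝ V) j).2.1 = j.2.1.comp L := rfl

theorem pu (δ : ℝ) (u : Hs N V) (x : E N) : Res.pull (ht N δ) (up u) x = u (pr (δ • x)) := rfl

theorem sc2 (h2 : ∀ φ x, (R φ x).1 - trL b (R φ x) = φ x) {δ : ℝ} (d0 : δ ≠ 0) (u : Hs N V)
    (x : E N) : (sc R δ u x).1 - (δ⁻¹ * δ⁻¹) • trL b (sc R δ u x) = u (pr x) := by
  rw [← trL_smul, sc_eq, Res.op_trH (ht N δ) (ContinuousLinearMap.id ℝ V)
    (b := fun i => δ⁻¹ • b i) (b' := b) (fun i => smul_inv_smul₀ d0 _), h2, pu, ht_apply, inv_smul_smul₀ d0]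
  rfl

theorem isJet_sh {h : H (E N) (Jt (E N) V)} (hh : IsJet h) (s : E N) : IsJet (sh s h) := fun y =>
  ⟨(hasFDerivAt_comp_add_right s).2 (hh (y + s)).1, (hasFDerivAt_comp_add_right s).2 (hh (y + s)).2⟩

theorem sh_apply (s : E N) (f : H (E N) V) (x : E N) : sh s f x = f (x + s) := rfl

theorem sc3 (h1 : ∀ φ, IsJet (R φ)) (h2 : ∀ φ x, (R φ x).1 - trL b (R φ x) = φ x)
    (h3 : ∀ (h : H (E N) (Jt (E N) V)) (φ : H (E N) V), IsJet h →
      (∀ x, (h x).1 - trL b (h x) = φ x) → h = R φ) {δ : ℝ} (d0 : δ ≠ 0) (u u' : Hs N V) (s : E N)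
    (h : ∀ x, u' (pr x) = u (pr (x + s))) (x : E N) : sc R δ u' x = sc R δ u (x + s) := by
  have k := h3 (sh (δ • s) (R (Res.pull (ht N δ⁻¹) (up u)))) (Res.pull (ht N δ⁻¹) (up u'))
    (isJet_sh (h1 _) _) fun y => by
      rw [sh_apply, h2, pu, pu, smul_add, inv_smul_smul₀ d0, h]
  rw [sc_eq, sc_eq, trH_apply, trH_apply, ← k, sh_apply, ht_apply, ht_apply, smul_add]

theorem sc4 {ε : ℝ} (h0 : 0 < ε) (he : ε ≤ 1) (u : Hs N V) (x : E N) :
    ‖(sc R (ε ^ 2) u x).2.1‖ ≤ 2 * ε * ‖R‖ * ‖u‖ := by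
  have n6 : ∀ y, ‖(R (Res.pull (ht N (ε ^ 2)⁻¹) (up u)) y).2.1‖ ≤ ‖R‖ * (2 * ε⁻¹ * ‖u‖) := fun y =>
    (norm_fst_le _).trans ((norm_snd_le _).trans ((Hol.norm_apply_le _ y).trans
      (R.le_of_opNorm_le_of_le le_rfl (norm_pull h0 he u))))
  rw [sc_eq, trH_apply, tr_snd]
  refine (ContinuousLinearMap.opNorm_comp_le _ _).trans ((mul_le_mul (n6 _)
    (norm_ht (by positivity)) (norm_nonneg _) (by positivity)).trans (le_of_eq ?_))
  field_simp

theorem step (h1 : ∀ φ, IsJet (R φ)) (h2 : ∀ φ x, (R φ x).1 - trL b (R φ x) = φ x)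
    (h3 : ∀ (h : H (E N) (Jt (E N) V)) (φ : H (E N) V), IsJet h →
      (∀ x, (h x).1 - trL b (h x) = φ x) → h = R φ) {ε : ℝ} (h0 : 0 < ε) (he : ε ≤ 1) :
    ∃ (S : Hs N V →L[ℝ] H (E N) (Jt (E N) V)) (c : ℝ), (∀ u, IsJet (S u)) ∧
      (∀ u x, (S u x).1 - c • trL b (S u x) = u (pr x)) ∧
      (∀ u u' s, (∀ x, u' (pr x) = u (pr (x + s))) → ∀ x, S u' x = S u (x + s)) ∧
      ∀ u x, ‖(S u x).2.1‖ ≤ 2 * ε * ‖R‖ * ‖u‖ :=
  ⟨sc R (ε ^ 2), (ε ^ 2)⁻¹ * (ε ^ 2)⁻¹, fun u => by rw [sc_eq]; exact Res.isJet_trH _ _ (h1 _),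
    sc2 R h2 (pow_pos h0 2).ne', sc3 R h1 h2 h3 (pow_pos h0 2).ne', sc4 R h0 he⟩

end Grn

open Grn in
theorem grn_of (hR : An.RES) : GRN := by
  intro N ι _ b V _ _ _
  have : CompleteSpace V := FiniteDimensional.complete ℝ V
  obtain ⟨R, h1, h2, h3⟩ := hR (E N) ι b V
  obtain ⟨ε, h0, he, hs⟩ : ∃ ε : ℝ, 0 < ε ∧ ε ≤ 1 ∧ 2 * ε * ‖R‖ ≤ 1 / 4 := by
    have : 0 < 8 * (‖R‖ + 1) := by positivity
    refine ⟨(8 * (‖R‖ + 1))⁻¹, inv_pos.2 this, inv_le_one_of_one_le₀ (by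
      linarith [norm_nonneg R]), ?_⟩
    rw [mul_assoc, inv_mul_eq_div, ← mul_div_assoc, div_le_iff₀ this]
    linarith
  obtain ⟨S, c, s1, s2, s3, s4⟩ := step R h1 h2 h3 h0 he
  have hp : ∀ u, Pe (S u) := fun u x q => (s3 u u _ (fun y => by rw [pr_add_zv]) x).symm
  have d3 : ∀ u u' s, (∀ t, u' t = u (t + s)) → ∀ t, dn S hp u' t = dn S hp u (t + s) := by
    intro u u' s h t
    obtain ⟨x, rfl⟩ := pr_surj t
    obtain ⟨y, rfl⟩ := pr_surj s
    rw [← pr_add, dn_pr, dn_pr]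
    exact s3 u u' y (fun z => by rw [h, pr_add]) x
  obtain ⟨F, hF⟩ : ∃ F : Hs N V →L[ℝ] Hs N V, ∀ u t, F u t = (dn S hp u t).1 :=
    ⟨(Hol.map (ContinuousLinearMap.fst ℝ _ _)).comp (dn S hp), fun _ _ => rfl⟩
  have hK : ‖F - av.comp F‖ < 1 := by
    refine lt_of_le_of_lt (ContinuousLinearMap.opNorm_le_bound _ (by norm_num : (0 : ℝ) ≤ 1 / 2)
      fun u => ?_) (by norm_num)
    refine (norm_sub_av (F u) (L := 1 / 4 * ‖u‖) (by positivity) fun s t => ?_).trans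
      (le_of_eq (by ring))
    obtain ⟨x, y, rfl, rfl, k, -⟩ := exists_lift s t
    rw [hF, hF, dn_pr, dn_pr, ← k]
    exact convex_univ.norm_image_sub_le_of_norm_hasFDerivWithin_le
      (fun z _ => (s1 u z).1.hasFDerivWithinAt) (fun z _ => (s4 u z).trans
        (mul_le_mul_of_nonneg_right hs (norm_nonneg _))) (mem_univ y) (mem_univ x)
  obtain ⟨A, a1, a2⟩ : ∃ A : Hs N V →L[ℝ] Hs N V, (∀ u, A u - (F (A u) - av (F (A u))) = u) ∧
      ∀ φ, A (φ - (F φ - av (F φ))) = φ :=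
    ⟨↑(Units.oneSub _ hK)⁻¹, fun u => congrArg (fun T => T u) (Units.oneSub _ hK).mul_inv,
      fun u => congrArg (fun T => T u) (Units.oneSub _ hK).inv_mul⟩
  refine ⟨(-c) • (dn S hp).comp A, fun u x => ?_, fun u => ⟨∫ t, F (A u) t ∂mu N, fun t => ?_⟩,
    fun u u' s h t => ?_⟩
  · have e : (fun x => ((-c) • (dn S hp).comp A) u (pr x)) = ((-c) • S (A u) : H (E N) _) :=
      funext fun y => congrArg ((-c) • ·) (dn_pr S hp (A u) y)
    rw [e]
    exact Res.isJet_smul _ (s1 _) x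
  · obtain ⟨x, rfl⟩ := pr_surj t
    have k := congrArg (fun v : Hs N V => v (pr x)) (a1 u)
    simp only [Hol.sub_apply, av_apply] at k
    rw [← k, hF, dn_pr, ← s2 (A u) x]
    show trL b ((-c) • dn S hp (A u) (pr x)) = _
    rw [dn_pr, map_smul, neg_smul]
    abel
  · have f3 : ∀ t, F (tr s (A u)) t = F (A u) (t + s) := fun t => by
      rw [hF, hF, d3 (A u) _ s (fun _ => rfl)]
    have k : A u' = tr s (A u) := by
      rw [← a2 (tr s (A u))]
      refine congrArg A (Hol.ext fun t => ?_)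
      have k := congrArg (fun v : Hs N V => v (t + s)) (a1 u)
      simp only [Hol.sub_apply, av_apply, f3, tr_apply] at k ⊢
      rw [h, ← k, integral_add_right_eq_self (fun t => F (A u) t) s]
    show (-c) • dn S hp (A u') t = (-c) • dn S hp (A u) (t + s)
    rw [k, d3 (A u) _ s (fun _ => rfl)]

end Vale.Agent.P301Z.Tor
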