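import Vale.Agent.P301Z.Tor.Bas

/-!
# P301Z, block TOR: the solutions of the fixed point equation are Lagrangian
-/

open scoped ContDiff Topology NNReal Matrix
open Set Filter Complex Module Metric MeasureTheory
open Vale.Agent.P272.K Vale.Agent.P272.K.LIN Vale.Agent.P301Z.An

set_option maxSynthPendingDepth 3

noncomputable section

namespace Vale.Agent.P301Z.Tor

namespace LagX

variable {N n : ℕ}

theorem fdL (hF : FD) {V : Type} [NormedAddCommGroup V] [NormedSpace ℝ V] {u : E N → V}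
    {u' : E N → E N →L[ℝ] V} (hp : Pe u) (hd : ∀ x, HasFDerivAt u (u' x) x) (hc : Continuous u')
    (L : V →L[ℝ] ℂ) (k : Fin N → ℤ) (a : E N) :
    fc (fun x => L (u' x a)) k = 2 * Real.pi * I * kv k a * fc (fun x => L (u x)) k :=
  hF N ℂ (fun x => L (u x)) (fun x => L.comp (u' x)) (fun x q => congrArg L (hp x q))
    (fun x => L.hasFDerivAt.comp x (hd x)) (continuous_const.clm_comp hc) k a

theorem fdS (hF : FD) {V : Type} [NormedAddCommGroup V] [NormedSpace ℝ V] {u : E N → V}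
    (hp : Pe u) (hs : ContDiff ℝ ∞ u) (L : V →L[ℝ] ℂ) (k : Fin N → ℤ) (a : E N) :
    fc (fun x => L (fderiv ℝ u x a)) k = 2 * Real.pi * I * kv k a * fc (fun x => L (u x)) k :=
  fdL hF hp (fun x => (hs.differentiable (by simp) x).hasFDerivAt)
    (hs.continuous_fderiv (by simp)) L k a

/-- evaluation of a bilinear form -/
def ev {X : Type} [NormedAddCommGroup X] [NormedSpace ℝ X] (a b : X) : B2 X →L[ℝ] ℂ :=
  (ContinuousLinearMap.apply ℝ ℂ b).comp (ContinuousLinearMap.apply ℝ (X →L[ℝ] ℂ) a)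

theorem ev_apply {X : Type} [NormedAddCommGroup X] [NormedSpace ℝ X] (a b : X) (o : B2 X) :
    ev a b o = o a b := rfl

theorem fc_zero' (k : Fin N → ℤ) : fc (fun _ : E N => (0 : ℂ)) k = 0 := by
  simp [fc_eq]

theorem two_pi_ne : (2 * Real.pi * I : ℂ) ≠ 0 := Complex.two_pi_I_ne_zero

/-- the restriction to the zero section is closed -/
theorem cl0 (hF : FD) {Ω : P N n → B2 (P N n)} (h : Fm Ω) (k : Fin N → ℤ) (a b c : E N) :
    kv k a * fc (fun x => Ω (x, 0) (b, 0) (c, 0)) k + kv k b * fc (fun x => Ω (x, 0) (c, 0) (a, 0)) k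
      + kv k c * fc (fun x => Ω (x, 0) (a, 0) (b, 0)) k = 0 := by
  obtain ⟨G, hG⟩ : ∃ G : E N → B2 (P N n), G = fun x => Ω (x, 0) := ⟨_, rfl⟩
  have gs : ContDiff ℝ ∞ G := hG ▸ h.sm.comp (contDiff_id.prodMk contDiff_const)
  have gp : Pe G := fun x q => by rw [hG]; exact h.per x 0 q
  have gd : ∀ x u, fderiv ℝ G x u = fderiv ℝ Ω (x, 0) (u, 0) := by
    intro x u
    have h1 : HasFDerivAt (fun x : E N => ((x, 0) : P N n)) (ContinuousLinearMap.inl ℝ _ _) x :=
      hasFDerivAt_prodMk_left x 0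
    have h2 := ((h.sm.differentiable (by simp) (x, 0)).hasFDerivAt.comp x h1).fderiv
    rw [hG]
    exact congrArg (fun L : E N →L[ℝ] B2 (P N n) => L u) h2
  have c1 : ∀ u v w : E N, Continuous fun x => ev ((v, 0) : P N n) (w, 0) (fderiv ℝ G x u) :=
    fun u v w => (ev _ _).continuous.comp
      ((gs.continuous_fderiv (by simp)).clm_apply continuous_const)
  have p1 : ∀ u v w : E N, Pe fun x => ev ((v, 0) : P N n) (w, 0) (fderiv ℝ G x u) :=
    fun u v w x q => by simp only [gp.fderiv x q]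
  have e1 := fdS hF gp gs (ev ((b, 0) : P N n) (c, 0)) k a
  have e2 := fdS hF gp gs (ev ((c, 0) : P N n) (a, 0)) k b
  have e3 := fdS hF gp gs (ev ((a, 0) : P N n) (b, 0)) k c
  have s1 := fc_add (p1 a b c) (c1 a b c) (p1 b c a) (c1 b c a) k
  have s2 := fc_add (u := fun x => ev ((b, 0) : P N n) (c, 0) (fderiv ℝ G x a) +
    ev ((c, 0) : P N n) (a, 0) (fderiv ℝ G x b)) (fun x q => by simp only [gp.fderiv x q])
    ((c1 a b c).add (c1 b c a)) (p1 c a b) (c1 c a b) k
  have s3 : (fun x => ev ((b, 0) : P N n) (c, 0) (fderiv ℝ G x a) +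
      ev ((c, 0) : P N n) (a, 0) (fderiv ℝ G x b) + ev ((a, 0) : P N n) (b, 0) (fderiv ℝ G x c)) =
      fun _ => 0 := by
    funext x
    simp only [ev_apply, gd]
    exact h.closed (x, 0) (by simp) _ _ _
  rw [s3, fc_zero', s1, e1, e2, e3] at s2
  simp only [ev_apply, hG] at s2
  apply mul_left_cancel₀ two_pi_ne
  linear_combination -s2

/-- the restriction to a graph differs from that to the zero section by an exact form -/
theorem exa (hF : FD) {Ω : P N n → B2 (P N n)} {θ : P N n → P N n →L[ℝ] ℂ} (h : Fm Ω)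
    (hθ : Prim Ω θ) {φ : E N → Cm n} (hs : ContDiff ℝ ∞ φ) (hp : Pe φ) (hn : ∀ x, ‖φ x‖ < 1)
    (k : Fin N → ℤ) : ∃ β : E N → ℂ, ∀ u v,
      fc (fun x => rs (Ω (x, φ x)) (fderiv ℝ φ x) u v) k = fc (fun x => Ω (x, 0) (u, 0) (v, 0)) k
        + 2 * Real.pi * I * (kv k u * β v - kv k v * β u) := by
  obtain ⟨Γ, hΓ⟩ : ∃ Γ : E N → P N n, Γ = fun x => (x, φ x) := ⟨_, rfl⟩
  have gs : ContDiff ℝ ∞ Γ := hΓ ▸ contDiff_id.prodMk hs
  have gd : ∀ x, fderiv ℝ Γ x = gr (fderiv ℝ φ x) := fun x => by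
    rw [hΓ]
    exact ((hasFDerivAt_id x).prodMk (hs.differentiable (by simp) x).hasFDerivAt).fderiv
  obtain ⟨th, hth⟩ : ∃ th : E N → E N →L[ℝ] ℂ, th = fun x => (θ (Γ x)).comp (fderiv ℝ Γ x) :=
    ⟨_, rfl⟩
  have ts : ContDiff ℝ ∞ th :=
    hth ▸ (hθ.sm.comp gs).clm_comp (gs.fderiv_right (m := ∞) (by simp))
  have tp : Pe th := fun x q => by
    simp only [hth, gd, hp.fderiv x q]
    rw [hΓ]
    simp only [hp x q, hθ.per x _ q]
  have td : ∀ x u v, rs (Ω (x, φ x)) (fderiv ℝ φ x) u v =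
      Ω (x, 0) (u, 0) (v, 0) + (fderiv ℝ th x u v - fderiv ℝ th x v u) := by
    intro x u v
    have h1 := pb_d (θ := θ) (Γ := Γ) (z := x) (gs.contDiffAt.of_le (by norm_cast))
      (hθ.sm.differentiable (by simp) _) u v
    rw [← hth, hθ.eq (Γ x) (by rw [hΓ]; exact hn x), gd, gr_apply, gr_apply] at h1
    rw [h1, rs_apply, hΓ]
    ring
  have c1 : ∀ u v : E N, Continuous fun x => fderiv ℝ th x u v := fun u v =>
    ((ts.continuous_fderiv (by simp)).clm_apply continuous_const).clm_apply continuous_const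
  have p1 : ∀ u v : E N, Pe fun x => fderiv ℝ th x u v := fun u v x q => by
    simp only [tp.fderiv x q]
  have c0 : ∀ u v : E N, Continuous fun x : E N => Ω (x, 0) (u, 0) (v, 0) := fun u v =>
    ((h.sm.continuous.comp (continuous_id.prodMk continuous_const)).clm_apply
      continuous_const).clm_apply continuous_const
  have p0 : ∀ u v : E N, Pe fun x : E N => Ω (x, 0) (u, 0) (v, 0) := fun u v x q => by
    simp only [h.per x 0 q]
  refine ⟨fun v => fc (fun x => th x v) k, fun u v => ?_⟩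
  have e1 : fc (fun x => fderiv ℝ th x u v) k =
      2 * Real.pi * I * kv k u * fc (fun x => th x v) k :=
    fdS hF tp ts (ContinuousLinearMap.apply ℝ ℂ v) k u
  have e2 : fc (fun x => fderiv ℝ th x v u) k =
      2 * Real.pi * I * kv k v * fc (fun x => th x u) k :=
    fdS hF tp ts (ContinuousLinearMap.apply ℝ ℂ u) k v
  simp only [td]
  rw [fc_add (p0 u v) (c0 u v) (v := fun x => fderiv ℝ th x u v - fderiv ℝ th x v u)
    (fun x q => by simp only [tp.fderiv x q]) ((c1 u v).sub (c1 v u)),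
    fc_sub (p1 u v) (c1 u v) (p1 v u) (c1 v u), e1, e2]
  ring

theorem fc_sum {ι : Type} (s : Finset ι) {u : ι → E N → ℂ} (hp : ∀ i, Pe (u i))
    (hc : ∀ i, Continuous (u i)) (k : Fin N → ℤ) :
    fc (fun x => ∑ i ∈ s, u i x) k = ∑ i ∈ s, fc (u i) k := by
  simp only [fc_eq, Finset.smul_sum]
  exact integral_finsetSum _ fun i _ => (hp i).integrable_fc (hc i) k

/-- the Fourier coefficients of a jet -/
theorem jet (hF : FD) (κ : E N ≃L[ℝ] Cm n) {h : E N → Jt (E N) (B2 (E N))} (hp : Pe h)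
    (hc : Continuous h) (hj : IsJet h) (k : Fin N → ℤ) : ∃ H : B2 (E N),
      fc (fun x => (h x).2.1) k = (2 * Real.pi * I : ℂ) • (kv k).smulRight H ∧
      ∀ u v, fc (fun x => trL (bs κ) (h x) u v) k =
        (2 * Real.pi * I) ^ 2 * (∑ i, kv k (bs κ i) ^ 2 : ℝ) * H u v := by
  have p0 : Pe fun x => (h x).1 := fun x q => by simp only [hp x q]
  have p1 : Pe fun x => (h x).2.1 := fun x q => by simp only [hp x q]
  have c0 : Continuous fun x => (h x).1 := hc.fst
  have c1 : Continuous fun x => (h x).2.1 := hc.snd.fst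
  have c2 : Continuous fun x => (h x).2.2 := hc.snd.snd
  have e1 : ∀ b u v, fc (fun x => (h x).2.1 b u v) k =
      2 * Real.pi * I * kv k b * fc (fun x => (h x).1) k u v := by
    intro b u v
    rw [← fc_ap2 p0 c0]
    exact fdL hF p0 (fun x => (hj x).1) c1 (ev u v) k b
  have e2 : ∀ a b u v, fc (fun x => (h x).2.2 a b u v) k =
      2 * Real.pi * I * kv k a * fc (fun x => (h x).2.1 b u v) k := fun a b u v =>
    fdL hF p1 (fun x => (hj x).2) c2
      ((ev u v).comp (ContinuousLinearMap.apply ℝ (B2 (E N)) b)) k a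
  refine ⟨fc (fun x => (h x).1) k, ?_, fun u v => ?_⟩
  · refine ContinuousLinearMap.ext fun b => ContinuousLinearMap.ext fun u =>
      ContinuousLinearMap.ext fun v => ?_
    have e3 := fc_clmR ((ev u v).comp (ContinuousLinearMap.apply ℝ (B2 (E N)) b))
      (fun _ _ => rfl) p1 c1 k
    refine e3.symm.trans ((e1 b u v).trans ?_)
    simp only [smul_apply, ContinuousLinearMap.smulRight_apply, smul_eq_mul,
      Complex.real_smul]
    ring
  · simp only [trL_apply, sum_apply]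
    rw [fc_sum Finset.univ (u := fun i x => (h x).2.2 (bs κ i) (bs κ i) u v)
      (fun i x q => by simp only [hp x q])
      (fun i => (((c2.clm_apply continuous_const).clm_apply continuous_const).clm_apply
        continuous_const).clm_apply continuous_const)]
    simp only [e2, e1]
    push_cast
    rw [Finset.mul_sum, Finset.sum_mul]
    exact Finset.sum_congr rfl fun i _ => by ring

theorem pa_smul (κ : E N ≃L[ℝ] Cm n) (c : ℂ) (y : Cm n) (a : E N) :
    pa κ (c • y) a = c * pa κ y a := by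
  simp only [pa_apply, Pi.smul_apply, smul_eq_mul, Finset.mul_sum, mul_assoc]

/-- the gauge condition -/
theorem gauge (hF : FD) (κ : E N ≃L[ℝ] Cm n)
    (s2 : ∀ (k : E N →L[ℝ] ℝ) y, rho κ (k.smulRight (wg k (pa κ y))) = (∑ i, k (bs κ i) ^ 2) • y)
    (s6 : ∀ (c : ℂ) (D : E N →L[ℝ] B2 (E N)), rho κ (c • D) = c • rho κ D)
    {φ : E N → Cm n} (hs : ContDiff ℝ ∞ φ) (hφ : Pe φ) {h : E N → Jt (E N) (B2 (E N))} (hp : Pe h)
    (hc : Continuous h) (hj : IsJet h) {a : Cm n} (ha : ∀ x, φ x = a - rho κ (h x).2.1)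
    {c : B2 (E N)} {k : Fin N → ℤ} (hk : k ≠ 0) {τ : B2 (E N)}
    (hτ : ∀ u v, τ u v = fc (fun x => (trL (bs κ) (h x) u v + c u v) +
      (pa κ (fderiv ℝ φ x u) v - pa κ (fderiv ℝ φ x v) u)) k) :
    rho κ ((kv k).smulRight τ) = 0 := by
  obtain ⟨H, h1, h2⟩ := jet hF κ hp hc hj k
  obtain ⟨g, hg⟩ : ∃ g : ℝ, g = ∑ i, kv k (bs κ i) ^ 2 := ⟨_, rfl⟩
  obtain ⟨w, hw⟩ : ∃ w : ℂ, w = 2 * Real.pi * I := ⟨_, rfl⟩
  have p1 : Pe fun x => (h x).2.1 := fun x q => by simp only [hp x q]
  have c1 : Continuous fun x => (h x).2.1 := hc.snd.fst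
  have hy : fc φ k = -(w • rho κ ((kv k).smulRight H)) := by
    have e1 : φ = fun x => a - rho κ (h x).2.1 := funext ha
    have e2 := fc_sub (u := fun _ : E N => a) (v := fun x => rho κ (h x).2.1) (fun _ _ => rfl)
      continuous_const (fun x q => by simp only [hp x q]) ((rho κ).continuous.comp c1) k
    rw [e1, e2, fc_const a hk, fc_clmR (rho κ) s6 p1 c1, h1, s6, zero_sub, hw]
  have e3 : ∀ u v, fc (fun x => pa κ (fderiv ℝ φ x u) v) k = w * kv k u * pa κ (fc φ k) v := by
    intro u v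
    have e4 := fdS hF hφ hs ((pa κ).flip v) k u
    have e5 := fc_clmR ((pa κ).flip v) (fun c y => pa_smul κ c y v) hφ hs.continuous k
    rw [e5, ← hw] at e4
    exact e4
  have cD : ∀ u v, Continuous fun x => pa κ (fderiv ℝ φ x u) v := fun u v =>
    ((pa κ).flip v).continuous.comp ((hs.continuous_fderiv (by simp)).clm_apply continuous_const)
  have pD : ∀ u v, Pe fun x => pa κ (fderiv ℝ φ x u) v := fun u v x q => by
    simp only [hφ.fderiv x q]
  have cT : ∀ u v, Continuous fun x => trL (bs κ) (h x) u v := fun u v =>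
    (((trL (bs κ)).continuous.comp hc).clm_apply continuous_const).clm_apply continuous_const
  have pT : ∀ u v, Pe fun x => trL (bs κ) (h x) u v := fun u v x q => by simp only [hp x q]
  have e6 : (kv k).smulRight τ = (w ^ 2 * g) • (kv k).smulRight H +
      w • (kv k).smulRight (wg (kv k) (pa κ (fc φ k))) := by
    refine ContinuousLinearMap.ext fun b => ContinuousLinearMap.ext fun u =>
      ContinuousLinearMap.ext fun v => ?_
    have e7 := hτ u v
    rw [fc_add (u := fun x => trL (bs κ) (h x) u v + c u v)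
      (v := fun x => pa κ (fderiv ℝ φ x u) v - pa κ (fderiv ℝ φ x v) u)
      (fun x q => by simp only [hp x q]) ((cT u v).add continuous_const)
      (fun x q => by simp only [hφ.fderiv x q]) ((cD u v).sub (cD v u)),
      fc_add (pT u v) (cT u v) (v := fun _ => c u v) (fun _ _ => rfl) continuous_const,
      fc_sub (pD u v) (cD u v) (pD v u) (cD v u), fc_const _ hk, h2, e3, e3, ← hg, ← hw] at e7
    simp only [add_apply, smul_apply,
      ContinuousLinearMap.smulRight_apply, smul_eq_mul, Complex.real_smul, wg_apply, e7]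
    ring
  rw [e6, map_add, s6, s6, s2, ← hg, hy]
  funext i
  simp only [Pi.add_apply, Pi.smul_apply, Pi.neg_apply, smul_eq_mul, Complex.real_smul,
    Pi.zero_apply]
  ring

/-- `p02` as a linear map -/
def pL (κ : E N ≃L[ℝ] Cm n) : B2 (E N) →L[ℝ] B2 (E N) :=
  LinearMap.toContinuousLinearMap
    { toFun := p02 κ
      map_add' := fun τ σ => ContinuousLinearMap.ext fun u => ContinuousLinearMap.ext fun v => by
        simp only [add_apply, p02_apply]
        ring
      map_smul' := fun c τ => ContinuousLinearMap.ext fun u => ContinuousLinearMap.ext fun v => by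
        simp only [smul_apply, p02_apply, RingHom.id_apply, Complex.real_smul]
        ring }

theorem pL_apply (κ : E N ≃L[ℝ] Cm n) (τ : B2 (E N)) : pL κ τ = p02 κ τ := rfl

theorem pL_smul (κ : E N ≃L[ℝ] Cm n) (c : ℂ) (τ : B2 (E N)) : pL κ (c • τ) = c • pL κ τ :=
  ContinuousLinearMap.ext fun u => ContinuousLinearMap.ext fun v => by
    simp only [pL_apply, smul_apply, p02_apply, smul_eq_mul]
    ring

theorem slice {η : ℝ} {f : P N n → Cm n} (h : Gf η f) {a : Cm n} (ha : ‖a‖ < 1 / 4) :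
    ContDiff ℝ ∞ (fun x : E N => f (x, a)) ∧ (∀ x, fderiv ℝ (fun x : E N => f (x, a)) x =
      dx f (x, a)) ∧ ∀ x, ‖dx f (x, a)‖ ≤ η := by
  refine ⟨contDiff_iff_contDiffAt.2 fun x => ContDiffAt.comp (g := f) x (h.sm (x, a) ha)
    (contDiffAt_id.prodMk contDiffAt_const), fun x => ?_, fun x => ?_⟩
  · exact (HasFDerivAt.comp (g := f) x ((h.sm (x, a) ha).differentiableAt (by simp)).hasFDerivAt
      (hasFDerivAt_prodMk_left x a)).fderiv
  · have h1 := h.n1 (x, a) ha
    refine ContinuousLinearMap.opNorm_le_bound _ ((norm_nonneg _).trans h1) fun u => ?_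
    have h2 := (fderiv ℝ f (x, a) - ContinuousLinearMap.snd ℝ _ _).le_of_opNorm_le h1 (u, 0)
    simpa [dx] using h2

end LagX

open LagX in
theorem lagr_of (hF : FD) (hP : PARS) (hR : PRIM) (hW : PW) (hS : SYM) : LAGR := by
  intro N n κ
  obtain ⟨C, η₀, hC, hη₀, hW⟩ := hW N n κ
  obtain ⟨C', -, s1, s2, -, -, -, s6⟩ := hS N n κ
  obtain ⟨ε, hε, hP⟩ := hP N (B2 (E N)) (B2 (E N)) |C'|
  obtain ⟨η, p0, p1, p2, p3⟩ : ∃ η : ℝ, 0 < η ∧ η ≤ η₀ ∧ η ≤ 1 / 2 ∧ C * η ≤ ε :=
    ⟨min η₀ (min (1 / 2) (ε / C)), by positivity, min_le_left _ _,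
      (min_le_right _ _).trans (min_le_left _ _), by
        rw [mul_comm, ← le_div_iff₀ hC]
        exact (min_le_right _ _).trans (min_le_right _ _)⟩
  refine ⟨η, p0, fun Ω f hΩ hf he => ?_⟩
  rintro ⟨x₀, a⟩ ha
  obtain ⟨θ, hθ⟩ := hR N n Ω hΩ.toFm
  obtain ⟨h, c, hp, hc, hj, e1, e2⟩ := he a ha
  obtain ⟨hs, hd, hb⟩ := slice hf ha
  simp only [← hd] at e1 hb ⊢
  obtain ⟨φ, hφ⟩ : ∃ φ : E N → Cm n, φ = fun x => f (x, a) := ⟨_, rfl⟩
  have hφ' : ∀ x, f (x, a) = φ x := fun x => by rw [hφ]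
  have pφ : Pe φ := fun x q => by rw [← hφ', ← hφ', hf.per x a q]
  have hn : ∀ x, ‖φ x‖ < 1 := fun x => by
    have h1 := hf.n0 (x, a) ha
    have h2 := norm_le_norm_add_norm_sub' (f (x, a)) a
    rw [← hφ']
    dsimp only at h1 ha
    linarith
  rw [← hφ] at hs e1 hb ⊢
  simp only [hφ'] at e1 e2 ⊢
  obtain ⟨F, hF'⟩ : ∃ F : E N → B2 (E N), F = fun x => rs (Ω (x, φ x)) (fderiv ℝ φ x) := ⟨_, rfl⟩
  have cF : Continuous F := by
    have h1 : Continuous fun x => Ω (x, φ x) :=
      hΩ.sm.continuous.comp (continuous_id.prodMk hs.continuous)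
    have h2 : ∀ u, Continuous fun x => ((u, fderiv ℝ φ x u) : P N n) := fun u =>
      continuous_const.prodMk ((hs.continuous_fderiv (by simp)).clm_apply continuous_const)
    rw [hF']
    exact continuous_clm_apply.2 fun u => continuous_clm_apply.2 fun v =>
      (h1.clm_apply (h2 u)).clm_apply (h2 v)
  have pF : Pe F := fun x q => by simp only [hF', pφ x q, pφ.fderiv x q, hΩ.per x _ q]
  have key := hP F (fun x => pL κ (F x)) cF ((pL κ).continuous.comp cF) pF
    (fun x q => by simp only [pF x q]) (fun k => ?_) (fun x => ?_) x₀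
  · rw [hF'] at key
    exact key
  · obtain ⟨β, hβ⟩ := exa hF hΩ.toFm hθ hs pφ hn k
    have hβ' : ∀ u v, fc F k u v = fc (fun x => Ω (x, 0) (u, 0) (v, 0)) k
        + 2 * Real.pi * I * (kv k u * β v - kv k v * β u) := fun u v => by
      rw [← fc_ap2 pF cF, ← hβ, hF']
    rw [fc_clmR (pL κ) (pL_smul κ) pF cF, pL_apply]
    by_cases hk : k = 0
    · have h0 : fc F k = 0 := ContinuousLinearMap.ext fun u => ContinuousLinearMap.ext fun v => by
        rw [hβ', hk, fc_zero, hΩ.zero, kv_zero]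
        simp
      rw [h0, norm_zero]
      positivity
    refine (s1 (kv k) (fc F k) (kv_ne hk) (fun u v => ?_) (fun u v w => ?_) ?_).trans
      (mul_le_mul_of_nonneg_right (le_abs_self _) (norm_nonneg _))
    · rw [← fc_ap2 pF cF, ← fc_ap2 pF cF, ← neg_one_smul ℂ, ← fc_smul]
      refine congrArg (fun u => fc u k) (funext fun x => ?_)
      simp only [hF', rs_apply, neg_one_smul]
      exact hΩ.skew _ _ _
    · have h1 := cl0 hF hΩ.toFm k u v w
      rw [hβ', hβ', hβ']
      linear_combination h1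
    · refine gauge hF κ s2 s6 hs pφ hp hc hj e2 (c := c) hk fun u v => ?_
      rw [← fc_ap2 pF cF]
      refine congrArg (fun u => fc u k) (funext fun x => ?_)
      simp only [e1, hF', rs_apply, sub_apply, om0_apply]
      ring
  · have h1 := (hW η p1 (Ω (x, φ x)) (fderiv ℝ φ x) (hΩ.skew _) (hΩ.cx _ (hn x))
      (hΩ.b0 _ (hn x)) (hb x)).1
    rw [pL_apply, hF']
    exact h1.trans (mul_le_mul_of_nonneg_right p3 (norm_nonneg _))

end Vale.Agent.P301Z.Tor
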