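import Vale.Agent.P301Z.Tor.Sk3
import Mathlib.Analysis.Calculus.InverseFunctionTheorem.ContDiff

/-!
# P301Z, block TOR: local inverses of a parametrisation
-/

open scoped ContDiff Topology
open Set Filter
open Vale.Agent.P272.K

noncomputable section

namespace Vale.Agent.P301Z.Tor

/-- **LOC** -/
theorem loc : LOC := by
  intro d V Ψ h v hv e he
  have hF : ContDiffAt ℝ ∞ (fun y => e (Ψ y)) v := (h.sm v hv).sm e he
  let L : Cm d ≃L[ℝ] Cm d := ContinuousLinearEquiv.ofBijective (fderiv ℝ (fun y => e (Ψ y)) v)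
    (LinearMap.ker_eq_bot.2 (h.bij v hv e he).1) (LinearMap.range_eq_top.2 (h.bij v hv e he).2)
  have hL : HasFDerivAt (fun y => e (Ψ y)) (L : Cm d →L[ℝ] Cm d) v :=
    (hF.differentiableAt (by simp)).hasFDerivAt
  have hn : (∞ : WithTop ℕ∞) ≠ 0 := by simp
  have hS := hF.hasStrictFDerivAt' hL hn
  have h1 : ∀ᶠ z in 𝓝 (e (Ψ v)), Ψ (hS.localInverse _ L v z) = e.symm z := by
    filter_upwards [hS.eventually_right_inverse, hS.localInverse_tendsto.eventually
      ((h.sm v hv).cont.eventually (e.open_source.mem_nhds he.2))] with z k1 k2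
    exact (e.left_inv k2).symm.trans (congrArg e.symm k1)
  refine ⟨hS.localInverse _ L v, hF.to_localInverse hL hn, hS.localInverse_apply_image, h1,
    fun p => ?_, fun O hO => ?_⟩
  · rw [hS.to_localInverse.hasFDerivAt.fderiv]
    exact L.symm_apply_apply p
  · filter_upwards [(e.continuousAt he.2).eventually
      (h1.and (hS.localInverse_tendsto.eventually hO)), e.open_source.mem_nhds he.2] with x k1 k2
    exact ⟨_, k1.2, k1.1.trans (e.left_inv k2)⟩

end Vale.Agent.P301Z.Tor
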