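import Vale.Agent.P301Z.Tor.Sk3
import Vale.Agent.P301Z.Dg.One

/-!
# P301Z, block TOR: row MBE
-/

open scoped Manifold ContDiff Topology Matrix
open Set Filter Metric Complex
open Vale.Agent.P272.K Vale.Agent.P299.IX Vale.Agent.P299.IX.Fock
open Vale.Agent.P281Z (Mf)
open Vale.Agent.P281Z.Hg
open Vale.Agent.P301Z.Lat Vale.Agent.P301Z.Rot

noncomputable section

namespace Vale.Agent.P301Z.Tor

namespace Mb

variable {d : ℕ} {V : Mf d} {Ψ : Cm d → V.X} {γ : Cm d → Cm d →L[ℝ] ℂ} {v : Cm d}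
  {e e' : Chart d V.X}

theorem tb_open (R : ℝ) : IsOpen (Tb d R) := by
  simp only [Tb, ofPred_forall]
  exact isOpen_iInter_of_finite fun l => isOpen_lt (by fun_prop) continuous_const

/-- the differential of the parametrisation -/
def dm (Ψ : Cm d → V.X) (e : Chart d V.X) (v : Cm d) : Cm d →L[ℝ] Cm d :=
  fderiv ℝ (fun y => e (Ψ y)) v

open Classical in
/-- the covector at the point `x` in the chart `e` -/
def al (Ψ : Cm d → V.X) (γ : Cm d → Cm d →L[ℝ] ℂ) (e : Chart d V.X) (x : V.X) : Cm d →L[ℝ] ℂ :=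
  if h : ∃ v ∈ Tb d 2, Ψ v = x then (γ h.choose).comp (dm Ψ e h.choose).inverse else 0

theorem al_eq (h : RP V Ψ) (hγ : ∀ v q, γ (v + per q) = γ v) (hv : v ∈ Tb d 2) :
    al Ψ γ e (Ψ v) = (γ v).comp (dm Ψ e v).inverse := by
  have h0 : ∃ v' ∈ Tb d 2, Ψ v' = Ψ v := ⟨v, hv, rfl⟩
  obtain ⟨q, hq⟩ := h.inj v hv _ h0.choose_spec.1 h0.choose_spec.2.symm
  have h1 : (fun y => e (Ψ (y + per q))) =ᶠ[𝓝 v] fun y => e (Ψ y) := by
    filter_upwards [(tb_open 2).mem_nhds hv] with y hy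
    rw [h.peri y hy]
  rw [al, dif_pos h0, hq, hγ, dm, ← fderiv_comp_add_right, h1.fderiv_eq, dm]

theorem dm_inv (h : RP V Ψ) (hv : v ∈ Tb d 2) (he : At e (Ψ v)) : (dm Ψ e v).IsInvertible :=
  ⟨(LinearEquiv.ofBijective (dm Ψ e v).toLinearMap (h.bij v hv e he)).toContinuousLinearEquiv, rfl⟩

theorem al_dm (h : RP V Ψ) (hγ : ∀ v q, γ (v + per q) = γ v) (hv : v ∈ Tb d 2) (he : At e (Ψ v))
    (p : Cm d) : al Ψ γ e (Ψ v) (dm Ψ e v p) = γ v p := by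
  rw [al_eq h hγ hv, ContinuousLinearMap.comp_apply, (dm_inv h hv he).inverse_apply_eq.2 rfl]

theorem al_ch (h : RP V Ψ) (hγ : ∀ v q, γ (v + per q) = γ v) {x : V.X} (he : At e x)
    (he' : At e' x) : al Ψ γ e x = (al Ψ γ e' x).comp (fderiv ℝ (trn e e') (e x)) := by
  by_cases h0 : ∃ v ∈ Tb d 2, Ψ v = x
  · obtain ⟨v, hv, rfl⟩ := h0
    ext1 a
    obtain ⟨p, rfl⟩ : ∃ p, dm Ψ e v p = a := (h.bij v hv e he).2 a
    have h1 : (fun y => e' (Ψ y)) =ᶠ[𝓝 v] fun y => trn e e' (e (Ψ y)) := by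
      filter_upwards [Pt.SmA.near (h.sm v hv).cont he] with y hy
      rw [trn_at e' hy.2]
    have h2 : fderiv ℝ (trn e e') (e (Ψ v)) (dm Ψ e v p) = dm Ψ e' v p := by
      rw [dm, dm, h1.fderiv_eq, fderiv_fun_comp (g := trn e e') (f := fun y => e (Ψ y)) v
        ((at_cd he he').differentiableAt (by simp))
        (((h.sm v hv).sm e he).differentiableAt (by simp))]
      rfl
    rw [ContinuousLinearMap.comp_apply, h2, al_dm h hγ hv he, al_dm h hγ hv he']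
  · rw [al, al, dif_neg h0, dif_neg h0, ContinuousLinearMap.zero_comp]

theorem al_supp (h : RP V Ψ) (hγ : ∀ v q, γ (v + per q) = γ v)
    (hs : ∀ v, v ∉ Tb d 1 → γ v = 0) : ∃ S : Set V.X, IsClosed S ∧ S ⊆ Ψ '' Tb d 2 ∧
      ∀ e, ∀ x ∉ S, al Ψ γ e x = 0 := by
  let K : Set (Cm d) := univ.pi fun _ => Icc (-1 : ℝ) 1 ×ℂ Icc 0 (2 * Real.pi)
  have hK : IsCompact K := isCompact_univ_pi fun _ => isCompact_Icc.reProdIm isCompact_Icc
  have h1 : K ⊆ Tb d 2 := fun v hv i => (abs_le.2 (hv i trivial).1).trans_lt one_lt_two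
  refine ⟨Ψ '' K, (hK.image_of_continuousOn fun v hv =>
    (h.sm v (h1 hv)).cont.continuousWithinAt).isClosed, image_mono h1, fun e x hx => ?_⟩
  by_cases h0 : ∃ v ∈ Tb d 2, Ψ v = x
  · obtain ⟨v, hv, rfl⟩ := h0
    rw [al_eq h hγ hv, hs v fun h2 => hx ?_, ContinuousLinearMap.zero_comp]
    choose q hq using fun i =>
      (existsUnique_add_zsmul_mem_Ico Real.two_pi_pos (v i).im 0).exists
    refine ⟨v + per q, fun i _ => ⟨?_, ?_⟩, h.peri v hv q⟩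
    · simpa [per] using abs_le.1 (h2 i).le
    · simpa [per, mul_comm] using Ico_subset_Icc_self (hq i)
  · rw [al, dif_neg h0]

theorem al_sm (hL : LOC) (h : RP V Ψ) (hc : ContDiff ℝ ∞ γ) (hγ : ∀ v q, γ (v + per q) = γ v)
    (hs : ∀ v, v ∉ Tb d 1 → γ v = 0) {x : V.X} (he : At e x) :
    ContDiffAt ℝ ∞ (fun z => al Ψ γ e (e.symm z)) (e x) := by
  by_cases h0 : x ∈ Ψ '' Tb d 2
  · obtain ⟨v, hv, rfl⟩ := h0
    obtain ⟨σ, s1, s2, s3, -⟩ := hL d V Ψ h v hv e he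
    have h1 : ContDiffAt ℝ ∞ (dm Ψ e) v := ((h.sm v hv).sm e he).fderiv_right (by simp)
    have h2 : ContDiffAt ℝ ∞ (fun y => (γ y).comp (dm Ψ e y).inverse) (σ (e (Ψ v))) := by
      rw [s2]
      exact hc.contDiffAt.clm_comp ((dm_inv h hv he).contDiffAt_map_inverse.comp v h1)
    refine (h2.comp _ s1).congr_of_eventuallyEq ?_
    filter_upwards [s3, s1.continuousAt.eventually ((tb_open 2).mem_nhds (s2.symm ▸ hv))]
      with z h3 h4
    rw [← h3, al_eq h hγ h4]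
    rfl
  · obtain ⟨S, s1, s2, s3⟩ := al_supp h hγ hs
    refine (contDiffAt_const (c := 0)).congr_of_eventuallyEq ?_
    filter_upwards [(e.continuousAt_symm (e.map_source he.2)).eventually (s1.isOpen_compl.mem_nhds
      (by rw [e.left_inv he.2]; exact fun k => h0 (s2 k)))] with z hz using s3 e _ hz

theorem bv_pf (h : Pt.SmA d Ψ v) (he : At e (Ψ v)) (u : Fs V) (p q : Cm d) :
    bv (Pt.pf Ψ u v) p q = bv (vl u e (e (Ψ v))) (dm Ψ e v p) (dm Ψ e v q) := by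
  rw [Pt.pf_eq h he]
  exact Pt.e2_pb ((h.sm e he).differentiableAt (by simp)) _ p q

end Mb

open Mb in
theorem mbe_of (hL : LOC) : MBE := by
  intro d V b u Ψ U γ h hU hb hγ
  obtain ⟨β, hβ⟩ := (g1T d V.X).mkf (fun e z => Dg.o1 (al Ψ γ e (e.symm z)))
    (fun e x he => Dg.one.o1_cd.contDiffAt.comp _ (al_sm hL h hγ.sm hγ.per hγ.supp he))
    fun e e' x he he' => by
      rw [e.left_inv he.2, e'.left_inv he'.2, al_ch h hγ.per he he']
      exact (Dg.one.o1_jc _ ((at_cd he he').differentiableAt (by simp))).symm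
  have h1 : ∀ e x, At e x → vl β e (e x) = Dg.o1 (al Ψ γ e x) := fun e x he => by
    rw [(hβ e x he).eq_of_nhds, e.left_inv he.2]
  have h2 : (dR V).dg 1 β = β := (g1T d V.X).ext _ _ fun x => ⟨_, Pt.ca x, by
    rw [(dR_real V).dg 1 β _ _ (Pt.ca x), h1 _ _ (Pt.ca x), Dg.one.dg_o1]⟩
  have h3 : Cl2 V ((dR V).d β) := ⟨(dR_ok V).dd β, by
    have k := DFunLike.congr_fun ((dR_ok V).dg_d 1) β
    rwa [Module.End.mul_apply, Module.End.mul_apply, h2] at k⟩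
  refine ⟨β, h2, ?_⟩
  rintro _ ⟨v, hv, rfl⟩ e he
  have hv2 : v ∈ Tb d 2 := fun i => (hU hv i).trans one_lt_two
  have h4 : ∀ᶠ y in 𝓝 v, y ∈ Tb d 2 := (tb_open 2).mem_nhds hv2
  have h5 : ∀ᶠ y in 𝓝 v, Pt.SmA d Ψ y := h4.mono h.sm
  have h6 : (fun y => Dg.lv (Pt.pf Ψ β y)) =ᶠ[𝓝 v] γ := h4.mono fun y hy => by
    have k := Dg.one.lv_jc (vl β (chartAt (Cm d) (Ψ y)) (chartAt (Cm d) (Ψ y) (Ψ y)))
      (((h.sm y hy).sm _ (Pt.ca _)).differentiableAt (by simp))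
    refine k.trans (ContinuousLinearMap.ext fun p => ?_)
    rw [h1 _ _ (Pt.ca _), Dg.one.lv_o1]
    exact al_dm h hγ.per hy (Pt.ca _) p
  refine bv_ext (cl_dg h3 he) (dg_om _) fun a a' => ?_
  obtain ⟨p, rfl⟩ : ∃ p, dm Ψ e v p = a := (h.bij v hv2 e he).2 a
  obtain ⟨q, rfl⟩ : ∃ q, dm Ψ e v q = a' := (h.bij v hv2 e he).2 a'
  rw [← bv_pf (h.sm v hv2) he, ← Pt.pf_d h5,
    Dg.one.bv_dT _ _ ((Pt.pf_sm h5 β).differentiableAt (by simp)), Dg.dl, h6.fderiv_eq,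
    hγ.eq v hv, fb, bL_apply, bv_pf (h.sm v hv2) he, hb e _ he]
  rfl

end Vale.Agent.P301Z.Tor
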