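import Vale.Agent.P301Z.Tor.Sk3
import Vale.Agent.P268.Hol

/-!
# P301Z, block TOR: the fibration on the manifold
-/

open scoped ContDiff Topology Matrix
open Set Filter Metric Complex
open Vale.Agent.P272.K
open Vale.Agent.P281Z (Mf)
open Vale.Agent.P281Z.Hg
open Vale.Agent.P301.H599 (IsHolTwoForm)
open Vale.Agent.P301Z.Lat

set_option maxSynthPendingDepth 3

noncomputable section

namespace Vale.Agent.P301Z.Tor

namespace MfbH

variable {d n : ℕ}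

theorem tb {v : Cm d} (h : v ∈ Tb d 1) : v ∈ Tb d 2 := fun i => (h i).trans one_lt_two

/-- a real linear map which commutes with `i` is complex linear -/
theorem cl (B : Cm d →L[ℝ] Cm n) (h : ∀ a, B (I • a) = I • B a) :
    ∃ A : Cm d →L[ℂ] Cm n, A.restrictScalars ℝ = B := by
  refine ⟨LinearMap.toContinuousLinearMap
    { toFun := B, map_add' := B.map_add, map_smul' := fun c a => ?_ }, rfl⟩
  have k : ∀ {m : ℕ} (x : Cm m), c • x = c.re • x + c.im • I • x := fun x => by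
    rw [← Complex.coe_smul, ← Complex.coe_smul, smul_smul, ← add_smul, re_add_im]
  rw [RingHom.id_apply, k a, k (B a), map_add, map_smul, map_smul, h]

variable {V : Mf d} {Ψ : Cm d → V.X} {v : Cm d} {e : Chart d V.X}

theorem fb_eq {u : Fs V} {S : Mx d} (h : Pt.SmA d Ψ v) (he : At e (Ψ v)) (hS : Sᵀ = -S)
    (hu : vl u e (e (Ψ v)) = f20 S) (p q : Cm d) : fb Ψ u v p q =
      fderiv ℝ (fun y => e (Ψ y)) v p ⬝ᵥ S *ᵥ fderiv ℝ (fun y => e (Ψ y)) v q := by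
  rw [fb, Rot.bL_apply, Pt.pf_eq h he, ← Rot.bv_f20 hS, ← hu]
  exact Rot.bv_jc ((h.sm e he).differentiableAt (by simp)) _ p q

theorem key (hl : LOC) (h : RP V Ψ) {U : Set (Cm d)} {π : Cm d → Cm n} {π' : V.X → Cm n}
    (hU : U ∈ 𝓝 v) (hv : v ∈ Tb d 2) (h0 : ∀ v ∈ U, π' (Ψ v) = π v) {u : Fs V} {S : Mx d}
    (he : At e (Ψ v)) (hS : Sᵀ = -S) (hu : vl u e (e (Ψ v)) = f20 S) {D : Cm d →L[ℝ] Cm n}
    (hD : HasFDerivAt π D v) (hf : Dif (fb Ψ u v) D) :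
    ∃ A : Cm d →L[ℂ] Cm n, HasFDerivAt (fun z => π' (e.symm z)) A (e (Ψ v)) ∧
      Function.Surjective A ∧ ∀ a a', A a = 0 → A a' = 0 → a ⬝ᵥ S *ᵥ a' = 0 := by
  obtain ⟨σ, s1, s2, s3, s4, -⟩ := hl d V Ψ h v hv e he
  have hM := (h.bij v hv e he).2
  have hb := fb_eq (h.sm v hv) he hS hu
  have h1 : HasFDerivAt (fun z => π' (e.symm z)) (D.comp (fderiv ℝ σ (e (Ψ v)))) (e (Ψ v)) := by
    refine (HasFDerivAt.comp (e (Ψ v)) (s2.symm ▸ hD)
      (s1.differentiableAt (by simp)).hasFDerivAt).congr_of_eventuallyEq ?_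
    filter_upwards [s3, s1.continuousAt.eventually (s2.symm ▸ hU :)] with z k1 k2
    rw [← k1]
    exact h0 _ k2
  obtain ⟨A, hA⟩ := cl (D.comp (fderiv ℝ σ (e (Ψ v)))) fun a => by
    obtain ⟨p, rfl⟩ := hM a
    obtain ⟨p', hp⟩ := hM (I • fderiv ℝ (fun y => e (Ψ y)) v p)
    rw [← hp, ContinuousLinearMap.comp_apply, ContinuousLinearMap.comp_apply, s4, s4]
    exact hf.hol p p' fun q => by rw [hb, hb, hp, smul_dotProduct, smul_eq_mul]
  have h2 : ∀ p, A (fderiv ℝ (fun y => e (Ψ y)) v p) = D p := fun p =>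
    (DFunLike.congr_fun hA _).trans (congrArg D (s4 p))
  refine ⟨A, hasFDerivAt_of_restrictScalars ℝ h1 hA, fun b => ?_, fun a a' ha ha' => ?_⟩
  · obtain ⟨p, hp⟩ := hf.onto b
    exact ⟨_, (h2 p).trans hp⟩
  · obtain ⟨p, rfl⟩ := hM a
    obtain ⟨p', rfl⟩ := hM a'
    rw [← hb]
    exact hf.lag p p' ((h2 p).symm.trans ha) ((h2 p').symm.trans ha')

end MfbH

open MfbH in
/-- **MFB** -/
theorem mfb_of (hl : LOC) : MFB := by
  classical
  intro n V s u c Ψ U π h hs hc hu hT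
  have hU : ∀ v ∈ U, v ∈ Tb (n + n) 2 := fun v hv => tb (hT.sub hv)
  obtain ⟨π', h0⟩ : ∃ π' : V.X → Cm n, ∀ v ∈ U, π' (Ψ v) = π v := by
    refine ⟨fun x => if k : ∃ v ∈ U, Ψ v = x then π k.choose else 0, fun v hv => ?_⟩
    have k : ∃ v' ∈ U, Ψ v' = Ψ v := ⟨v, hv, rfl⟩
    obtain ⟨q, hq⟩ := h.inj _ (hU _ k.choose_spec.1) v (hU v hv) k.choose_spec.2
    simp only [dif_pos k]
    exact (hT.per _ k.choose_spec.1 q).2.symm.trans (congrArg π hq.symm)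
  have h1 : ∀ x ∈ Ψ '' U, ∀ e : Chart (n + n) V.X, At e x → ∃ A : Cm (n + n) →L[ℂ] Cm n,
      HasFDerivAt (fun z => π' (e.symm z)) A (e x) ∧ Function.Surjective A ∧
        ∀ a a', A a = 0 → A a' = 0 → a ⬝ᵥ s e (e x) *ᵥ a' = 0 := by
    rintro _ ⟨v, hv, rfl⟩ e he
    obtain ⟨D, d1, d2⟩ := hT.dif v hv
    obtain ⟨A, a1, a2, a3⟩ := key hl h (hT.opn.mem_nhds hv) (hU v hv) h0 he
      (by rw [Matrix.transpose_smul, hs.alt e _ he, smul_neg]) (hu e _ he) d1 d2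
    refine ⟨A, a1, a2, fun a a' ha ha' => ?_⟩
    have k := a3 a a' ha ha'
    rw [Matrix.smul_mulVec, dotProduct_smul, smul_eq_mul] at k
    exact (mul_eq_zero.1 k).resolve_left hc
  have ho : IsOpen (Ψ '' U) := isOpen_iff_mem_nhds.2 <| by
    rintro _ ⟨v, hv, rfl⟩
    obtain ⟨σ, -, -, -, -, s5⟩ := hl _ V Ψ h v (hU v hv) _ (Pt.ca _)
    exact s5 U (hT.opn.mem_nhds hv)
  have hc : ContinuousOn Ψ U := fun v hv => (h.sm v (hU v hv)).cont.continuousWithinAt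
  refine ⟨π', ho, fun x hx j e he => ?_, ?_, fun b hb => ?_, fun K hK hK' => ?_,
    fun x hx e he => ?_, fun b hb => ?_, fun x hx e he => ?_⟩
  · refine analyticAt_pi_iff.1 (P268.analyticAt_of_differentiableOn
      (f := fun z => π' (e.symm z)) (e.isOpen_inter_preimage_symm ho) (fun z hz => ?_)
      ⟨e.map_source he.2, by rwa [mem_preimage, e.left_inv he.2]⟩) j
    obtain ⟨A, a1, -⟩ := h1 _ hz.2 e ⟨he.1, e.map_target hz.1⟩
    rw [e.right_inv hz.1] at a1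
    exact a1.differentiableAt.differentiableWithinAt
  · rintro _ ⟨v, hv, rfl⟩
    rw [h0 v hv]
    exact hT.maps v hv
  · obtain ⟨v, hv, rfl⟩ := hT.onto b hb
    exact ⟨_, ⟨v, hv, rfl⟩, h0 v hv⟩
  · obtain ⟨K', k1, k2, k3, k4⟩ := hT.prop K hK hK'
    have k : Ψ '' U ∩ π' ⁻¹' K = Ψ '' K' := by
      refine Subset.antisymm ?_ ?_
      · rintro _ ⟨⟨v, hv, rfl⟩, hx⟩
        obtain ⟨q, hq⟩ := k4 v hv (h0 v hv ▸ hx)
        exact ⟨_, hq, h.peri v (hU v hv) q⟩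
      · rintro _ ⟨v, hv, rfl⟩
        exact ⟨⟨v, k2 hv, rfl⟩, mem_preimage.2 ((h0 v (k2 hv)).symm ▸ k3 v hv)⟩
    rw [k]
    exact k1.image_of_continuousOn (hc.mono k2)
  · obtain ⟨A, a1, a2, -⟩ := h1 x hx e he
    rwa [a1.fderiv]
  · have k : Ψ '' U ∩ π' ⁻¹' {b} = Ψ '' (U ∩ π ⁻¹' {b}) := by
      refine Subset.antisymm ?_ ?_
      · rintro _ ⟨⟨v, hv, rfl⟩, hx⟩
        exact ⟨v, ⟨hv, (h0 v hv).symm.trans hx⟩, rfl⟩
      · rintro _ ⟨v, hv, rfl⟩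
        exact ⟨⟨v, hv.1, rfl⟩, (h0 v hv.1).trans hv.2⟩
    rw [k]
    exact (hT.conn b hb).image Ψ (hc.mono inter_subset_left)
  · obtain ⟨A, a1, -, a3⟩ := h1 x hx e he
    rw [a1.fderiv]
    exact a3

end Vale.Agent.P301Z.Tor
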