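import Vale.Agent.P301Z.Tor.Sk2

/-!
# P301Z, block TOR: the normal form of a constant form
-/

open scoped Topology Matrix
open Set Complex Module
open Vale.Agent.P272.K

set_option maxSynthPendingDepth 3

noncomputable section

namespace Vale.Agent.P301Z.Tor

namespace ModA

variable {N : ℕ}

theorem split (p : Cm N) : ∃ x y : E N, p = imL N x + reL N y := by
  refine ⟨fun i => (p i).im / (2 * Real.pi), fun i => (p i).re, funext fun i => ?_⟩
  have h : (Real.pi : ℂ) ≠ 0 := by exact_mod_cast Real.pi_ne_zero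
  rw [Pi.add_apply, imL_apply, reL_apply]
  push_cast
  field_simp
  linear_combination -re_add_im (p i)

theorem reL_zero {y : E N} (h : reL N y = 0) : y = 0 := funext fun i => by
  have h1 := congrFun h i
  rw [reL_apply] at h1
  simpa using h1

theorem imL_zero {x : E N} (h : imL N x = 0) : x = 0 := funext fun i => by
  have h1 := congrFun h i
  rw [imL_apply] at h1
  simpa [Real.pi_ne_zero] using h1

theorem zero_of {o : B2 (Cm N)} (hn : ∀ p, o p = 0 → p = 0) {p : Cm N}
    (h1 : ∀ x, o p (imL N x) = 0) (h2 : ∀ y, o p (reL N y) = 0) : p = 0 :=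
  hn p (ContinuousLinearMap.ext fun v => by
    obtain ⟨x, y, rfl⟩ := split v
    rw [map_add, h1, h2, add_zero]
    rfl)

theorem expand (l : Cm N →L[ℝ] ℂ) (y : E N) :
    l (reL N y) = ∑ i, (y i : ℂ) * l (reL N (Pi.single i 1)) := by
  conv_lhs => rw [pi_eq_sum_univ' y]
  simp only [map_sum, map_smul, real_smul]

/-- the pairing with the real basis -/
def ph (o : B2 (Cm N)) : E N →ₗ[ℝ] Cm N where
  toFun x i := o (imL N x) (reL N (Pi.single i 1))
  map_add' x x' := funext fun i => by simp
  map_smul' c x := funext fun i => by simp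

theorem ph_apply (o : B2 (Cm N)) (x : E N) (i : Fin N) :
    ph o x i = o (imL N x) (reL N (Pi.single i 1)) := rfl

theorem core (n : ℕ) (o : B2 (Cm (n + n))) (hs : Sk o) (hc : Cx o) (hn : ∀ p, o p = 0 → p = 0)
    (hi : ∀ x x', o (imL _ x) (imL _ x') = 0) (hr : ∀ y y', o (reL _ y) (reL _ y') = 0) :
    ∃ (κ : E (n + n) ≃ₗ[ℝ] Cm n) (ν : E (n + n) ≃ₗ[ℝ] Cm n),
      ∀ x y, o (reL _ y) (imL _ x) = ∑ k, ν y k * κ x k := by
  have hI : ∀ x, ∃ x', ph o x' = I • ph o x := fun x => by
    obtain ⟨u, hu⟩ := hc (imL _ x)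
    obtain ⟨x', y', rfl⟩ := split u
    have h1 : reL _ y' = 0 := zero_of hn (fun z => by
      have h2 := hu (imL _ z)
      rwa [map_add, add_apply, hi, hi, zero_add, mul_zero] at h2) (hr y')
    rw [h1, add_zero] at hu
    exact ⟨x', funext fun i => hu _⟩
  let V : Submodule ℂ (Cm (n + n)) :=
    { toAddSubmonoid := (LinearMap.range (ph o)).toAddSubmonoid
      smul_mem' := by
        rintro c _ ⟨x, rfl⟩
        obtain ⟨x', hx'⟩ := hI x
        refine ⟨c.re • x + c.im • x', ?_⟩
        rw [map_add, map_smul, map_smul, hx']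
        funext i
        simp only [Pi.add_apply, Pi.smul_apply, real_smul, smul_eq_mul]
        linear_combination (ph o x i) * re_add_im c }
  have hinj : Function.Injective (ph o) := (injective_iff_map_eq_zero _).2 fun x hx =>
    imL_zero (zero_of hn (hi x) fun y => by
      rw [expand]
      exact Finset.sum_eq_zero fun i _ => by
        rw [← ph_apply, hx, Pi.zero_apply, mul_zero])
  let φ : E (n + n) →ₗ[ℝ] V :=
    { toFun := fun x => ⟨ph o x, x, rfl⟩
      map_add' := fun x x' => Subtype.ext (map_add (ph o) x x')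
      map_smul' := fun c x => Subtype.ext (map_smul (ph o) c x) }
  have hφ : Function.Bijective φ :=
    ⟨fun x x' h => hinj (congrArg Subtype.val h), fun ⟨_, x, hx⟩ => ⟨x, Subtype.ext hx⟩⟩
  have hd : finrank ℂ V = n := by
    have h1 := (LinearEquiv.ofBijective φ hφ).finrank_eq
    rw [finrank_real_of_complex, finrank_fin_fun] at h1
    omega
  let τ : V ≃ₗ[ℂ] Cm n := LinearEquiv.ofFinrankEq _ _ (by rw [hd, finrank_fin_fun])
  let ν : E (n + n) →ₗ[ℝ] Cm n :=
    { toFun := fun y k => -∑ i, (y i : ℂ) * (τ.symm (Pi.single k 1) : Cm (n + n)) i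
      map_add' := fun y y' => funext fun k => by
        simp only [Pi.add_apply, ofReal_add, add_mul, Finset.sum_add_distrib, neg_add]
      map_smul' := fun c y => funext fun k => by
        simp only [Pi.smul_apply, smul_eq_mul, ofReal_mul, RingHom.id_apply, real_smul, mul_neg,
          Finset.mul_sum, mul_assoc] }
  have key : ∀ x y, o (reL _ y) (imL _ x) = ∑ k, ν y k * τ (φ x) k := fun x y => by
    have h1 : φ x = ∑ k, τ (φ x) k • τ.symm (Pi.single k 1) := by
      simp only [← map_smul, ← map_sum]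
      rw [← pi_eq_sum_univ', τ.symm_apply_apply]
    have h2 : ∀ i, ph o x i = ∑ k, τ (φ x) k * (τ.symm (Pi.single k 1) : Cm (n + n)) i :=
      fun i => by
        have h3 := congrFun (congrArg Subtype.val h1) i
        rw [Submodule.coe_sum, Finset.sum_apply] at h3
        exact h3
    rw [hs, expand]
    simp only [← ph_apply, h2, ν, LinearMap.coe_mk, AddHom.coe_mk, neg_mul, Finset.sum_neg_distrib,
      Finset.mul_sum, Finset.sum_mul]
    rw [Finset.sum_comm]
    exact congrArg Neg.neg (Finset.sum_congr rfl fun k _ => Finset.sum_congr rfl fun i _ => by ring)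
  have hν : Function.Injective ν := (injective_iff_map_eq_zero _).2 fun y hy =>
    reL_zero (zero_of hn (fun x => by simp [key, hy]) (hr y))
  exact ⟨(LinearEquiv.ofBijective φ hφ).trans (τ.restrictScalars ℝ),
    LinearMap.linearEquivOfInjective ν hν (by
      rw [finrank_real_of_complex, finrank_fin_fun, finrank_fin_fun, two_mul]), key⟩

end ModA

open ModA in
theorem mod : MOD := by
  intro n o hs hc hn hi hr
  obtain ⟨κ, ν, h⟩ := core n o hs hc hn hi hr
  obtain ⟨C, hC, hb⟩ := (ν.symm.toContinuousLinearEquiv : Cm n →L[ℝ] E (n + n)).bound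
  have ht : C⁻¹ ≠ 0 := inv_ne_zero hC.ne'
  have e1 : ∀ y, (ν.symm.trans (LinearEquiv.smulOfNeZero ℝ _ C⁻¹ ht)).toContinuousLinearEquiv y =
      C⁻¹ • ν.symm y := fun _ => rfl
  have e2 : ∀ x, (κ.trans (LinearEquiv.smulOfNeZero ℝ _ C⁻¹ ht)).toContinuousLinearEquiv x =
      C⁻¹ • κ x := fun _ => rfl
  generalize (ν.symm.trans (LinearEquiv.smulOfNeZero ℝ _ C⁻¹ ht)).toContinuousLinearEquiv = μ at e1
  generalize (κ.trans (LinearEquiv.smulOfNeZero ℝ _ C⁻¹ ht)).toContinuousLinearEquiv = κ' at e2
  have key : ∀ x y, o (reL _ (μ y)) (imL _ x) = pa κ' y x := fun x y => by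
    rw [pa_apply, e1, e2, map_smul, map_smul, smul_apply, h,
      ν.apply_symm_apply, Finset.smul_sum]
    refine Finset.sum_congr rfl fun k _ => ?_
    simp only [Pi.smul_apply, real_smul]
    ring
  refine ⟨κ', μ, fun y => ?_, ContinuousLinearMap.ext fun u => ContinuousLinearMap.ext fun v => ?_⟩
  · rw [e1, norm_smul, Real.norm_of_nonneg (inv_nonneg.2 hC.le), inv_mul_le_iff₀ hC]
    exact hb y
  · rw [pl_apply, om0_apply, lm_apply, lm_apply]
    simp only [map_add, add_apply, hi, hr, zero_add, add_zero]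
    rw [hs (imL _ u.1), key, key, sub_eq_add_neg]

end Vale.Agent.P301Z.Tor
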