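import Vale.Agent.P301Z.Tor.NemA

/-!
# P301Z, block TOR: bounds for superposition operators
-/

open scoped ContDiff Topology NNReal Real
open Set Filter Complex Metric
open Vale.Agent.P272.K Vale.Agent.P272.K.LIN Vale.Agent.P301Z.An

set_option maxSynthPendingDepth 3

noncomputable section

namespace Vale.Agent.P301Z.Tor

namespace Nem

variable {N : ℕ} {V W : Type} [NormedAddCommGroup V] [NormedSpace ℝ V] [NormedAddCommGroup W]
  [NormedSpace ℝ W] {Ψ : E N × V → W} {ε : ℝ}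

theorem mv (h : ContDiff ℝ ∞ Ψ) (hb : ∀ z : E N × V, ‖z.2‖ < 1 → ‖fderiv ℝ Ψ z‖ ≤ ε)
    {p q : E N × V} (hp : ‖p.2‖ < 1) (hq : ‖q.2‖ < 1) : ‖Ψ p - Ψ q‖ ≤ ε * ‖p - q‖ :=
  ((convex_ball (0 : V) 1).linear_preimage (LinearMap.snd ℝ (E N) V)).norm_image_sub_le_of_norm_fderiv_le
    (fun z _ => h.differentiable (by simp) z) (fun z hz => hb z (mem_ball_zero_iff.1 hz))
    (mem_ball_zero_iff.2 hq) (mem_ball_zero_iff.2 hp)

omit [NormedSpace ℝ V] in
theorem pt {u : Hs N V} (hu : ‖u‖ < 1) {s t : T N} {x y : E N} (h : ‖x - y‖ ≤ wT N s t) :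
    ‖(x, u s) - (y, u t)‖ ≤ wT N s t :=
  norm_prod_le_iff.2 ⟨h, (u.norm_sub_le' s t).trans
    (mul_le_of_le_one_left (NNReal.coe_nonneg _) hu.le)⟩

theorem line (h : ContDiff ℝ ∞ Ψ) (x : E N) (p k : V) (τ : ℝ) :
    HasDerivAt (fun τ : ℝ => Ψ (x, p + τ • k)) (fderiv ℝ Ψ (x, p + τ • k) (0, k)) τ := by
  have h1 : HasDerivAt (fun τ : ℝ => ((x, p + τ • k) : E N × V)) (0, k) τ := by
    refine (hasDerivAt_const τ x).prodMk ?_
    simpa using ((hasDerivAt_id τ).smul_const k).const_add p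
  exact (h.differentiable (by simp) _).hasFDerivAt.comp_hasDerivAt τ h1

theorem four (h : ContDiff ℝ ∞ Ψ) (h1 : ∀ z : E N × V, ‖z.2‖ < 1 → ‖fderiv ℝ Ψ z‖ ≤ ε)
    (h2 : ∀ z : E N × V, ‖z.2‖ < 1 → ‖fderiv ℝ (fderiv ℝ Ψ) z‖ ≤ ε) (hε : 0 ≤ ε)
    {v v' : Hs N V} (hv : ‖v‖ < 1) (hv' : ‖v'‖ < 1) {s t : T N} {x y : E N}
    (hxy : ‖x - y‖ ≤ wT N s t) :
    ‖(Ψ (x, v s) - Ψ (x, v' s)) - (Ψ (y, v t) - Ψ (y, v' t))‖ ≤ 2 * ε * ‖v - v'‖ * wT N s t := by
  have key := norm_image_sub_le_of_norm_deriv_le_segment_01'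
    (f := fun τ : ℝ => Ψ (x, v' s + τ • (v - v') s) - Ψ (y, v' t + τ • (v - v') t))
    (C := 2 * ε * ‖v - v'‖ * wT N s t)
    (fun τ _ => ((line h x _ _ τ).sub (line h y _ _ τ)).hasDerivWithinAt) fun τ hτ => by
      have hu : ‖v' + τ • (v - v')‖ < 1 := mem_ball_zero_iff.1
        ((convex_ball (0 : Hs N V) 1).add_smul_sub_mem (mem_ball_zero_iff.2 hv')
          (mem_ball_zero_iff.2 hv) (Ico_subset_Icc_self hτ))
      have hs := ((v' + τ • (v - v')).norm_apply_le s).trans_lt hu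
      have ht := ((v' + τ • (v - v')).norm_apply_le t).trans_lt hu
      have e1 := (mv (h.fderiv_right (m := ∞) le_rfl) h2 (p := (x, _)) (q := (y, _)) hs ht).trans
        (mul_le_mul_of_nonneg_left (pt hu hxy) hε)
      have e2 := h1 (y, _) ht
      have e3 : ‖((0, (v - v') s) : E N × V)‖ ≤ ‖v - v'‖ :=
        norm_prod_le_iff.2 ⟨by simp, (v - v').norm_apply_le s⟩
      have e4 : ‖((0, (v - v') s) : E N × V) - (0, (v - v') t)‖ ≤ ‖v - v'‖ * wT N s t :=
        norm_prod_le_iff.2 ⟨by simp; positivity, (v - v').norm_sub_le' s t⟩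
      simp only [Hol.add_apply, Hol.smul_apply] at e1 e2
      generalize fderiv ℝ Ψ (x, v' s + τ • (v - v') s) = A at e1 ⊢
      generalize fderiv ℝ Ψ (y, v' t + τ • (v - v') t) = B at e1 e2 ⊢
      generalize ((0, (v - v') s) : E N × V) = k at e3 e4 ⊢
      generalize ((0, (v - v') t) : E N × V) = l at e4 ⊢
      have e5 : A k - B l = (A - B) k + B (k - l) := by
        rw [map_sub, _root_.sub_apply]
        abel
      have e6 := ((A - B).le_opNorm k).trans (mul_le_mul e1 e3 (norm_nonneg _) (by positivity))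
      have e7 := (B.le_opNorm (k - l)).trans (mul_le_mul e2 e4 (norm_nonneg _) hε)
      rw [e5]
      refine (norm_add_le _ _).trans ((add_le_add e6 e7).trans (le_of_eq ?_))
      ring
  simp only [one_smul, zero_smul, add_zero, Hol.sub_apply, add_sub_cancel] at key
  rwa [sub_sub_sub_comm]

end Nem

open Nem in
/-- **LIP** -/
theorem lip : LIP := by
  intro N V _ _ _ W _ _ _ Ψ ε h hb v v' a a' hv hv' ha ha'
  have hε : 0 ≤ ε := (norm_nonneg _).trans (hb 0 (by simp)).1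
  have h1 := fun z hz => (hb z hz).2.1
  have h2 := fun z hz => (hb z hz).2.2
  constructor
  · refine (Hol.norm_le_of hε hε (fun t => ?_) fun s t => ?_).trans (by linarith)
    · obtain ⟨x, rfl⟩ := surj t
      rw [ha]
      exact (hb (x, _) ((v.norm_apply_le _).trans_lt hv)).1
    · obtain ⟨x, y, rfl, rfl, hxy⟩ := lifts s t
      rw [ha, ha]
      exact (mv h h1 (p := (x, _)) (q := (y, _)) ((v.norm_apply_le _).trans_lt hv)
        ((v.norm_apply_le _).trans_lt hv)).trans (mul_le_mul_of_nonneg_left (pt hv hxy) hε)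
  · refine (Hol.norm_le_of (A := ε * ‖v - v'‖) (B := 2 * ε * ‖v - v'‖) (by positivity)
      (by positivity) (fun t => ?_) fun s t => ?_).trans (le_of_eq (by ring))
    · obtain ⟨x, rfl⟩ := surj t
      rw [Hol.sub_apply, ha, ha']
      refine (mv h h1 (p := (x, _)) (q := (x, _)) ((v.norm_apply_le _).trans_lt hv)
        ((v'.norm_apply_le _).trans_lt hv')).trans (mul_le_mul_of_nonneg_left ?_ hε)
      exact norm_prod_le_iff.2 ⟨by simp, (v - v').norm_apply_le _⟩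
    · obtain ⟨x, y, rfl, rfl, hxy⟩ := lifts s t
      rw [Hol.sub_apply, Hol.sub_apply, ha, ha, ha', ha']
      exact four h h1 h2 hε hv hv' hxy

end Vale.Agent.P301Z.Tor
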