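import Vale.Agent.P301Z.Tor.Sk
import Vale.Agent.P290Z.K.Nem.Core

/-!
# P301Z, block TOR: superposition operators with translations
-/

open scoped ContDiff Topology NNReal Real
open Set Filter Complex Metric
open Vale.Agent.P272.K Vale.Agent.P272.K.LIN Vale.Agent.P301Z.An

set_option maxSynthPendingDepth 3

noncomputable section

namespace Vale.Agent.P301Z.Tor

namespace Nem

variable {N : ℕ}

theorem lift1 (c : UnitAddCircle) : ∃ r : ℝ, (r : UnitAddCircle) = c ∧ |r| = ‖c‖ := by
  obtain ⟨r, rfl⟩ := QuotientAddGroup.mk_surjective c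
  refine ⟨r - round r, ?_, UnitAddCircle.norm_eq.symm⟩
  have h : ((round r : ℝ) : UnitAddCircle) = 0 :=
    (AddCircle.coe_eq_zero_iff (1 : ℝ)).2 ⟨round r, by simp⟩
  rw [AddCircle.coe_sub, h, sub_zero]

/-- two points of the torus have close lifts -/
theorem lifts (s t : T N) : ∃ x y : E N, pr x = s ∧ pr y = t ∧ ‖x - y‖ ≤ wT N s t := by
  choose y hy _ using fun i => lift1 (t i)
  choose u hu hn using fun i => lift1 (s i - t i)
  refine ⟨y + u, y, funext fun i => ?_, funext hy, ?_⟩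
  · show ((y i + u i : ℝ) : UnitAddCircle) = s i
    rw [AddCircle.coe_add, hy, hu, add_sub_cancel]
  · have h1 : ‖u‖ ≤ dist s t := (pi_norm_le_iff_of_nonneg dist_nonneg).2 fun i => by
      rw [Real.norm_eq_abs, hn, ← dist_eq_norm]
      exact dist_le_pi_dist s t i
    have h2 : dist s t ≤ 1 := (dist_pi_le_iff zero_le_one).2 fun i => by
      rw [dist_eq_norm]
      have := AddCircle.norm_le_half_period (1 : ℝ) (x := s i - t i) one_ne_zero
      rw [abs_one] at this
      linarith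
    rw [add_sub_cancel_left]
    refine h1.trans ?_
    have h3 : (wT N s t : ℝ) = dist s t ^ (1 / 2 : ℝ) := by simp [wT]
    rw [h3]
    calc dist s t = dist s t ^ (1 : ℝ) := (Real.rpow_one _).symm
      _ ≤ dist s t ^ (1 / 2 : ℝ) :=
        Real.rpow_le_rpow_of_exponent_ge' dist_nonneg h2 (by norm_num) (by norm_num)

theorem surj (t : T N) : ∃ x : E N, pr x = t :=
  (lifts t t).imp fun _ h => h.choose_spec.1

/-- the exponential map -/
def ex (x : E N) : Fin N → ℂ := fun i => exp ((2 * π * x i : ℝ) * I)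

/-- the angles -/
def ag (z : Fin N → ℂ) : E N := fun i => arg (z i) / (2 * π)

theorem ex_add (x y : E N) : ex (x + y) = ex x * ex y := by
  funext i
  simp only [ex, Pi.add_apply, Pi.mul_apply, ← Complex.exp_add]
  congr 1
  push_cast
  ring

theorem norm_ex (x : E N) (i : Fin N) : ‖ex x i‖ = 1 := norm_exp_ofReal_mul_I _

theorem ex_ag (z : Fin N → ℂ) (i : Fin N) : (‖z i‖ : ℂ) * ex (ag z) i = z i := by
  have h : 2 * π * ag z i = arg (z i) := by
    have := Real.pi_pos
    simp only [ag]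
    field_simp
  simp only [ex]
  rw [h, norm_mul_exp_arg_mul_I]

theorem of_ex {x y : E N} (h : ex x = ex y) : ∃ q, x = y + zv q := by
  choose q hq using fun i => exp_eq_exp_iff_exists_int.1 (congrFun h i)
  refine ⟨q, funext fun i => ?_⟩
  have h1 := congrArg im (hq i)
  simp at h1
  have := Real.pi_pos
  show x i = y i + q i
  apply mul_left_cancel₀ (a := 2 * π) (by positivity)
  linarith

theorem ex_pr {x y : E N} (h : pr x = pr y) : ex x = ex y := by
  funext i
  have h1 : ((x i - y i : ℝ) : UnitAddCircle) = 0 := by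
    rw [AddCircle.coe_sub]
    exact sub_eq_zero.2 (congrFun h i)
  obtain ⟨q, hq⟩ := (AddCircle.coe_eq_zero_iff (1 : ℝ)).1 h1
  refine exp_eq_exp_iff_exists_int.2 ⟨q, ?_⟩
  have h2 : x i = y i + q := by
    rw [zsmul_eq_mul, mul_one] at hq
    linarith
  rw [h2]
  push_cast
  ring

theorem ex_lip (x y : E N) : ‖ex x - ex y‖ ≤ 2 * π * ‖x - y‖ := by
  have hp := Real.pi_pos
  refine (pi_norm_le_iff_of_nonneg (by positivity)).2 fun i => ?_
  have h : ex x = ex y * ex (x - y) := by rw [← ex_add, add_sub_cancel]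
  have h1 : (ex x - ex y) i = ex y i * (exp (I * (2 * π * (x - y) i : ℝ)) - 1) := by
    rw [h, mul_comm I]
    simp only [Pi.sub_apply, Pi.mul_apply, ex]
    ring
  rw [h1, norm_mul, norm_ex, one_mul]
  refine Real.norm_exp_I_mul_ofReal_sub_one_le.trans ?_
  rw [norm_mul, Real.norm_of_nonneg (by positivity)]
  exact mul_le_mul_of_nonneg_left (norm_le_pi_norm _ i) (by positivity)

/-- the exponential map as a function on the torus -/
def eH (N : ℕ) : Hs N (Fin N → ℂ) where
  toFun t := ex (surj t).choose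
  bdd' := ⟨1, fun _ => (pi_norm_le_iff_of_nonneg zero_le_one).2 fun i => (norm_ex _ i).le⟩
  hol' := ⟨2 * π, fun s t => by
    obtain ⟨x, y, hx, hy, h⟩ := lifts s t
    rw [ex_pr ((surj s).choose_spec.trans hx.symm), ex_pr ((surj t).choose_spec.trans hy.symm)]
    exact (ex_lip x y).trans (mul_le_mul_of_nonneg_left h (by have := Real.pi_pos; positivity))⟩

theorem eH_pr (x : E N) : eH N (pr x) = ex x := ex_pr (surj (pr x)).choose_spec

/-- the cutoff -/
def ch (z : Fin N → ℂ) : ℝ := ∏ i, Real.smoothTransition (2 * ((z i).re ^ 2 + (z i).im ^ 2) - 1)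

theorem contDiff_ch : ContDiff ℝ ∞ (ch (N := N)) := by
  refine contDiff_prod fun i _ => Real.smoothTransition.contDiff.comp ?_
  have h : ContDiff ℝ ∞ fun z : Fin N → ℂ => z i := contDiff_apply ℝ ℂ i
  have h1 : ContDiff ℝ ∞ fun z : Fin N → ℂ => (z i).re := reCLM.contDiff.comp h
  have h2 : ContDiff ℝ ∞ fun z : Fin N → ℂ => (z i).im := imCLM.contDiff.comp h
  exact (contDiff_const.mul ((h1.pow 2).add (h2.pow 2))).sub contDiff_const

theorem ch_ex (x : E N) : ch (ex x) = 1 := by
  refine Finset.prod_eq_one fun i _ => Real.smoothTransition.one_of_one_le ?_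
  have h := norm_ex x i
  rw [norm_eq_sqrt_sq_add_sq, Real.sqrt_eq_one] at h
  linarith

theorem ch_zero {z : Fin N → ℂ} {i : Fin N} (h : ‖z i‖ < 1 / 2) : ch z = 0 := by
  refine Finset.prod_eq_zero (Finset.mem_univ i) (Real.smoothTransition.zero_of_nonpos ?_)
  have h1 : (z i).re ^ 2 + (z i).im ^ 2 = ‖z i‖ ^ 2 := by
    rw [Complex.sq_norm, normSq_apply]
    ring
  have := norm_nonneg (z i)
  nlinarith

theorem contDiffAt_ag {z : Fin N → ℂ} (hz : ∀ i, z i ≠ 0) :
    ContDiffAt ℝ ∞ (fun u : Fin N → ℂ => ag (u / z)) z := by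
  refine contDiffAt_pi.2 fun i => ContDiffAt.div_const ?_ _
  have h : ContDiff ℝ ∞ fun u : Fin N → ℂ => u i / z i := (contDiff_apply ℝ ℂ i).div_const _
  have h1 : ContDiffAt ℝ ∞ log (z i / z i) :=
    (Complex.contDiffAt_log (by rw [div_self (hz i)]; exact one_mem_slitPlane)).restrict_scalars ℝ
  have h2 := imCLM.contDiff.contDiffAt.comp z (h1.comp z h.contDiffAt)
  refine h2.congr_of_eventuallyEq (Eventually.of_forall fun u => ?_)
  simp [log_im]

theorem ex_div {z u : Fin N → ℂ} (hz : ∀ i, z i ≠ 0) (hu : ∀ i, u i ≠ 0) :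
    ex (ag u) = ex (ag z + ag (u / z)) := by
  rw [ex_add]
  funext i
  have h1 := ex_ag u i
  have h2 := ex_ag z i
  have h3 := ex_ag (u / z) i
  have a1 : (‖u i‖ : ℂ) ≠ 0 := ofReal_ne_zero.2 (norm_ne_zero_iff.2 (hu i))
  have a2 : (‖z i‖ : ℂ) ≠ 0 := ofReal_ne_zero.2 (norm_ne_zero_iff.2 (hz i))
  rw [Pi.div_apply, norm_div, ofReal_div] at h3
  apply mul_left_cancel₀ a1
  have h4 : (‖u i‖ : ℂ) * (ex (ag z) * ex (ag (u / z))) i =
      (‖z i‖ * ex (ag z) i) * (‖u i‖ / ‖z i‖ * ex (ag (u / z)) i) := by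
    rw [Pi.mul_apply]
    field_simp
  rw [h1, h4, h2, h3, mul_div_cancel₀ _ (hz i)]

variable {V W : Type} [NormedAddCommGroup V] [NormedSpace ℝ V] [NormedAddCommGroup W]
  [NormedSpace ℝ W] {Ψ : E N × V → W}

omit [NormedAddCommGroup V] [NormedSpace ℝ V] [NormedAddCommGroup W] [NormedSpace ℝ W] in
theorem per (hp : Pe2 Ψ) {x y : E N} (h : ex x = ex y) (s : E N) (v : V) :
    Ψ (x + s, v) = Ψ (y + s, v) := by
  obtain ⟨q, rfl⟩ := of_ex h
  rw [add_right_comm, hp]

/-- the function on the ambient space of the torus -/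
def ds (Ψ : E N × V → W) (z : E N × (Fin N → ℂ) × V) : W := ch z.2.1 • Ψ (ag z.2.1 + z.1, z.2.2)

theorem contDiff_ds (h : ContDiff ℝ ∞ Ψ) (hp : Pe2 Ψ) : ContDiff ℝ ∞ (ds Ψ) := by
  refine contDiff_iff_contDiffAt.2 fun z => ?_
  have hc : ∀ i, Continuous fun u : E N × (Fin N → ℂ) × V => u.2.1 i := fun i => by fun_prop
  by_cases hz : ∀ i, z.2.1 i ≠ 0
  · refine (contDiff_ch.contDiffAt.comp z contDiffAt_snd.fst).smul ?_
    have h1 : ContDiffAt ℝ ∞ (fun u : E N × (Fin N → ℂ) × V => ag (u.2.1 / z.2.1)) z :=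
      (contDiffAt_ag hz).comp z contDiffAt_snd.fst
    have h2 := h.contDiffAt.comp z
      ((((contDiffAt_const (c := ag z.2.1)).add h1).add contDiffAt_fst).prodMk contDiffAt_snd.snd)
    refine h2.congr_of_eventuallyEq ?_
    filter_upwards [eventually_all.2 fun i => (hc i).continuousAt.eventually_ne (hz i)] with u hu
    exact per hp (ex_div hz hu) _ _
  · obtain ⟨i, hi⟩ := not_forall.1 hz
    refine (contDiffAt_const (c := (0 : W))).congr_of_eventuallyEq ?_
    have h1 : ‖z.2.1 i‖ < 1 / 2 := by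
      rw [not_not.1 hi]
      norm_num
    filter_upwards [(hc i).norm.continuousAt.eventually_lt continuousAt_const h1] with u hu
    rw [ds, ch_zero hu, zero_smul]

omit [NormedAddCommGroup V] [NormedSpace ℝ V] in
theorem ds_ex (hp : Pe2 Ψ) (s x : E N) (v : V) : ds Ψ (s, ex x, v) = Ψ (x + s, v) := by
  have h : ex (ag (ex x)) = ex x := funext fun i => by
    have := ex_ag (ex x) i
    rwa [norm_ex, ofReal_one, one_mul] at this
  rw [ds, ch_ex, one_smul]
  exact per hp h s v

/-- constants, as a continuous linear map -/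
def cL (N : ℕ) (V : Type) [NormedAddCommGroup V] [NormedSpace ℝ V] : V →L[ℝ] Hs N V :=
  LinearMap.mkContinuous
    { toFun := Hol.const
      map_add' := fun _ _ => rfl
      map_smul' := fun _ _ => rfl } 1 fun c => (Hol.norm_const_le c).trans_eq (one_mul _).symm

open ContinuousLinearMap in
/-- the argument of the superposition operator -/
def inp (z : E N × Hs N V) : Hs N (E N × (Fin N → ℂ) × V) :=
  Hol.map (inl ℝ _ _) (cL N _ z.1) + Hol.map (inr ℝ _ _ ∘L inl ℝ _ _) (eH N) +
    Hol.map (inr ℝ _ _ ∘L inr ℝ _ _) z.2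

theorem contDiff_inp : ContDiff ℝ ∞ (inp (N := N) (V := V)) := by
  have a1 : ContDiff ℝ ∞ fun z : E N × Hs N V => cL N (E N) z.1 :=
    (cL N (E N)).contDiff.comp contDiff_fst
  exact ((a1.continuousLinearMap_comp _).add contDiff_const).add
    (contDiff_snd.continuousLinearMap_comp _)

theorem inp_apply (s : E N) (v : Hs N V) (x : E N) : inp (s, v) (pr x) = (s, ex x, v (pr x)) := by
  have e : cL N _ s (pr x) = s := rfl
  simp [inp, e, eH_pr]

end Nem

open Nem in
/-- **PNEM** -/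
theorem pnem : PNEM := by
  intro N V _ _ _ W _ _ _ Ψ h hp
  refine ⟨fun z => P290Z.Kur.Nem.sup (contDiff_ds h hp) (inp z), ?_, fun s v x => ?_⟩
  · exact (contDiff_infty.2 fun n => P290Z.Kur.Nem.contDiff_sup n _).comp contDiff_inp
  · show ds Ψ (inp (s, v) (pr x)) = _
    rw [inp_apply, ds_ex hp]

end Vale.Agent.P301Z.Tor
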