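import Vale.Agent.P301Z.Tor.Sk

/-!
# P301Z, block TOR: pointwise linear algebra near the flat form
-/

open Complex
open Vale.Agent.P272.K

set_option maxSynthPendingDepth 3

noncomputable section

namespace Vale.Agent.P301Z.Tor

namespace PwH

variable {N n : ℕ} (κ : E N ≃L[ℝ] Cm n)

theorem pa_single (y : Cm n) (i : Fin n) (c : ℂ) : pa κ y (κ.symm (Pi.single i c)) = y i * c := by
  simp [pa_apply, Pi.single_apply]

theorem r10_pa (V : Cm n) : r10 κ (pa κ V) = V := by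
  funext i
  rw [r10_apply, ← Pi.single_smul, pa_single, pa_single, smul_eq_mul]
  linear_combination (-V i / 2) * I_mul_I

theorem om0_bound : ∃ c : ℝ, 0 < c ∧ ∀ w : P N n, ‖w‖ ≤ c * ‖om0 κ w‖ := by
  obtain ⟨K, hK, h⟩ := (om0 κ).toLinearMap.exists_antilipschitzWith (by
    rw [LinearMap.ker_eq_bot']
    intro w hw
    have h1 : ∀ v : P N n, pa κ w.2 v.1 - pa κ v.2 w.1 = 0 := fun v => by
      rw [← om0_apply, show om0 κ w = 0 from hw]
      rfl
    refine Prod.ext (κ.injective (funext fun i => ?_)) (funext fun i => ?_)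
    · simpa [pa_apply, Pi.single_apply] using h1 (0, Pi.single i 1)
    · simpa [pa_single] using h1 (κ.symm (Pi.single i 1), 0))
  exact ⟨K, hK, fun w => by simpa using h.le_mul_dist w 0⟩

theorem om0_J (u v : P N n) : om0 κ (jj κ u.1, I • u.2) v = I * om0 κ u v := by
  simp only [om0_apply, pa_apply, jj, κ.apply_symm_apply, Pi.smul_apply, smul_eq_mul, mul_sub,
    Finset.mul_sum, mul_assoc, mul_left_comm I]

/-- the constants -/
theorem consts : ∃ c η₀ : ℝ, 1 ≤ c ∧ 0 < η₀ ∧ c * η₀ ≤ 1 / 2 ∧ (∀ a, ‖jj κ a‖ ≤ c * ‖a‖) ∧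
    (∀ β, ‖r10 κ β‖ ≤ c * ‖β‖) ∧ ∀ η ≤ η₀, ∀ o : B2 (P N n), ‖o - om0 κ‖ ≤ η → ∀ u u' : P N n,
      (∀ v, o u' v = I * o u v) → ‖u'.1 - jj κ u.1‖ ≤ c * η * ‖u‖ ∧ ‖u'‖ ≤ c * ‖u‖ := by
  obtain ⟨c, hc, h⟩ := om0_bound κ
  set j := ‖jL κ‖ + 1 with hj
  have j1 : 1 ≤ j := le_add_of_nonneg_left (norm_nonneg _)
  have r0 := norm_nonneg (r10 κ)
  have hJ : ∀ a, ‖jj κ a‖ ≤ j * ‖a‖ := fun a =>
    ((jL κ).le_opNorm a).trans (mul_le_mul_of_nonneg_right (by linarith) (norm_nonneg _))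
  set k := 4 * c * j + 3 * j + ‖r10 κ‖ with hk
  have cj : c ≤ c * j := le_mul_of_one_le_right hc.le j1
  have k1 : 1 ≤ k := by linarith
  refine ⟨k, 1 / (2 * k), k1, by positivity, le_of_eq (by field_simp),
    fun a => (hJ a).trans (mul_le_mul_of_nonneg_right (by linarith) (norm_nonneg _)),
    fun β => ((r10 κ).le_opNorm β).trans
      (mul_le_mul_of_nonneg_right (by linarith) (norm_nonneg _)), fun η hη o ho u u' hu => ?_⟩
  have η0 : 0 ≤ η := (norm_nonneg _).trans ho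
  have h1 : c * η ≤ 1 / 2 := by
    rw [le_div_iff₀ (by positivity)] at hη
    nlinarith
  set J : P N n := (jj κ u.1, I • u.2) with hJ'
  have h2 : ‖J‖ ≤ j * ‖u‖ := by
    refine norm_prod_le_iff.2 ⟨(hJ _).trans (mul_le_mul_of_nonneg_left (norm_fst_le u)
      (by linarith)), ?_⟩
    rw [norm_smul, norm_I, one_mul]
    exact (norm_snd_le u).trans (le_mul_of_one_le_left (norm_nonneg _) j1)
  have h3 : om0 κ (u' - J) = I • (o - om0 κ) u - (o - om0 κ) u' := by
    refine ContinuousLinearMap.ext fun v => ?_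
    simp only [map_sub, sub_apply, smul_apply, hJ', om0_J,
      hu, smul_eq_mul]
    ring
  have h4 : ‖om0 κ (u' - J)‖ ≤ η * ‖u‖ + η * ‖u'‖ := by
    rw [h3]
    refine (norm_sub_le _ _).trans (add_le_add ?_ ((o - om0 κ).le_of_opNorm_le ho _))
    rw [norm_smul, norm_I, one_mul]
    exact (o - om0 κ).le_of_opNorm_le ho _
  have h5 : ‖u'‖ ≤ ‖u' - J‖ + j * ‖u‖ := by linarith [norm_le_norm_sub_add u' J]
  have h6 := (h _).trans (mul_le_mul_of_nonneg_left h4 hc.le)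
  have n1 := norm_nonneg u
  have n2 := norm_nonneg (u' - J)
  have h7 : ‖u‖ ≤ j * ‖u‖ := le_mul_of_one_le_left n1 j1
  have c0 : 0 ≤ c * η := mul_nonneg hc.le η0
  have h8 : ‖u' - J‖ ≤ 4 * (c * η) * (j * ‖u‖) := by
    nlinarith [mul_le_mul_of_nonneg_left h5 c0, mul_le_mul_of_nonneg_left h7 c0,
      mul_le_mul_of_nonneg_right h1 n2]
  refine ⟨((norm_fst_le (u' - J)).trans h8).trans ?_, ?_⟩
  · rw [show 4 * (c * η) * (j * ‖u‖) = 4 * c * j * η * ‖u‖ by ring]
    exact mul_le_mul_of_nonneg_right (mul_le_mul_of_nonneg_right (by linarith) η0) n1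
  · have h9 := mul_le_mul_of_nonneg_right h1 (n1.trans h7)
    have h10 : 3 * j * ‖u‖ ≤ k * ‖u‖ := mul_le_mul_of_nonneg_right (by linarith) n1
    linarith

/-- the part of type `(0, 2)` for the structure of `o` -/
theorem quad {X : Type} [NormedAddCommGroup X] [NormedSpace ℝ X] {o : B2 X} (hs : Sk o)
    {u u' v v' : X} (hu : ∀ w, o u' w = I * o u w) (hv : ∀ w, o v' w = I * o v w) (R S : X) :
    o u v + I * o (u' - R) v + I * o u (v' - S) - o (u' - R) (v' - S) = -o R S := by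
  have hv' : ∀ w, o w v' = I * o w v := fun w => by rw [hs, hv, hs v, mul_neg, neg_neg]
  simp only [map_sub, sub_apply, hu, hv']
  linear_combination (o u v) * I_mul_I

end PwH

open PwH

theorem pw : PW := by
  intro N n κ
  obtain ⟨c, η₀, c1, hη₀, hc, hj, hr, h⟩ := consts κ
  refine ⟨12 * c ^ 3, η₀, by positivity, hη₀, fun η hη o p hs hx ho hp => ?_⟩
  have η0 : 0 ≤ η := (norm_nonneg _).trans ho
  have cη : c * η ≤ 1 / 2 := (mul_le_mul_of_nonneg_left hη (by linarith)).trans hc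
  have η1 : η ≤ 1 := by nlinarith
  have c3 : c ≤ c ^ 3 := le_self_pow₀ c1 three_ne_zero
  have c2 : c ^ 2 ≤ c ^ 3 := pow_le_pow_right₀ c1 (by norm_num)
  have hp1 : ∀ a, ‖p a‖ ≤ ‖a‖ := fun a => by simpa using p.le_of_opNorm_le (hp.trans η1) a
  have hX : ∀ a, ‖(a, p a)‖ ≤ ‖a‖ := fun a => norm_prod_le_iff.2 ⟨le_rfl, hp1 a⟩
  have h2 : ∀ V, ‖r10 κ (nv o p V) - V‖ ≤ c * η * ‖V‖ := fun V => by
    have e : r10 κ (nv o p V) - V = r10 κ (nv (o - om0 κ) p V) := by
      conv_lhs => rw [← r10_pa κ V, ← map_sub, r10_pa]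
      congr 1
      ext1 a
      simp [nv_apply, om0_apply]
    rw [e, mul_assoc]
    refine (hr _).trans (mul_le_mul_of_nonneg_left (ContinuousLinearMap.opNorm_le_bound _
      (by positivity) fun a => ?_) (by linarith))
    refine ((o - om0 κ).le_opNorm₂ _ _).trans ?_
    rw [Prod.norm_mk, norm_zero, max_eq_right (norm_nonneg V)]
    gcongr
    exact hX a
  have h3 : ∀ V, ‖V‖ ≤ 2 * c * ‖nv o p V‖ := fun V => by
    have := norm_le_norm_sub_add V (r10 κ (nv o p V))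
    rw [norm_sub_rev] at this
    nlinarith [h2 V, hr (nv o p V), mul_le_mul_of_nonneg_right cη (norm_nonneg V)]
  have key : ∀ a, ∃ (a' : E N) (r : Cm n) (u' : P N n), (∀ w, o u' w = I * o (a, p a) w) ∧
      (a', p a') = u' - (0, r) ∧ ‖jj κ a - a'‖ ≤ c * η * ‖a‖ ∧ ‖a'‖ ≤ c * ‖a‖ ∧
      ‖r‖ ≤ 2 * c * ‖a‖ ∧ ‖r‖ ≤ 4 * c ^ 2 * ‖rs o p‖ * ‖a‖ := fun a => by
    obtain ⟨u', hu⟩ := hx (a, p a)
    obtain ⟨h4, h5⟩ := h η hη o ho _ _ hu
    have h6 : ‖u'‖ ≤ c * ‖a‖ := h5.trans (mul_le_mul_of_nonneg_left (hX a) (by linarith))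
    have h7 := (norm_fst_le u').trans h6
    have e : (u'.1, p u'.1) = u' - (0, u'.2 - p u'.1) := by simp [Prod.ext_iff]
    refine ⟨u'.1, u'.2 - p u'.1, u', hu, e, ?_, h7, ?_, (h3 _).trans ?_⟩
    · rw [norm_sub_rev]
      exact h4.trans (mul_le_mul_of_nonneg_left (hX a) (by positivity))
    · linarith [norm_sub_le u'.2 (p u'.1), norm_snd_le u', hp1 u'.1]
    · have e2 : nv o p (u'.2 - p u'.1) = I • rs o p a - rs o p u'.1 := by
        ext1 b
        simp only [nv_apply, sub_apply, smul_apply,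
          rs_apply, e, map_sub, hu, smul_eq_mul]
        ring
      have h8 : ‖nv o p (u'.2 - p u'.1)‖ ≤ ‖rs o p‖ * ‖a‖ + ‖rs o p‖ * (c * ‖a‖) := by
        rw [e2]
        refine (norm_sub_le _ _).trans (add_le_add ?_ ((rs o p).le_opNorm_of_le h7))
        rw [norm_smul, norm_I, one_mul]
        exact (rs o p).le_opNorm a
      have h9 : ‖rs o p‖ * ‖a‖ ≤ c * (‖rs o p‖ * ‖a‖) := le_mul_of_one_le_left (by positivity) c1
      nlinarith
  refine ⟨ContinuousLinearMap.opNorm_le_bound₂ _ (by positivity) fun a b => ?_,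
    fun V => (h2 V).trans (by gcongr; linarith), fun h0 V V' =>
      ContinuousLinearMap.opNorm_le_bound _ (by positivity) fun a => ?_⟩
  · obtain ⟨a', r, u', a1, a2, a3, a4, -, a5⟩ := key a
    obtain ⟨b', s, v', b1, b2, b3, -, b4, -⟩ := key b
    have e1 := quad hs a1 b1 (0, r) (0, s)
    rw [← a2, ← b2] at e1
    set F := rs o p with hF
    have e2 : p02 κ F a b = -(o - om0 κ) (0, r) (0, s) + I * F (jj κ a - a') b +
        I * F a (jj κ b - b') - F (jj κ a - a') (jj κ b) - F a' (jj κ b - b') := by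
      simp only [p02_apply, map_sub, sub_apply, om0_apply, map_zero, hF,
        rs_apply]
      linear_combination e1
    have n0 : ∀ x y {s t : ℝ}, ‖x‖ ≤ s → ‖y‖ ≤ t → ‖F x y‖ ≤ ‖F‖ * s * t := fun x y s t k1 k2 =>
      (F.le_opNorm₂ x y).trans (by
        have := (norm_nonneg x).trans k1
        gcongr)
    have n1 : ‖(o - om0 κ) (0, r) (0, s)‖ ≤ η * (4 * c ^ 2 * ‖F‖ * ‖a‖) * (2 * c * ‖b‖) := by
      refine ((o - om0 κ).le_opNorm₂ _ _).trans ?_
      rw [Prod.norm_mk, Prod.norm_mk, norm_zero, max_eq_right (norm_nonneg r),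
        max_eq_right (norm_nonneg s)]
      gcongr
    have n2 := n0 _ b a3 le_rfl
    have n3 := n0 a _ le_rfl b3
    have n4 := n0 _ _ a3 (hj b)
    have n5 := n0 _ _ a4 b3
    have n6 : ‖p02 κ F a b‖ ≤ ‖(o - om0 κ) (0, r) (0, s)‖ + ‖F (jj κ a - a') b‖ +
        ‖F a (jj κ b - b')‖ + ‖F (jj κ a - a') (jj κ b)‖ + ‖F a' (jj κ b - b')‖ := by
      rw [e2]
      refine (norm_sub_le _ _).trans (add_le_add ((norm_sub_le _ _).trans (add_le_add
        (norm_add₃_le.trans_eq ?_) le_rfl)) le_rfl)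
      rw [norm_neg, norm_mul, norm_mul, norm_I, one_mul, one_mul]
    have t0 : 0 ≤ η * ‖F‖ * ‖a‖ * ‖b‖ := by positivity
    nlinarith [mul_le_mul_of_nonneg_right c3 t0, mul_le_mul_of_nonneg_right c2 t0]
  · obtain ⟨a', r, u', a1, a2, a3, -, -, a5⟩ := key a
    rw [h0, norm_zero, mul_zero, zero_mul, norm_le_zero_iff] at a5
    rw [a5, Prod.mk_zero_zero, sub_zero] at a2
    have e0 : ∀ W, nv o p W a' = I * nv o p W a := fun W => by
      rw [nv_apply, nv_apply, a2, hs, a1, hs (a, p a), mul_neg, neg_neg]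
    set β := nv o p V' - I • nv o p V with hβ
    have e1 : p01 κ β a = I * β (jj κ a - a') := by
      simp only [p01_apply, map_sub, hβ, sub_apply,
        smul_apply, e0, smul_eq_mul]
      linear_combination (nv o p V' a - I * nv o p V a) * I_mul_I
    rw [e1, norm_mul, norm_I, one_mul]
    have t0 : 0 ≤ η * ‖β‖ * ‖a‖ := by positivity
    nlinarith [β.le_opNorm_of_le a3, mul_le_mul_of_nonneg_right c3 t0]

end Vale.Agent.P301Z.Tor
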