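import Vale.Agent.P301Z.Tor.Sk

/-!
# P301Z, block TOR: the symbols
-/

open Complex Module
open Vale.Agent.P272.K Vale.Agent.P301Z.An

set_option maxSynthPendingDepth 3

noncomputable section

namespace Vale.Agent.P301Z.Tor

namespace SymX

variable {N n : ℕ} (κ : E N ≃L[ℝ] Cm n)

theorem jj_symm (u : Cm n) : jj κ (κ.symm u) = κ.symm (I • u) := by
  rw [jj, κ.apply_symm_apply]

theorem jj_I (u : Cm n) : jj κ (κ.symm (I • u)) = -κ.symm u := by
  rw [jj_symm, smul_smul, I_mul_I, neg_one_smul, map_neg]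

/-- the vector dual to `k` -/
def v0 (k : E N →L[ℝ] ℝ) : E N := ∑ i, k (bs κ i) • bs κ i

/-- the square of the length of `k` -/
def gg (k : E N →L[ℝ] ℝ) : ℝ := ∑ i, k (bs κ i) ^ 2

theorem k_v0 (k : E N →L[ℝ] ℝ) : k (v0 κ k) = gg κ k := by
  simp only [v0, gg, map_sum, map_smul, smul_eq_mul, sq]

theorem jj_v0 (k : E N →L[ℝ] ℝ) : jj κ (v0 κ k) = ∑ i, k (bs κ i) • jj κ (bs κ i) := by
  simp only [← jL_apply, v0, map_sum, map_smul]

theorem k_jv0 (k : E N →L[ℝ] ℝ) : k (jj κ (v0 κ k)) = 0 := by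
  simp only [jj_v0, map_sum, map_smul, smul_eq_mul, bs_apply]
  rw [sum_rb fun u => k (κ.symm u) * k (jj κ (κ.symm u))]
  refine Finset.sum_eq_zero fun j _ => ?_
  rw [jj_I, jj_symm, map_neg]
  ring

theorem cn_eq (k : E N →L[ℝ] ℝ) (τ : B2 (E N)) (b : E N) :
    cn κ (k.smulRight τ) b = τ (v0 κ k) b + I * τ (jj κ (v0 κ k)) b := by
  rw [cn_apply, jj_v0, v0]
  simp only [map_sum, map_smul, _root_.sum_apply, _root_.add_apply,
    _root_.smul_apply, ContinuousLinearMap.smulRight_apply, smul_eq_mul,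
    Finset.mul_sum, Finset.sum_add_distrib]

theorem anti {β : E N →L[ℝ] ℂ} (h : r10 κ β = 0) (a : E N) : β (jj κ a) = -I * β a := by
  have h1 : ∀ j, β (κ.symm (Pi.single j 1)) = I * β (κ.symm (I • Pi.single j 1)) := fun j => by
    have := congrFun h j
    rw [r10_apply, Pi.zero_apply, div_eq_zero_iff, sub_eq_zero] at this
    exact this.resolve_right two_ne_zero
  have h2 : (β.comp (jL κ)).toLinearMap = ((-I) • β).toLinearMap := (bs κ).ext fun i => by
    show β (jj κ (bs κ i)) = -I * β (bs κ i)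
    obtain ⟨c, j⟩ := i
    have h3 : rb n (0, j) = Pi.single j 1 := by simp [rb, Basis.smulTower_apply]
    have h4 : rb n (1, j) = I • Pi.single j 1 := by simp [rb, Basis.smulTower_apply]
    rw [bs_apply]
    obtain rfl | rfl : c = 0 ∨ c = 1 := by omega
    · rw [h3, jj_symm, h1, ← mul_assoc]
      simp
    · rw [h4, jj_I, map_neg, h1, neg_mul]
  exact LinearMap.congr_fun h2 a

theorem pa_jj (y : Cm n) (a : E N) : pa κ y (jj κ a) = I * pa κ y a := by
  simp only [pa_apply, jj, κ.apply_symm_apply, Pi.smul_apply, smul_eq_mul, Finset.mul_sum]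
  exact Finset.sum_congr rfl fun i _ => by ring

theorem r10_pa (y : Cm n) : r10 κ (pa κ y) = y := by
  funext i
  rw [r10_apply, ← jj_symm, pa_jj, ← mul_assoc, I_mul_I, pa_apply, κ.apply_symm_apply]
  simp [Pi.single_apply]

theorem bd : ∃ C : ℝ, 0 ≤ C ∧ ∀ k : E N →L[ℝ] ℝ, (k ≠ 0 → 0 < gg κ k) ∧
    ‖k‖ * ‖v0 κ k‖ ≤ C * gg κ k := by
  set c := ∑ i, ‖LinearMap.toContinuousLinearMap ((bs κ).coord i)‖ with hc
  set c' := ∑ i, ‖bs κ i‖ with hc'
  have c0 : 0 ≤ c := Finset.sum_nonneg fun _ _ => norm_nonneg _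
  have c0' : 0 ≤ c' := Finset.sum_nonneg fun _ _ => norm_nonneg _
  refine ⟨c * c', mul_nonneg c0 c0', fun k => ?_⟩
  have g0 : 0 ≤ gg κ k := Finset.sum_nonneg fun _ _ => sq_nonneg _
  have h1 : ∀ i, ‖k (bs κ i)‖ ≤ √(gg κ k) := fun i => Real.abs_le_sqrt
    (Finset.single_le_sum (f := fun i => k (bs κ i) ^ 2) (fun _ _ => sq_nonneg _)
      (Finset.mem_univ i))
  have h2 : ‖k‖ ≤ c * √(gg κ k) := k.opNorm_le_bound (by positivity) fun a => by
    conv_lhs => rw [← (bs κ).sum_repr a]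
    rw [map_sum, hc, Finset.sum_mul, Finset.sum_mul]
    refine (norm_sum_le _ _).trans (Finset.sum_le_sum fun i _ => ?_)
    rw [map_smul, norm_smul, mul_right_comm]
    exact mul_le_mul ((LinearMap.toContinuousLinearMap ((bs κ).coord i)).le_opNorm a) (h1 i)
      (norm_nonneg _) (by positivity)
  have h3 : ‖v0 κ k‖ ≤ c' * √(gg κ k) := by
    rw [v0, hc', Finset.sum_mul]
    refine (norm_sum_le _ _).trans (Finset.sum_le_sum fun i _ => ?_)
    rw [norm_smul, mul_comm]
    exact mul_le_mul_of_nonneg_left (h1 i) (norm_nonneg _)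
  refine ⟨fun hk => g0.lt_of_ne fun h => hk ?_, ?_⟩
  · rw [← h, Real.sqrt_zero, mul_zero] at h2
    exact norm_le_zero_iff.1 h2
  · refine (mul_le_mul h2 h3 (norm_nonneg _) (by positivity)).trans_eq ?_
    rw [mul_mul_mul_comm, Real.mul_self_sqrt g0]

end SymX

open SymX

theorem sym : SYM := by
  intro N n κ
  obtain ⟨C, hC, hb⟩ := bd κ
  refine ⟨C + 1, by positivity, fun k τ hk hs hc hr => ?_, fun k y => ?_, fun k β hk hw => ?_,
    fun β h => ?_, fun c β => ?_, fun c D => ?_⟩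
  · obtain ⟨h1, h2⟩ := hb k
    have hg := h1 hk
    set th := cn κ (k.smulRight τ) with hth
    have h3 : ∀ a b, (gg κ k : ℂ) * τ a b = k a * th b - k b * th a := fun a b => by
      have e1 := hc (v0 κ k) a b
      have e2 := hc (jj κ (v0 κ k)) a b
      rw [k_v0, hs b] at e1
      rw [k_jv0, hs b] at e2
      rw [hth, cn_eq, cn_eq]
      push_cast at e2
      linear_combination e1 + I * e2
    have h4 : ∀ b, ‖th b‖ * 2 ≤ ‖p02 κ τ‖ * ‖v0 κ k‖ * ‖b‖ := fun b => by
      have e1 : p02 κ τ (v0 κ k) b = th b * 2 := by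
        have e2 := anti κ (β := th) hr b
        rw [hth, cn_eq, cn_eq] at e2
        rw [p02_apply, hth, cn_eq]
        linear_combination I * e2 - (τ (jj κ (v0 κ k)) (jj κ b) + τ (v0 κ k) b +
          I * τ (jj κ (v0 κ k)) b) * I_mul_I
      have e3 := (p02 κ τ).le_opNorm₂ (v0 κ k) b
      rwa [e1, norm_mul, Complex.norm_two] at e3
    refine τ.opNorm_le_bound₂ (by positivity) fun a b => le_of_mul_le_mul_left ?_ hg
    have e1 : gg κ k * ‖τ a b‖ ≤ ‖k‖ * ‖a‖ * ‖th b‖ + ‖k‖ * ‖b‖ * ‖th a‖ := by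
      have e2 := congrArg norm (h3 a b)
      rw [norm_mul, Complex.norm_real, Real.norm_of_nonneg hg.le] at e2
      rw [e2]
      refine (norm_sub_le _ _).trans ?_
      rw [norm_mul, norm_mul, Complex.norm_real, Complex.norm_real]
      gcongr <;> exact k.le_opNorm _
    have e2 := mul_le_mul_of_nonneg_left (h4 b) (by positivity : 0 ≤ ‖k‖ * ‖a‖)
    have e3 := mul_le_mul_of_nonneg_left (h4 a) (by positivity : 0 ≤ ‖k‖ * ‖b‖)
    have e4 := mul_le_mul_of_nonneg_left h2 (by positivity : 0 ≤ ‖p02 κ τ‖ * ‖a‖ * ‖b‖)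
    have e5 : 0 ≤ gg κ k * (‖p02 κ τ‖ * ‖a‖ * ‖b‖) := by positivity
    linarith
  · have h1 : cn κ (k.smulRight (wg k (pa κ y))) = gg κ k • pa κ y := by
      ext b
      rw [cn_eq, wg_apply, wg_apply, k_v0, k_jv0, pa_jj, _root_.smul_apply,
        real_smul]
      push_cast
      linear_combination -(k b * pa κ y (v0 κ k)) * I_mul_I
    rw [rho, ContinuousLinearMap.comp_apply, h1, map_smul, r10_pa, gg]
  · have hg := (hb k).1 hk
    refine β.opNorm_le_bound (by positivity) fun a => ?_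
    have h1 : ∀ b, β b = β (v0 κ k) / gg κ k * k b := fun b => by
      have e1 : wg k β (v0 κ k) b = 0 := by rw [hw]; rfl
      rw [wg_apply, k_v0] at e1
      have e2 : (gg κ k : ℂ) ≠ 0 := ofReal_ne_zero.2 hg.ne'
      field_simp
      linear_combination e1
    have h2 : ‖β a‖ ≤ ‖p01 κ β a‖ := by
      rw [p01_apply, h1 a, h1 (jj κ a), mul_left_comm, ← mul_add, norm_mul, norm_mul]
      refine mul_le_mul_of_nonneg_left ?_ (norm_nonneg _)
      simpa using abs_re_le_norm ((k a : ℂ) + I * k (jj κ a))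
    have h3 := (p01 κ β).le_opNorm a
    have h4 : 0 ≤ C * (‖p01 κ β‖ * ‖a‖) := by positivity
    linarith
  · refine β.opNorm_le_bound (by positivity) fun a => ?_
    have h1 : p01 κ β a = β a * 2 := by
      rw [p01_apply, anti κ h]
      linear_combination -β a * I_mul_I
    have h3 := (p01 κ β).le_opNorm a
    rw [h1, norm_mul, Complex.norm_two] at h3
    have h4 : 0 ≤ C * (‖p01 κ β‖ * ‖a‖) := by positivity
    linarith [norm_nonneg (β a)]
  · funext i
    simp only [r10_apply, _root_.smul_apply, Pi.smul_apply, smul_eq_mul]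
    ring
  · funext i
    simp only [rho, ContinuousLinearMap.comp_apply, r10_apply, cn_apply,
      _root_.smul_apply, Pi.smul_apply, smul_eq_mul, _root_.sum_apply,
      _root_.add_apply, smul_comm I c, ← smul_add, ← Finset.smul_sum]
    ring

end Vale.Agent.P301Z.Tor
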