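import Vale.Agent.P301Z.Tor.Sk3
import Vale.Agent.P301Z.Pt.Bd
import Vale.Agent.P301Z.Pt.Fun
import Vale.Agent.P301Z.Rot.Typ

/-!
# P301Z, block TOR: the assembly
-/

open scoped Manifold ContDiff ComplexOrder Topology Matrix
open Set Filter Metric
open Vale.Agent.P272.K
open Vale.Agent.P281Z (Mf)
open Vale.Agent.P281Z.Hg
open Vale.Agent.P301Z.Lat Vale.Agent.P301Z.Rot

set_option maxSynthPendingDepth 3

noncomputable section

namespace Vale.Agent.P301Z.Tor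

namespace TopX

variable {d : ℕ} {V Z : Mf d} {Φ : Cm d → V.X} {ρ : ℝ} {v : Cm d} {u : Fs V}

theorem tb_open (R : ℝ) : IsOpen (Key.Tb d R) := by
  simp only [Key.Tb, ofPred_forall]
  exact isOpen_iInter_of_finite fun l => isOpen_lt (by fun_prop) continuous_const

theorem sub {R : ℝ} (h : R ≤ ρ) (hv : v ∈ Tb d R) : v ∈ Key.Tb d ρ := fun i => (hv i).trans_le h

theorem per_one (i : Fin d) : Key.per (Pi.single i 1) = pe i := funext fun l => by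
  by_cases h : l = i <;> simp [Key.per, pe, h]

theorem tor_par (h : ParT ρ Φ) (i j : Fin d) : Pt.Tor d Φ (Key.Tb d ρ) (pe i) (pe j) where
  opn := tb_open ρ
  sm _ hy := Pt.par_sm h hy
  tp y hy s := by simpa using Pt.tb_plane hy i j s 0
  tq y hy s := by simpa using Pt.tb_plane hy j i s 0
  pp y hy := per_one i ▸ h.peri y hy _
  pq y hy := per_one j ▸ h.peri y hy _

theorem tf_of (h : ParT ρ Φ) (hρ : 2 ≤ ρ) (hu : Cl2 V u)
    (h0 : ∀ v ∈ Key.Tb d ρ, ∀ i j, Pt.Pe Φ v (pe i) (pe j) u = 0) : TF (fb Φ u) := by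
  have h1 : ∀ v ∈ Tb d 2, ∀ᶠ y in 𝓝 v, y ∈ Key.Tb d ρ := fun v hv =>
    (tb_open ρ).mem_nhds (sub hρ hv)
  have h2 : ∀ v ∈ Tb d 2, ∀ᶠ y in 𝓝 v, Pt.SmA d Φ y := fun v hv =>
    (h1 v hv).mono fun y => Pt.par_sm h
  refine ⟨fun v hv => bL_cd (Pt.pf_sm (h2 v hv) u), fun v hv q => congrArg bL (Pt.pf_shift
    (Pt.par_sm h fun i => ?_) ((h1 v hv).mono fun y hy => h.peri y hy q) u), fun v p q => ?_,
    fun v hv => closed_bL ((Pt.pf_sm (h2 v hv) u).of_le (by simp)) ?_, fun v hv i j => ?_⟩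
  · simpa [Key.per] using sub hρ hv i
  · rw [fb, bL_apply, bL_apply, bv_skew]
  · rw [Pt.pf_d (h2 v hv), hu.1, Pt.pf, pbk, vl_zero, Matrix.mulVec_zero]
  · simp only [fb, bL_apply]
    exact h0 v (sub hρ hv) i j

theorem rp_of (h : ParT ρ Φ) (hρ : 2 ≤ ρ) {g : V.X → Z.X} {g' : Z.X → V.X}
    (hl : Function.LeftInverse g' g) (hg : Smo d d g) (hg' : Smo d d g') :
    RP Z fun y => g (Φ y) := by
  have h1 : ∀ v ∈ Tb d 2, Pt.SmA d (fun y => g (Φ y)) v := fun v hv =>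
    (Pt.par_sm h (sub hρ hv)).comp (Pt.smP_of hg _)
  refine ⟨h1, fun v hv e he => ?_, fun v hv q => congrArg g (h.peri v (sub hρ hv) q),
    fun v hv v' hv' k => h.inj v (sub hρ hv) v' (sub hρ hv') (hl.injective k)⟩
  have h0 := Pt.ca (d := d) (Φ v)
  have h2 := ((h1 v hv).sm e he).differentiableAt (by simp)
  have h3 := (hg'.sm e (chartAt (Cm d) (Φ v)) _ he (by rw [hl]; exact h0)).differentiableAt
    (by simp)
  have h4 : (fun y => chartAt (Cm d) (Φ v) (Φ y)) =ᶠ[𝓝 v]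
      (fun z => chartAt (Cm d) (Φ v) (g' (e.symm z))) ∘ fun y => e (g (Φ y)) := by
    filter_upwards [Pt.SmA.near (h1 v hv).cont he] with y hy
    simp only [Function.comp_def, e.left_inv hy.2, hl (Φ y)]
  have h5 : Function.Injective (fderiv ℝ (fun y => e (g (Φ y))) v) := fun p q k => by
    refine Matrix.mulVec_injective_iff_isUnit.2 ((Matrix.isUnit_iff_isUnit_det _).2
      (h.unit v (sub hρ hv) _ h0).isUnit) ?_
    rw [← Pt.fd_jm (h.hol v (sub hρ hv) _ h0), ← Pt.fd_jm (h.hol v (sub hρ hv) _ h0),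
      h4.fderiv_eq, fderiv_comp v h3 h2, ContinuousLinearMap.comp_apply, k]
    rfl
  exact ⟨h5, (LinearMap.injective_iff_surjective
    (f := (fderiv ℝ (fun y => e (g (Φ y))) v).toLinearMap)).1 h5⟩

theorem f20_smul (c : ℂ) {S : Mx d} (hS : Sᵀ = -S) : f20 (c • S) = c • f20 S :=
  bv_ext (dg_f20 _) (by rw [Matrix.mulVec_smul, dg_f20]) fun p q => by
    rw [bv_smul, bv_f20 hS, bv_f20 (by rw [Matrix.transpose_smul, hS, smul_neg]),
      Matrix.smul_mulVec, dotProduct_smul, smul_eq_mul]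

theorem tfb_congr {n : ℕ} {Ω Ω' : Cm d → B2 (Cm d)} {U : Set (Cm d)} {π : Cm d → Cm n}
    (h : TFb Ω U π) (e : ∀ v ∈ U, Ω v = Ω' v) : TFb Ω' U π :=
  ⟨h.opn, h.sub, h.per, h.maps, h.onto, h.prop, h.conn, fun v hv => e v hv ▸ h.dif v hv⟩

theorem tp_congr {b b' : Cm d → B2 (Cm d)} {U : Set (Cm d)} {γ : Cm d → Cm d →L[ℝ] ℂ}
    (h : TP b U γ) (e : ∀ v ∈ U, b v = b' v) : TP b' U γ :=
  ⟨h.sm, h.per, h.supp, fun v hv => e v hv ▸ h.eq v hv⟩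

theorem f20_two {s s' : Fld V} {c : ℂ} (hs : P301.H599.IsHolTwoForm s') (hu : Is20 s' u)
    (hc : ∀ e x, At e x → s' e (e x) = c • s e (e x)) (e : Chart d V.X) (x : V.X) (hx : At e x) :
    vl ((2 : ℂ) • u) e (e x) = f20 ((2 * c) • s e (e x)) := by
  rw [vl_smul, hu e x hx, mul_smul, ← hc e x hx, f20_smul 2 (hs.alt e x hx)]

end TopX

open TopX in
/-- **TOR** from its parts -/
theorem tor_of (hT : TUB) (hD : MTD) (hF : MFB) (hB : MBE) : TOR := by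
  intro n C hC
  obtain ⟨C', h1⟩ := hD (n + n) C hC
  obtain ⟨η, hη, h2⟩ := hT n C'
  obtain ⟨ρ, η', hρ, hη', h3⟩ := h1 η hη
  refine ⟨ρ, η', 2, by linarith, hη', ?_⟩
  rintro r B Y Z s w p k Φ s' w' b l ⟨⟨hs, u₀, a1, a2, a3⟩, hd⟩ ⟨-, -, a₀, b1, b2, b3⟩
    ⟨hk, g, g', s'', w'', u, a, u', a', T, hl, -, hg, hg', hs'', hd'', -, c1, c2, c3, -, hP, -, c4⟩
    hΦ hf z1 z2 z3 hS ⟨-, ub, d1, d2, d3⟩
  obtain rfl : u = u₀ := (g1T _ _).ext _ _ fun x =>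
    ⟨_, Pt.ca x, (c1 _ _ (Pt.ca x)).trans (a1 _ _ (Pt.ca x)).symm⟩
  obtain rfl : a = a₀ := (g1T _ _).ext _ _ fun x =>
    ⟨_, Pt.ca x, (c2 _ _ (Pt.ca x)).trans (b1 _ _ (Pt.ca x)).symm⟩
  have e1 := Pt.cl2_sub a2 (Pt.cl2_cj a2)
  have t1 : TF (fb Φ (a - u + (dR Y.V).cj u)) := by
    refine tf_of hΦ hρ (Pt.cl2_add (Pt.cl2_sub b2 a2) (Pt.cl2_cj a2)) fun v hv i j => ?_
    have e : a - u + (dR Y.V).cj u = a + (-1 : ℂ) • (u - (dR Y.V).cj u) := by module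
    have k1 : Pt.Pe Φ v (pe i) (pe j) a = 0 := z1 a b2 b3 v hv i j
    have k2 : Pt.Pe Φ v (pe i) (pe j) (u - (dR Y.V).cj u) = 0 :=
      z2 _ e1 (by rw [map_sub, Y.m.cj u a2, a3]) v hv i j
    rw [e, (tor_par hΦ i j).add hv, Pt.Pe_smul, k1, k2, mul_zero, add_zero]
  have t2 : TF (fb Φ (T ub)) := tf_of hΦ hρ (cl_pb hg.1 hP d2) fun v hv i j =>
    z3 _ (cl_pb hg.1 hP d2) ((hg.2 T hP ub d2).trans d3) v hv i j
  obtain ⟨U, π, γ, f1, f2⟩ := h2 _ _ t1 t2 (h3 Y.V s w u a Φ hs hd hk c1 c2 hΦ hf)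
  have hR := rp_of hΦ hρ hl hg.1 hg'.1
  have e2 : ∀ v ∈ U, ∀ x, fb Φ (T x) v = fb (fun y => g (Φ y)) x v := fun v hv x =>
    congrArg bL (Pt.pf_pb (Pt.par_sm hΦ (sub (by linarith) (f1.sub hv))) hg.1 hP x)
  obtain ⟨c, hc⟩ := hS.unique s'' hs''
  have c0 : c ≠ 0 := fun h => hd'' _ _ (Pt.ca (g (Φ 0))) (by
    haveI : Nonempty (Fin (n + n)) := ⟨⟨0, by have := B.npos; omega⟩⟩
    rw [hc _ _ (Pt.ca _), h, zero_smul, Matrix.det_zero])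
  have f3 : TFb (fb (fun y => g (Φ y)) ((2 : ℂ) • u')) U π := tfb_congr f1 fun v hv => by
    rw [← c4, fb, fb, Pt.pf_smul, Pt.pf_smul, Pt.pf_pb
      (Pt.par_sm hΦ (sub (by linarith) (f1.sub hv))) hg.1 hP]
  obtain ⟨π', m1⟩ := hF n Z.V s' ((2 : ℂ) • u') (2 * c) _ U π hR hS.form
    (mul_ne_zero two_ne_zero c0) (f20_two hs'' c3 hc) f3
  obtain ⟨β, m2, m3⟩ := hB (n + n) Z.V b ub _ U γ hR f1.sub d1
    (tp_congr f2 fun v hv => e2 v hv ub)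
  exact ⟨⟨_, π', m1.opn, m1.hol, m1.maps, m1.onto, m1.prop, m1.sbm, m1.conn, m1.lag, β, m2, m3⟩⟩

end Vale.Agent.P301Z.Tor
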