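import Vale.Agent.P301Z.Tor.Sk2

/-!
# P301Z, block TOR: row TRF
-/

open scoped ContDiff Topology NNReal Matrix
open Set Filter Complex Module Metric MeasureTheory
open Vale.Agent.P272.K Vale.Agent.P272.K.LIN Vale.Agent.P301Z.An

set_option maxSynthPendingDepth 3

noncomputable section

namespace Vale.Agent.P301Z.Tor

namespace TrfH

variable {N n : ℕ}

theorem push {X Y V W : Type} [NormedAddCommGroup X] [NormedSpace ℝ X] [NormedAddCommGroup Y]
    [NormedSpace ℝ Y] [NormedAddCommGroup V] [NormedSpace ℝ V] [NormedAddCommGroup W]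
    [NormedSpace ℝ W] (L : X →L[ℝ] Y) (Q : V →L[ℝ] W) :
    ∃ R : (Y →L[ℝ] V) →L[ℝ] X →L[ℝ] W, (∀ D u, R D u = Q (D (L u))) ∧
      ∀ (f : Y → V) (z : X), DifferentiableAt ℝ f (L z) →
        fderiv ℝ (fun z => Q (f (L z))) z = R (fderiv ℝ f (L z)) :=
  ⟨(ContinuousLinearMap.compL ℝ X V W Q).comp ((ContinuousLinearMap.compL ℝ X Y V).flip L),
    fun _ _ => rfl, fun _ z h =>
      (Q.hasFDerivAt.comp z (h.hasFDerivAt.comp z L.hasFDerivAt)).fderiv⟩

theorem bd {V W : Type} [NormedAddCommGroup V] [NormedSpace ℝ V] [NormedAddCommGroup W]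
    [NormedSpace ℝ W] (A : V →L[ℝ] W) {x : V} {c ε : ℝ} (h : ‖A‖ ≤ c) (h' : ‖x‖ ≤ ε) :
    ‖A x‖ ≤ c * ε :=
  (A.le_opNorm x).trans (mul_le_mul h h' (norm_nonneg _) ((norm_nonneg _).trans h))

theorem est {X Y V W : Type} [NormedAddCommGroup X] [NormedSpace ℝ X] [NormedAddCommGroup Y]
    [NormedSpace ℝ Y] [NormedAddCommGroup V] [NormedSpace ℝ V] [NormedAddCommGroup W]
    [NormedSpace ℝ W] (L : X →L[ℝ] Y) (Q : V →L[ℝ] W) :
    ∃ c : ℝ, 0 < c ∧ ‖Q‖ ≤ c ∧ ∀ (f : Y → V) (g : X → W) (z : X) (ε : ℝ), ContDiffAt ℝ ∞ f (L z) →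
      (∀ᶠ y in 𝓝 z, g y = Q (f (L y))) → ‖fderiv ℝ f (L z)‖ ≤ ε →
      ‖fderiv ℝ (fderiv ℝ f) (L z)‖ ≤ ε →
      ‖fderiv ℝ g z‖ ≤ c * ε ∧ ‖fderiv ℝ (fderiv ℝ g) z‖ ≤ c * ε := by
  obtain ⟨R, -, dR⟩ := push L Q
  obtain ⟨S, -, dS⟩ := push L R
  have n1 := norm_nonneg Q
  have n2 := norm_nonneg R
  have n3 := norm_nonneg S
  refine ⟨‖Q‖ + ‖R‖ + ‖S‖ + 1, by linarith, by linarith, fun f g z ε hf hg h1 h2 => ⟨?_, ?_⟩⟩
  · rw [EventuallyEq.fderiv_eq hg, dR _ _ (hf.differentiableAt (by simp))]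
    exact bd R (by linarith) h1
  · have k : ∀ᶠ y in 𝓝 z, fderiv ℝ (fun y => Q (f (L y))) y = R (fderiv ℝ f (L y)) :=
      (L.continuous.continuousAt.eventually
        ((hf.of_le (m := 1) (by norm_cast)).eventually (by simp))).mono fun y hy =>
          dR _ _ (hy.differentiableAt one_ne_zero)
    rw [EventuallyEq.fderiv_eq (EventuallyEq.fderiv hg), EventuallyEq.fderiv_eq k,
      dS _ _ ((hf.fderiv_right (m := 1) (by norm_cast)).differentiableAt one_ne_zero)]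
    exact bd S (by linarith) h2

theorem cut (n : ℕ) : ∃ χ : Cm n → Cm n, ContDiff ℝ ∞ χ ∧ (∀ y, ‖χ y‖ < 2) ∧
    ∀ y, ‖y‖ < 1 → χ y = y := by
  let b : ContDiffBump (0 : Cm n) := ⟨1, 3 / 2, one_pos, by norm_num⟩
  refine ⟨fun y => b y • y, b.contDiff.smul contDiff_id, fun y => ?_, fun y hy => ?_⟩
  · show ‖b y • y‖ < 2
    by_cases h : ‖y‖ < 3 / 2
    · rw [norm_smul, Real.norm_of_nonneg b.nonneg]
      nlinarith [b.le_one (x := y), norm_nonneg y, b.nonneg (x := y)]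
    · rw [b.zero_of_le_dist (by rw [dist_zero_right]; exact not_lt.1 h)]
      simp
  · show b y • y = y
    rw [b.one_of_mem_closedBall (mem_closedBall_zero_iff.2 hy.le), one_smul]

theorem lm_mem {μ : Cm n ≃L[ℝ] E N} (hμ : ∀ y, ‖μ y‖ ≤ ‖y‖) {z : P N n} (h : ‖z.2‖ < 2) :
    lm μ z ∈ Tb N 2 := fun i => by
  rw [lm_re]
  exact ((norm_le_pi_norm _ i).trans (hμ _)).trans_lt h

theorem lm_surj (μ : Cm n ≃L[ℝ] E N) (w : Cm N) : ∃ z, lm μ z = w := by
  refine ⟨(fun i => (w i).im / (2 * Real.pi), μ.symm fun i => (w i).re), funext fun i => ?_⟩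
  have h : (Real.pi : ℂ) ≠ 0 := ofReal_ne_zero.2 Real.pi_ne_zero
  simp only [lm_apply, Pi.add_apply, imL_apply, reL_apply, ContinuousLinearEquiv.apply_symm_apply]
  push_cast
  field_simp
  linear_combination re_add_im (w i)

theorem im_mem (x : E N) : imL N x ∈ Tb N 2 := fun i => by simp [imL_apply]

theorem mean_zero {F : E N → ℂ} (h : Pe F) (hc : Continuous F) {s : (Fin 2 → ℝ) → E N}
    (hs : Continuous s) (h0 : ∀ x, ∫ a in Icc (0 : Fin 2 → ℝ) 1, F (x + s a) = 0) :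
    mean F = 0 := by
  obtain ⟨C, hC⟩ := h.bdd hc
  have k1 : ∫ a in Icc (0 : Fin 2 → ℝ) 1, mean (fun x => F (x + s a)) = mean F := by
    simp [h.mean_add_right, Measure.real, Real.volume_Icc_pi]
  have k2 : Continuous fun p : (Fin 2 → ℝ) × T N => F (lf p.2 + s p.1) := by
    simp only [← h.lf_add]
    exact (h.continuous_lf hc).comp (continuous_snd.add (continuous_pr.comp (hs.comp continuous_fst)))
  have : IsFiniteMeasure (volume.restrict (Icc (0 : Fin 2 → ℝ) 1)) :=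
    isFiniteMeasure_restrict.2 isCompact_Icc.measure_lt_top.ne
  rw [← k1]
  unfold mean
  rw [integral_integral_swap (f := fun a t => F (lf t + s a))
    (Integrable.of_bound k2.aestronglyMeasurable C (Eventually.of_forall fun p => hC _))]
  simp [h0]

theorem zero {Ω : Cm N → B2 (Cm N)} (H : TF Ω) (a b : E N) :
    mean (fun x => Ω (imL N x) (imL N a) (imL N b)) = 0 := by
  have hc : Continuous fun x => Ω (imL N x) := continuous_iff_continuousAt.2 fun x =>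
    (H.sm _ (im_mem x)).continuousAt.comp (imL N).continuous.continuousAt
  have hp : Pe fun x => Ω (imL N x) := fun x q => by
    show Ω _ = Ω _
    rw [map_add, imL_zv, H.per _ (im_mem x)]
  have k : ∀ p q, mean (fun x => Ω (imL N x) p q) = mean (fun x => Ω (imL N x)) p q := fun p q =>
    mean_clm ((ContinuousLinearMap.apply ℝ ℂ q).comp (ContinuousLinearMap.apply ℝ _ p)) hp hc
  have k0 : ∀ i j, mean (fun x => Ω (imL N x)) (pv i) (pv j) = 0 := fun i j => by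
    rw [← k]
    refine mean_zero (s := fun a => a 0 • Pi.single i 1 + a 1 • Pi.single j 1)
      (fun x q => congrArg (fun o : B2 (Cm N) => o (pv i) (pv j)) (hp x q))
      ((hc.clm_apply continuous_const).clm_apply continuous_const) (by fun_prop) fun x => ?_
    simpa only [map_add, map_smul, imL_single, add_assoc] using H.zero _ (im_mem x) i j
  have e : ∀ c : E N, imL N c = ∑ i, c i • pv i := fun c => by
    simp only [← imL_single, ← map_smul, ← map_sum]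
    exact congrArg _ (pi_eq_sum_univ' c)
  rw [k, e a, e b]
  simp [map_sum, k0]

end TrfH

open TrfH in
/-- row TRF -/
theorem trf : TRF := by
  intro N n μ hμ
  obtain ⟨χ, c1, c2, c3⟩ := cut n
  obtain ⟨Q, hQ⟩ : ∃ Q : B2 (Cm N) →L[ℝ] B2 (P N n), ∀ o, Q o = pl μ o := by
    obtain ⟨Q, hQ, -⟩ := push (lm μ)
      ((ContinuousLinearMap.compL ℝ (P N n) (Cm N) ℂ).flip (lm μ))
    exact ⟨Q, fun o => ContinuousLinearMap.ext fun u => hQ o u⟩
  obtain ⟨R, hR, dR⟩ := push (lm μ) Q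
  obtain ⟨c, c0, n1, n2⟩ := est (lm μ) Q
  refine ⟨c, c0, fun Ω H => ?_⟩
  have hm : ∀ z : P N n, ‖z.2‖ < 1 → lm μ z ∈ Tb N 2 := fun z h => lm_mem hμ (by linarith)
  have ho : ∀ z : P N n, ‖z.2‖ < 1 → ∀ᶠ y : P N n in 𝓝 z, ‖y.2‖ < 1 := fun z h =>
    (isOpen_lt (by fun_prop) continuous_const).mem_nhds h
  have he : ∀ z : P N n, ‖z.2‖ < 1 → Q (Ω (lm μ (z.1, χ z.2))) = Q (Ω (lm μ z)) := fun z h => by
    rw [c3 _ h]
  have d1 : ∀ z : P N n, ‖z.2‖ < 1 → fderiv ℝ (fun z : P N n => Q (Ω (lm μ (z.1, χ z.2)))) z =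
      R (fderiv ℝ Ω (lm μ z)) := fun z h => by
    rw [EventuallyEq.fderiv_eq ((ho z h).mono he),
      dR _ _ ((H.sm _ (hm z h)).differentiableAt (by simp))]
  have fm : Fm fun z : P N n => Q (Ω (lm μ (z.1, χ z.2))) := by
    refine ⟨contDiff_iff_contDiffAt.2 fun z => ?_, fun x y q => ?_,
      fun z u v => ?_, fun z h u v w => ?_, fun a b => ?_⟩
    · have k : ContDiff ℝ ∞ fun z : P N n => lm μ (z.1, χ z.2) :=
        (lm μ).contDiff.comp (contDiff_fst.prodMk (c1.comp contDiff_snd))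
      exact Q.contDiff.contDiffAt.comp z
        ((H.sm _ (lm_mem (z := (z.1, χ z.2)) hμ (c2 z.2))).comp z k.contDiffAt)
    · have e : lm μ (x + zv q, χ y) = lm μ (x, χ y) + per q := by
        simp only [lm_apply, map_add, imL_zv]
        abel
      show Q (Ω (lm μ (x + zv q, χ y))) = Q (Ω (lm μ (x, χ y)))
      rw [e, H.per _ (lm_mem (z := (x, χ y)) hμ (c2 y))]
    · simp only [hQ, pl_apply]
      exact H.skew _ _ _
    · rw [d1 z h]
      simp only [hR, hQ, pl_apply]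
      exact H.closed _ (hm z h) _ _ _
    · simp only [hQ, pl_apply, c3 0 (by simp), lm_apply, map_zero, add_zero]
      exact zero H a b
  refine ⟨_, fm, fun z h => (he z h).trans (hQ _), fun κ o ε h0 hb => ?_⟩
  refine ⟨fm, fun z h u => ?_, fun z h => ?_, fun z h => ?_, fun z h => ?_⟩
  · obtain ⟨w, hw⟩ := (hb _ (hm z h)).1 (lm μ u)
    obtain ⟨u', rfl⟩ := lm_surj μ w
    exact ⟨u', fun v => by simp only [he z h, hQ, pl_apply, hw]⟩
  · rw [he z h, ← h0, ← hQ, ← map_sub]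
    exact bd Q n1 (hb _ (hm z h)).2.1
  · exact (n2 _ _ z ε (H.sm _ (hm z h)) ((ho z h).mono he) (hb _ (hm z h)).2.2.1
      (hb _ (hm z h)).2.2.2).1
  · exact (n2 _ _ z ε (H.sm _ (hm z h)) ((ho z h).mono he) (hb _ (hm z h)).2.2.1
      (hb _ (hm z h)).2.2.2).2

end Vale.Agent.P301Z.Tor
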