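import Vale.Agent.P301Z.An.Res
import Vale.Agent.P301Z.Tor.Act
import Vale.Agent.P301Z.Tor.Back
import Vale.Agent.P301Z.Tor.Cmp
import Vale.Agent.P301Z.Tor.Exa
import Vale.Agent.P301Z.Tor.Fd
import Vale.Agent.P301Z.Tor.Fib
import Vale.Agent.P301Z.Tor.Fix
import Vale.Agent.P301Z.Tor.Grn
import Vale.Agent.P301Z.Tor.Lagr
import Vale.Agent.P301Z.Tor.Loc
import Vale.Agent.P301Z.Tor.Mbe
import Vale.Agent.P301Z.Tor.Mfb
import Vale.Agent.P301Z.Tor.Mod
import Vale.Agent.P301Z.Tor.Mtd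
import Vale.Agent.P301Z.Tor.Nem
import Vale.Agent.P301Z.Tor.NemA
import Vale.Agent.P301Z.Tor.Prim
import Vale.Agent.P301Z.Tor.Pw
import Vale.Agent.P301Z.Tor.Sym
import Vale.Agent.P301Z.Tor.Top
import Vale.Agent.P301Z.Tor.Trf

/-!
# P301Z, block TOR
-/

namespace Vale.Agent.P301Z.Tor

/-- **TOR** -/
theorem tor : TOR :=
  tor_of (tub_of (lag_of (fix_of (grn_of An.res) pnem lip) (lagr_of fd pars prim pw sym)
    (act_of fd pars prim pw sym) fib) (exa_of prim (grn_of An.res) pnem fd pars) mod trf back)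
    mtd (mfb_of loc) (mbe_of loc)

end Vale.Agent.P301Z.Tor
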