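import Mathlib
import Vale.Agent.P301Z.Tor.Sk

/-!
# P301Z, block TOR: basic facts on the torus
-/

open scoped ContDiff Topology NNReal Matrix
open Set Filter Complex Module Metric MeasureTheory
open Vale.Agent.P272.K Vale.Agent.P272.K.LIN Vale.Agent.P301Z.An

set_option maxSynthPendingDepth 3

noncomputable section

namespace Vale.Agent.P301Z.Tor

variable {N n : ℕ}

theorem pr_lf (t : T N) : pr (lf t) = t :=
  funext fun i => (AddCircle.equivIoc 1 0).symm_apply_apply (t i)

theorem pr_add (x y : E N) : pr (x + y) = pr x + pr y := funext fun i => AddCircle.coe_add 1 (x i) (y i)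

theorem pr_sub (x y : E N) : pr (x - y) = pr x - pr y := funext fun i => AddCircle.coe_sub 1 (x i) (y i)

theorem pr_zero : pr (0 : E N) = 0 := funext fun _ => AddCircle.coe_zero 1

theorem pr_zv (q : Fin N → ℤ) : pr (zv q) = 0 := funext fun i =>
  (AddCircle.coe_eq_zero_iff 1).2 ⟨q i, by simp [zv]⟩

theorem pr_add_zv (x : E N) (q : Fin N → ℤ) : pr (x + zv q) = pr x := by
  rw [pr_add, pr_zv, add_zero]

theorem pr_eq_iff {x y : E N} : pr x = pr y ↔ ∃ q, x = y + zv q := by
  refine ⟨fun h => ?_, fun ⟨q, h⟩ => by rw [h, pr_add_zv]⟩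
  have h1 : ∀ i, ∃ k : ℤ, k • (1 : ℝ) = x i - y i := fun i => (AddCircle.coe_eq_zero_iff 1).1 (by
    rw [AddCircle.coe_sub]
    exact sub_eq_zero.2 (congrFun h i))
  choose q hq using h1
  refine ⟨q, funext fun i => ?_⟩
  have := hq i
  simp only [zsmul_eq_mul, mul_one] at this
  simp only [Pi.add_apply, zv]
  linarith

theorem pr_surj : Function.Surjective (pr : E N → T N) := fun t => ⟨lf t, pr_lf t⟩

theorem pr_oq : IsOpenQuotientMap (pr : E N → T N) :=
  IsOpenQuotientMap.piMap fun _ => QuotientAddGroup.isOpenQuotientMap_mk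

theorem continuous_pr : Continuous (pr : E N → T N) := pr_oq.continuous

theorem lf_mem (t : T N) : lf t ∈ Icc (0 : E N) 1 :=
  ⟨fun i => (AddCircle.equivIoc 1 0 (t i)).2.1.le, fun i =>
    (AddCircle.equivIoc 1 0 (t i)).2.2.trans_eq (zero_add 1)⟩

theorem Pe.congr {V : Type} {u : E N → V} (h : Pe u) {x y : E N} (e : pr x = pr y) : u x = u y := by
  obtain ⟨q, rfl⟩ := pr_eq_iff.1 e
  exact h y q

theorem Pe.lf_pr {V : Type} {u : E N → V} (h : Pe u) (x : E N) : u (lf (pr x)) = u x :=
  h.congr (pr_lf _)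

theorem Pe.lf_add {V : Type} {u : E N → V} (h : Pe u) (t : T N) (x : E N) :
    u (lf (t + pr x)) = u (lf t + x) := h.congr (by rw [pr_lf, pr_add, pr_lf])

theorem pe_pr {V : Type} (u : T N → V) : Pe fun x => u (pr x) := fun x q =>
  congrArg u (pr_add_zv x q)

theorem Pe.continuous_lf {V : Type} [TopologicalSpace V] {u : E N → V} (h : Pe u)
    (hc : Continuous u) : Continuous fun t => u (lf t) :=
  pr_oq.isQuotientMap.continuous_iff.2 (hc.congr fun x => (h.lf_pr x).symm)

theorem Pe.fderiv {V : Type} [NormedAddCommGroup V] [NormedSpace ℝ V] {u : E N → V} (h : Pe u) :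
    Pe (fderiv ℝ u) := fun x q => by
  rw [← fderiv_comp_add_right, funext fun y => h y q]

theorem Pe2.fderiv {Y V : Type} [NormedAddCommGroup Y] [NormedSpace ℝ Y] [NormedAddCommGroup V]
    [NormedSpace ℝ V] {u : E N × Y → V} (h : Pe2 u) : Pe2 (fderiv ℝ u) := fun x y q => by
  have e : ((x + zv q, y) : E N × Y) = (x, y) + (zv q, 0) := by simp
  have e' : (fun z : E N × Y => u (z + (zv q, 0))) = u := funext fun z => by
    have : z + (zv q, 0) = (z.1 + zv q, z.2) := by ext <;> simp
    rw [this, h]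
  rw [e, ← fderiv_comp_add_right, e']

theorem Pe.bdd {V : Type} [NormedAddCommGroup V] {u : E N → V} (h : Pe u) (hc : Continuous u) :
    ∃ C, ∀ x, ‖u x‖ ≤ C := by
  obtain ⟨C, hC⟩ := (isCompact_Icc (a := (0 : E N)) (b := 1)).exists_bound_of_continuousOn
    hc.continuousOn
  exact ⟨C, fun x => by rw [← h.lf_pr]; exact hC _ (lf_mem _)⟩

theorem dist_pr_le (x y : E N) : dist (pr x) (pr y) ≤ ‖x - y‖ := by
  rw [dist_eq_norm, ← pr_sub]
  refine (pi_norm_le_iff_of_nonneg (norm_nonneg _)).2 fun i => le_trans ?_ (norm_le_pi_norm _ i)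
  exact QuotientAddGroup.norm_mk_le_norm

theorem exists_lift (s t : T N) :
    ∃ x y : E N, pr x = s ∧ pr y = t ∧ ‖x - y‖ = dist s t ∧ dist s t ≤ 1 / 2 := by
  obtain ⟨y, rfl⟩ := pr_surj t
  obtain ⟨d, hd⟩ := pr_surj (s - pr y)
  have h1 : pr (fun i => d i - round (d i) : E N) = s - pr y := by
    rw [← hd]
    exact pr_eq_iff.2 ⟨fun i => -round (d i), funext fun i => by simp [zv, sub_eq_add_neg]⟩
  have h2 : ∀ i, ‖(s - pr y) i‖ = ‖d i - round (d i)‖ := fun i => by
    rw [← hd]
    exact (UnitAddCircle.norm_eq (x := d i)).trans (Real.norm_eq_abs _).symm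
  have h3 : ‖(fun i => d i - round (d i) : E N)‖ = dist s (pr y) := by
    rw [dist_eq_norm, Pi.norm_def, Pi.norm_def]
    exact congrArg _ (congrArg _ (funext fun i => NNReal.eq (h2 i).symm))
  refine ⟨y + fun i => d i - round (d i), y, by rw [pr_add, h1]; abel, rfl,
    by rw [add_sub_cancel_left, h3], ?_⟩
  rw [← h3]
  exact (pi_norm_le_iff_of_nonneg (by norm_num)).2 fun i => abs_sub_round (d i)

theorem coe_wT (s t : T N) : (wT N s t : ℝ) = dist s t ^ (1 / 2 : ℝ) := by
  simp [wT]

theorem dist_le_wT (s t : T N) : dist s t ≤ wT N s t := by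
  obtain ⟨-, -, -, -, -, h⟩ := exists_lift s t
  rw [coe_wT]
  exact Real.self_le_rpow_of_le_one dist_nonneg (by linarith) (by norm_num)

theorem wT_add (s t r : T N) : wT N (s + r) (t + r) = wT N s t := by
  simp [wT]

theorem wT_pr_le (x y : E N) : (wT N (pr x) (pr y) : ℝ) ≤ ‖x - y‖ ^ (1 / 2 : ℝ) := by
  rw [coe_wT]
  exact Real.rpow_le_rpow dist_nonneg (dist_pr_le x y) (by norm_num)

theorem Hs.continuous {V : Type} [NormedAddCommGroup V] (u : Hs N V) : Continuous u := by
  refine continuous_iff_continuousAt.2 fun t => tendsto_iff_norm_sub_tendsto_zero.2 ?_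
  refine squeeze_zero (fun _ => norm_nonneg _) (fun s => u.norm_sub_le' s t) ?_
  have : Continuous fun s : T N => ‖u‖ * (wT N s t : ℝ) := by
    simp only [coe_wT]
    exact continuous_const.mul ((continuous_id.dist continuous_const).rpow_const fun _ =>
      Or.inr (by norm_num))
  simpa [coe_wT] using this.tendsto t

/-- a Lipschitz periodic function as a Hoelder function on the torus -/
def ofLip {V : Type} [NormedAddCommGroup V] (u : E N → V) (h : Pe u) (L : ℝ)
    (hL : ∀ x y, ‖u x - u y‖ ≤ L * ‖x - y‖ ^ (1 / 2 : ℝ)) (A : ℝ) (hA : ∀ x, ‖u x‖ ≤ A) :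
    Hs N V where
  toFun t := u (lf t)
  bdd' := ⟨A, fun _ => hA _⟩
  hol' := ⟨L, fun s t => by
    obtain ⟨x, y, rfl, rfl, h1, -⟩ := exists_lift s t
    rw [h.lf_pr, h.lf_pr, coe_wT, ← h1]
    exact hL x y⟩

/-- translation -/
def tr {V : Type} [NormedAddCommGroup V] (s : T N) (u : Hs N V) : Hs N V where
  toFun t := u (t + s)
  bdd' := ⟨‖u‖, fun _ => u.norm_apply_le _⟩
  hol' := ⟨‖u‖, fun t t' => by rw [← wT_add t t' s]; exact u.norm_sub_le' _ _⟩

theorem tr_apply {V : Type} [NormedAddCommGroup V] (s : T N) (u : Hs N V) (t : T N) :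
    tr s u t = u (t + s) := rfl

theorem norm_tr_le {V : Type} [NormedAddCommGroup V] (s : T N) (u : Hs N V) : ‖tr s u‖ ≤ ‖u‖ :=
  Hol.norm_le_of u.N0_nonneg u.N1_nonneg (fun _ => u.le_N0 _) fun t t' => by
    rw [← wT_add t t' s]; exact u.le_N1 _ _

instance : IsProbabilityMeasure (mu N) := by unfold mu; infer_instance

instance : (mu N).IsAddHaarMeasure := by unfold mu; infer_instance

section mean

variable {V V' : Type} [NormedAddCommGroup V] [NormedSpace ℝ V] [NormedAddCommGroup V']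
  [NormedSpace ℝ V']

omit [NormedSpace ℝ V] in
theorem Pe.integrable {u : E N → V} (h : Pe u) (hc : Continuous u) :
    Integrable (fun t => u (lf t)) (mu N) :=
  (h.continuous_lf hc).integrable_of_hasCompactSupport (HasCompactSupport.of_compactSpace _)

theorem Pe.mean_add_right {u : E N → V} (h : Pe u) (s : E N) :
    mean (fun x => u (x + s)) = mean u := by
  unfold mean
  rw [← integral_add_right_eq_self (fun t => u (lf t)) (pr s)]
  exact integral_congr_ae (Eventually.of_forall fun t => (h.lf_add t s).symm)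

theorem mean_const [CompleteSpace V] (c : V) : mean (fun _ : E N => c) = c := by simp [mean]

theorem norm_mean_le {u : E N → V} {C : ℝ} (h : ∀ x, ‖u x‖ ≤ C) : ‖mean u‖ ≤ C := by
  simpa [mean] using norm_integral_le_of_norm_le_const (μ := mu N) (f := fun t => u (lf t))
    (Eventually.of_forall fun t => h _)

theorem mean_clm [CompleteSpace V] [CompleteSpace V'] (L : V →L[ℝ] V') {u : E N → V} (h : Pe u)
    (hc : Continuous u) : mean (fun x => L (u x)) = L (mean u) :=
  L.integral_comp_comm (h.integrable hc)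

theorem mean_add {u v : E N → V} (h : Pe u) (hc : Continuous u) (h' : Pe v) (hc' : Continuous v) :
    mean (fun x => u x + v x) = mean u + mean v := integral_add (h.integrable hc) (h'.integrable hc')

theorem mean_sub {u v : E N → V} (h : Pe u) (hc : Continuous u) (h' : Pe v) (hc' : Continuous v) :
    mean (fun x => u x - v x) = mean u - mean v := integral_sub (h.integrable hc) (h'.integrable hc')

end mean

section fc

variable {W W' : Type} [NormedAddCommGroup W] [NormedSpace ℂ W] [NormedAddCommGroup W']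
  [NormedSpace ℂ W']

theorem fc_eq (u : E N → W) (k : Fin N → ℤ) :
    fc u k = ∫ t, UnitAddTorus.mFourier (-k) t • u (lf t) ∂mu N := rfl

theorem Pe.integrable_fc {u : E N → W} (h : Pe u) (hc : Continuous u) (k : Fin N → ℤ) :
    Integrable (fun t => UnitAddTorus.mFourier (-k) t • u (lf t)) (mu N) :=
  ((UnitAddTorus.mFourier (-k)).continuous.smul
    (h.continuous_lf hc)).integrable_of_hasCompactSupport (HasCompactSupport.of_compactSpace _)

theorem fc_add {u v : E N → W} (h : Pe u) (hc : Continuous u) (h' : Pe v) (hc' : Continuous v)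
    (k : Fin N → ℤ) : fc (fun x => u x + v x) k = fc u k + fc v k := by
  simp only [fc_eq, smul_add]
  exact integral_add (h.integrable_fc hc k) (h'.integrable_fc hc' k)

theorem fc_sub {u v : E N → W} (h : Pe u) (hc : Continuous u) (h' : Pe v) (hc' : Continuous v)
    (k : Fin N → ℤ) : fc (fun x => u x - v x) k = fc u k - fc v k := by
  simp only [fc_eq, smul_sub]
  exact integral_sub (h.integrable_fc hc k) (h'.integrable_fc hc' k)

theorem fc_smul (c : ℂ) (u : E N → W) (k : Fin N → ℤ) : fc (fun x => c • u x) k = c • fc u k := by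
  simp only [fc_eq, smul_comm _ c]
  exact integral_smul c _

theorem inst_eq [i : NormedSpace ℝ W] [IsScalarTower ℝ ℂ W] :
    (NormedSpace.complexToReal : NormedSpace ℝ W) = i :=
  NormedSpace.ext (funext fun r => funext fun x => by
    change (r : ℂ) • x = r • x
    rw [← smul_one_smul ℂ r x, real_smul, mul_one])

/-- the Fourier coefficient as an integral for a given real structure -/
theorem fc_eqR [i : NormedSpace ℝ W] [IsScalarTower ℝ ℂ W] (u : E N → W) (k : Fin N → ℤ) :
    fc u k = ∫ t, UnitAddTorus.mFourier (-k) t • u (lf t) ∂mu N := by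
  rw [← inst_eq (W := W)]
  rfl

theorem fc_zero [NormedSpace ℝ W] [IsScalarTower ℝ ℂ W] (u : E N → W) : fc u 0 = mean u := by
  simp [fc_eqR, mean, UnitAddTorus.mFourier_zero]

theorem fc_clmR [NormedSpace ℝ W] [IsScalarTower ℝ ℂ W] [NormedSpace ℝ W'] [IsScalarTower ℝ ℂ W']
    [CompleteSpace W] [CompleteSpace W'] (L : W →L[ℝ] W')
    (hL : ∀ (c : ℂ) x, L (c • x) = c • L x) {u : E N → W} (h : Pe u)
    (hc : Continuous u) (k : Fin N → ℤ) : fc (fun x => L (u x)) k = L (fc u k) := by
  simp only [fc_eqR, ← hL]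
  exact L.integral_comp_comm (h.integrable_fc hc k)

theorem fc_clm [CompleteSpace W] [CompleteSpace W'] (L : W →L[ℂ] W') {u : E N → W} (h : Pe u)
    (hc : Continuous u) (k : Fin N → ℤ) : fc (fun x => L (u x)) k = L (fc u k) := by
  simp only [fc_eq, ← map_smul]
  exact L.integral_comp_comm (h.integrable_fc hc k)

theorem fc_const [CompleteSpace W] (c : W) {k : Fin N → ℤ} (hk : k ≠ 0) :
    fc (fun _ : E N => c) k = 0 := by
  have h := (orthonormal_iff_ite.1 (UnitAddTorus.orthonormal_mFourier (d := Fin N))) k 0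
  rw [if_neg hk, ContinuousMap.inner_toLp] at h
  simp only [UnitAddTorus.mFourier_zero, ContinuousMap.one_apply, one_mul,
    ← UnitAddTorus.mFourier_neg] at h
  rw [fc_eq, integral_smul_const]
  exact smul_eq_zero_of_left h c

end fc

theorem fc_ap {u : E N → E N →L[ℝ] ℂ} (h : Pe u) (hc : Continuous u) (k : Fin N → ℤ) (a : E N) :
    fc (fun x => u x a) k = fc u k a :=
  fc_clmR (ContinuousLinearMap.apply ℝ ℂ a) (fun _ _ => rfl) h hc k

theorem fc_ap1 {u : E N → B2 (E N)} (h : Pe u) (hc : Continuous u) (k : Fin N → ℤ) (a : E N) :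
    fc (fun x => u x a) k = fc u k a :=
  fc_clmR (ContinuousLinearMap.apply ℝ (E N →L[ℝ] ℂ) a) (fun _ _ => rfl) h hc k

theorem fc_ap2 {u : E N → B2 (E N)} (h : Pe u) (hc : Continuous u) (k : Fin N → ℤ) (a b : E N) :
    fc (fun x => u x a b) k = fc u k a b := by
  rw [← fc_ap1 h hc, fc_ap (fun x q => by rw [h]) (hc.clm_apply continuous_const)]

theorem kv_ne {k : Fin N → ℤ} (hk : k ≠ 0) : kv k ≠ 0 := fun h => hk <| funext fun i => by
  have := congrArg (fun L : E N →L[ℝ] ℝ => L (Pi.single i 1)) h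
  simpa [kv_apply, Pi.single_apply] using this

theorem kv_zero : kv (0 : Fin N → ℤ) = 0 := by simp [kv]

/-- the exterior derivative commutes with pull backs -/
theorem pb_d {X Y : Type} [NormedAddCommGroup X] [NormedSpace ℝ X] [NormedAddCommGroup Y]
    [NormedSpace ℝ Y] {θ : Y → Y →L[ℝ] ℂ} {Γ : X → Y} {z : X} (hΓ : ContDiffAt ℝ 2 Γ z)
    (hθ : DifferentiableAt ℝ θ (Γ z)) (u v : X) :
    fderiv ℝ (fun z => (θ (Γ z)).comp (fderiv ℝ Γ z)) z u v -
      fderiv ℝ (fun z => (θ (Γ z)).comp (fderiv ℝ Γ z)) z v u =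
    fderiv ℝ θ (Γ z) (fderiv ℝ Γ z u) (fderiv ℝ Γ z v) -
      fderiv ℝ θ (Γ z) (fderiv ℝ Γ z v) (fderiv ℝ Γ z u) := by
  have h1 : HasFDerivAt Γ (fderiv ℝ Γ z) z := (hΓ.differentiableAt (by norm_num)).hasFDerivAt
  have h2 : HasFDerivAt (fderiv ℝ Γ) (fderiv ℝ (fderiv ℝ Γ) z) z :=
    ((hΓ.fderiv_right (m := 1) (by norm_num)).differentiableAt (by norm_num)).hasFDerivAt
  have h3 := (hΓ.isSymmSndFDerivAt (by simp)).eq u v
  have h4 : HasFDerivAt (fun z => (θ (Γ z)).comp (fderiv ℝ Γ z)) _ z :=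
    (hθ.hasFDerivAt.comp z h1).clm_comp h2
  rw [h4.fderiv]
  simp [h3]

end Vale.Agent.P301Z.Tor
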