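import Vale.Agent.P301Z.An.Defs
import Mathlib.Analysis.Fourier.AddCircleMulti

/-!
# P301Z, block TOR (Lagrangian tori near a flat torus): definitions
-/

open scoped ContDiff Topology NNReal Matrix
open Set Filter Complex Module Metric MeasureTheory
open Vale.Agent.P272.K Vale.Agent.P272.K.LIN Vale.Agent.P301Z.An

set_option maxSynthPendingDepth 3

noncomputable section

namespace Vale.Agent.P301Z.Tor

variable {N n : ℕ}

/-- the universal cover of the torus -/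
abbrev E (N : ℕ) : Type := Fin N → ℝ

/-- the torus -/
abbrev T (N : ℕ) : Type := UnitAddTorus (Fin N)

/-- the projection -/
def pr (x : E N) : T N := fun i => (x i : UnitAddCircle)

/-- a section of the projection -/
def lf (t : T N) : E N := fun i => (AddCircle.equivIoc 1 0 (t i) : ℝ)

/-- lattice vectors -/
def zv (q : Fin N → ℤ) : E N := fun i => (q i : ℝ)

/-- the Haar measure of mass one -/
def mu (N : ℕ) : Measure (T N) := Measure.pi fun _ => AddCircle.haarAddCircle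

/-- the weight of the Hoelder norm -/
def wT (N : ℕ) : T N → T N → ℝ≥0 := fun s t => nndist s t ^ (1 / 2 : ℝ)

/-- Hoelder functions on the torus -/
abbrev Hs (N : ℕ) (V : Type) [NormedAddCommGroup V] : Type := Hol (wT N) V

/-- periodic functions -/
def Pe {V : Type} (u : E N → V) : Prop := ∀ x q, u (x + zv q) = u x

/-- functions periodic in the first variable -/
def Pe2 {Y V : Type} (u : E N × Y → V) : Prop := ∀ x y q, u (x + zv q, y) = u (x, y)

/-- the mean value -/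
def mean {V : Type} [NormedAddCommGroup V] [NormedSpace ℝ V] (u : E N → V) : V :=
  ∫ t, u (lf t) ∂mu N

/-- Fourier coefficients -/
def fc {W : Type} [NormedAddCommGroup W] [NormedSpace ℂ W] (u : E N → W) (k : Fin N → ℤ) : W :=
  UnitAddTorus.mFourierCoeff (fun t => u (lf t)) k

/-- the linear form of a frequency -/
def kv (k : Fin N → ℤ) : E N →L[ℝ] ℝ := ∑ i, (k i : ℝ) • ContinuousLinearMap.proj i

theorem kv_apply (k : Fin N → ℤ) (a : E N) : kv k a = ∑ i, (k i : ℝ) * a i := by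
  simp [kv]

/-- complex valued real bilinear forms -/
abbrev B2 (X : Type) [NormedAddCommGroup X] [NormedSpace ℝ X] : Type := X →L[ℝ] X →L[ℝ] ℂ

/-- the model space -/
abbrev P (N n : ℕ) : Type := E N × Cm n

/-- the pairing of `y` with `κ a` -/
def pa (κ : E N ≃L[ℝ] Cm n) : Cm n →L[ℝ] E N →L[ℝ] ℂ :=
  ∑ i, (ContinuousLinearMap.mul ℝ ℂ).bilinearComp (ContinuousLinearMap.proj i)
    ((ContinuousLinearMap.proj i).comp (κ : E N →L[ℝ] Cm n))

theorem pa_apply (κ : E N ≃L[ℝ] Cm n) (y : Cm n) (a : E N) : pa κ y a = ∑ i, y i * κ a i := by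
  simp [pa]

/-- the flat form -/
def om0 (κ : E N ≃L[ℝ] Cm n) : B2 (P N n) :=
  (pa κ).bilinearComp (ContinuousLinearMap.snd ℝ _ _) (ContinuousLinearMap.fst ℝ _ _) -
    (pa κ).flip.bilinearComp (ContinuousLinearMap.fst ℝ _ _) (ContinuousLinearMap.snd ℝ _ _)

theorem om0_apply (κ : E N ≃L[ℝ] Cm n) (u v : P N n) :
    om0 κ u v = pa κ u.2 v.1 - pa κ v.2 u.1 := by
  simp [om0]

/-- the complex structure of the flat torus -/
def jj (κ : E N ≃L[ℝ] Cm n) (a : E N) : E N := κ.symm (I • κ a)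

/-- the complex structure as a linear map -/
def jL (κ : E N ≃L[ℝ] Cm n) : E N →L[ℝ] E N :=
  (κ.symm : Cm n →L[ℝ] E N).comp (I • (κ : E N →L[ℝ] Cm n))

theorem jL_apply (κ : E N ≃L[ℝ] Cm n) (a : E N) : jL κ a = jj κ a := rfl

/-- twice the part of type `(0, 1)` -/
def p01 (κ : E N ≃L[ℝ] Cm n) (β : E N →L[ℝ] ℂ) : E N →L[ℝ] ℂ := β + I • β.comp (jL κ)

theorem p01_apply (κ : E N ≃L[ℝ] Cm n) (β : E N →L[ℝ] ℂ) (a : E N) :
    p01 κ β a = β a + I * β (jj κ a) := rfl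

/-- four times the part of type `(0, 2)` -/
def p02 (κ : E N ≃L[ℝ] Cm n) (τ : B2 (E N)) : B2 (E N) :=
  τ + I • τ.bilinearComp (jL κ) (ContinuousLinearMap.id ℝ _) +
    I • τ.bilinearComp (ContinuousLinearMap.id ℝ _) (jL κ) - τ.bilinearComp (jL κ) (jL κ)

theorem p02_apply (κ : E N ≃L[ℝ] Cm n) (τ : B2 (E N)) (a b : E N) :
    p02 κ τ a b = τ a b + I * τ (jj κ a) b + I * τ a (jj κ b) - τ (jj κ a) (jj κ b) := rfl

/-- the exterior product of a real and a complex one-form -/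
def wg (k : E N →L[ℝ] ℝ) (α : E N →L[ℝ] ℂ) : B2 (E N) := k.smulRight α - (k.smulRight α).flip

theorem wg_apply (k : E N →L[ℝ] ℝ) (α : E N →L[ℝ] ℂ) (a b : E N) :
    wg k α a b = k a * α b - k b * α a := by
  simp [wg]

/-- the adapted basis -/
def bs (κ : E N ≃L[ℝ] Cm n) : Basis (Fin 2 × Fin n) ℝ (E N) := (rb n).map κ.symm.toLinearEquiv

theorem bs_apply (κ : E N ≃L[ℝ] Cm n) (i : Fin 2 × Fin n) : bs κ i = κ.symm (rb n i) := rfl

/-- the coordinates of the part of type `(1, 0)` of a one-form -/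
def r10 (κ : E N ≃L[ℝ] Cm n) : (E N →L[ℝ] ℂ) →L[ℝ] Cm n :=
  LinearMap.toContinuousLinearMap
    { toFun := fun α i =>
        (α (κ.symm (Pi.single i 1)) - I * α (κ.symm (I • Pi.single i 1))) / 2
      map_add' := fun α β => by ext i; simp; ring
      map_smul' := fun c α => by ext i; simp; ring }

theorem r10_apply (κ : E N ≃L[ℝ] Cm n) (α : E N →L[ℝ] ℂ) (i : Fin n) :
    r10 κ α i = (α (κ.symm (Pi.single i 1)) - I * α (κ.symm (I • Pi.single i 1))) / 2 := rfl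

/-- the contraction of the derivative of a two-form -/
def cn (κ : E N ≃L[ℝ] Cm n) : (E N →L[ℝ] B2 (E N)) →L[ℝ] (E N →L[ℝ] ℂ) :=
  LinearMap.toContinuousLinearMap
    { toFun := fun D => ∑ i, (D (bs κ i) (bs κ i) + I • D (bs κ i) (jj κ (bs κ i)))
      map_add' := fun D D' => by
        simp only [add_apply, smul_add, ← Finset.sum_add_distrib]
        exact Finset.sum_congr rfl fun i _ => by abel
      map_smul' := fun c D => by
        simp only [smul_apply, RingHom.id_apply, Finset.smul_sum, smul_add]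
        exact Finset.sum_congr rfl fun i _ => by rw [smul_comm I c] }

theorem cn_apply (κ : E N ≃L[ℝ] Cm n) (D : E N →L[ℝ] B2 (E N)) :
    cn κ D = ∑ i, (D (bs κ i) (bs κ i) + I • D (bs κ i) (jj κ (bs κ i))) := rfl

/-- the first order operator of the fixed point problem -/
def rho (κ : E N ≃L[ℝ] Cm n) : (E N →L[ℝ] B2 (E N)) →L[ℝ] Cm n := (r10 κ).comp (cn κ)

/-- the tangent map of a graph -/
def gr (p : E N →L[ℝ] Cm n) : E N →L[ℝ] P N n := (ContinuousLinearMap.id ℝ _).prod p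

theorem gr_apply (p : E N →L[ℝ] Cm n) (a : E N) : gr p a = (a, p a) := rfl

/-- the restriction of a form to a graph -/
def rs (o : B2 (P N n)) (p : E N →L[ℝ] Cm n) : B2 (E N) := o.bilinearComp (gr p) (gr p)

theorem rs_apply (o : B2 (P N n)) (p : E N →L[ℝ] Cm n) (a b : E N) :
    rs o p a b = o (a, p a) (b, p b) := rfl

/-- the one-form of a normal vector -/
def nv (o : B2 (P N n)) (p : E N →L[ℝ] Cm n) (V : Cm n) : E N →L[ℝ] ℂ := (o (0, V)).comp (gr p)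

theorem nv_apply (o : B2 (P N n)) (p : E N →L[ℝ] Cm n) (V : Cm n) (a : E N) :
    nv o p V a = o (0, V) (a, p a) := rfl

/-- the derivative along the torus -/
def dx {V : Type} [NormedAddCommGroup V] [NormedSpace ℝ V] (f : P N n → V) (z : P N n) :
    E N →L[ℝ] V := (fderiv ℝ f z).comp (ContinuousLinearMap.inl ℝ _ _)

/-- skew forms -/
def Sk {X : Type} [NormedAddCommGroup X] [NormedSpace ℝ X] (o : B2 X) : Prop :=
  ∀ u v, o u v = -o v u

/-- multiplication by `i` is induced by a map of the space -/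
def Cx {X : Type} [NormedAddCommGroup X] [NormedSpace ℝ X] (o : B2 X) : Prop :=
  ∀ u, ∃ u', ∀ v, o u' v = I * o u v

/-- closed at `z` -/
def Cl {X : Type} [NormedAddCommGroup X] [NormedSpace ℝ X] (Ω : X → B2 X) (z : X) : Prop :=
  ∀ u v w, fderiv ℝ Ω z u v w + fderiv ℝ Ω z v w u + fderiv ℝ Ω z w u v = 0

/-- a closed periodic form on the tube -/
structure Fm (Ω : P N n → B2 (P N n)) : Prop where
  sm : ContDiff ℝ ∞ Ω
  per : Pe2 Ω
  skew : ∀ z, Sk (Ω z)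
  closed : ∀ z : P N n, ‖z.2‖ < 1 → Cl Ω z
  zero : ∀ a b : E N, mean (fun x => Ω (x, 0) (a, 0) (b, 0)) = 0

/-- the form is close to the flat form -/
structure Dat (κ : E N ≃L[ℝ] Cm n) (ε : ℝ) (Ω : P N n → B2 (P N n)) : Prop extends Fm Ω where
  cx : ∀ z : P N n, ‖z.2‖ < 1 → Cx (Ω z)
  b0 : ∀ z : P N n, ‖z.2‖ < 1 → ‖Ω z - om0 κ‖ ≤ ε
  b1 : ∀ z : P N n, ‖z.2‖ < 1 → ‖fderiv ℝ Ω z‖ ≤ ε
  b2 : ∀ z : P N n, ‖z.2‖ < 1 → ‖fderiv ℝ (fderiv ℝ Ω) z‖ ≤ ε

/-- a family of graphs `x ↦ (x, f (x, a))` -/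
structure Gf (η : ℝ) (f : P N n → Cm n) : Prop where
  sm : ∀ z : P N n, ‖z.2‖ < 1 / 4 → ContDiffAt ℝ ∞ f z
  per : Pe2 f
  n0 : ∀ z : P N n, ‖z.2‖ < 1 / 4 → ‖f z - z.2‖ ≤ η
  n1 : ∀ z : P N n, ‖z.2‖ < 1 / 4 → ‖fderiv ℝ f z - ContinuousLinearMap.snd ℝ _ _‖ ≤ η

/-- the fixed point equation -/
def Eqn (κ : E N ≃L[ℝ] Cm n) (Ω : P N n → B2 (P N n)) (f : P N n → Cm n) : Prop :=
  ∀ a : Cm n, ‖a‖ < 1 / 4 → ∃ (h : E N → Jt (E N) (B2 (E N))) (c : B2 (E N)), Pe h ∧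
    Continuous h ∧ IsJet h ∧
    (∀ x, trL (bs κ) (h x) = rs (Ω (x, f (x, a)) - om0 κ) (dx f (x, a)) - c) ∧
    ∀ x, f (x, a) = a - rho κ (h x).2.1

/-- the graphs are Lagrangian -/
def Lg (Ω : P N n → B2 (P N n)) (f : P N n → Cm n) : Prop :=
  ∀ z : P N n, ‖z.2‖ < 1 / 4 → rs (Ω (z.1, f z)) (dx f z) = 0

/-- `θ` is a primitive of `Ω` up to the restriction to the zero section -/
structure Prim (Ω : P N n → B2 (P N n)) (θ : P N n → P N n →L[ℝ] ℂ) : Prop where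
  sm : ContDiff ℝ ∞ θ
  per : Pe2 θ
  eq : ∀ z : P N n, ‖z.2‖ < 1 → ∀ u v, fderiv ℝ θ z u v - fderiv ℝ θ z v u =
    Ω z u v - Ω (z.1, 0) (u.1, 0) (v.1, 0)

/-- the action function of the family -/
structure Act (Ω : P N n → B2 (P N n)) (f : P N n → Cm n) (A : Cm n → Cm n)
    (A' : Cm n → Cm n →L[ℝ] Cm n) : Prop where
  has : ∀ a, ‖a‖ < 1 / 4 → HasFDerivAt A (A' a) a
  near : ∀ a, ‖a‖ < 1 / 4 → ‖A' a - ContinuousLinearMap.id ℝ _‖ ≤ 1 / 2
  hol : ∀ z : P N n, ‖z.2‖ < 1 / 4 → ∀ u u' : P N n,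
    (∀ v, Ω (z.1, f z) (u'.1, fderiv ℝ f z u') v = I * Ω (z.1, f z) (u.1, fderiv ℝ f z u) v) →
    A' z.2 u'.2 = I • A' z.2 u.2

/-- the differential `D` of a holomorphic Lagrangian fibration -/
structure Dif {X : Type} [NormedAddCommGroup X] [NormedSpace ℝ X] (o : B2 X)
    (D : X →L[ℝ] Cm n) : Prop where
  onto : Function.Surjective D
  hol : ∀ u u', (∀ v, o u' v = I * o u v) → D u' = I • D u
  lag : ∀ u v, D u = 0 → D v = 0 → o u v = 0

/-- a Lagrangian fibration of an open part `U` of the tube over a ball -/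
structure Fb (Ω : P N n → B2 (P N n)) (U : Set (P N n)) (π g : P N n → Cm n) (b₀ : Cm n)
    (r : ℝ) : Prop where
  pos : 0 < r
  opn : IsOpen U
  cont : ContinuousOn g (univ ×ˢ ball b₀ r)
  per : Pe2 g
  small : ∀ x, ∀ b ∈ ball b₀ r, ‖g (x, b)‖ < 1 / 2
  mem : ∀ z, z ∈ U ↔ ∃ b ∈ ball b₀ r, z.2 = g (z.1, b)
  inv : ∀ x, ∀ b ∈ ball b₀ r, π (x, g (x, b)) = b
  dif : ∀ z ∈ U, ∃ D, HasFDerivAt π D z ∧ Dif (Ω z) D

end Vale.Agent.P301Z.Tor
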