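import Mathlib

/-!
# P301Z, block TOR: uniform contractions depending smoothly on a parameter
-/

open scoped ContDiff Topology NNReal
open Set Filter Metric

noncomputable section

namespace Vale.Agent.P301Z.Tor

theorem ucp {Q X : Type} [NormedAddCommGroup Q] [NormedSpace ℝ Q] [CompleteSpace Q]
    [NormedAddCommGroup X] [NormedSpace ℝ X] [CompleteSpace X] {Φ : Q × X → X}
    (hΦ : ContDiff ℝ ∞ Φ) {O : Set Q} (hO : IsOpen O) {r : ℝ} (hr : 0 < r)
    (hL : ∀ q ∈ O, ∀ x x', ‖x‖ < 2 * r → ‖x'‖ < 2 * r →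
      ‖Φ (q, x) - Φ (q, x')‖ ≤ 1 / 2 * ‖x - x'‖)
    (h0 : ∀ q ∈ O, ‖Φ (q, 0)‖ ≤ r / 2) :
    ∃ τ : Q → X, ∀ q ∈ O, ‖τ q‖ ≤ r ∧ Φ (q, τ q) = τ q ∧
      (∀ x, ‖x‖ < 2 * r → Φ (q, x) = x → x = τ q) ∧ ContDiffAt ℝ ∞ τ q := by
  have ex : ∀ q, ∃ x, q ∈ O → ‖x‖ ≤ r ∧ Φ (q, x) = x := fun q => by
    by_cases hq : q ∈ O
    swap
    · exact ⟨0, fun h => absurd h hq⟩
    have lt : ∀ x ∈ closedBall (0 : X) r, ‖x‖ < 2 * r := fun x hx => by
      have := mem_closedBall_zero_iff.1 hx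
      linarith
    have hm : MapsTo (fun x => Φ (q, x)) (closedBall 0 r) (closedBall 0 r) := fun x hx => by
      have h1 := hL q hq x 0 (lt x hx) (by simpa using hr)
      have h2 := norm_le_norm_sub_add (Φ (q, x)) (Φ (q, 0))
      have h3 := mem_closedBall_zero_iff.1 hx
      rw [sub_zero] at h1
      exact mem_closedBall_zero_iff.2 (by linarith [h0 q hq])
    have hc : ContractingWith (1 / 2) (hm.restrict _ _ _) :=
      ⟨by norm_num, LipschitzWith.of_dist_le_mul fun x y => by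
        rw [Subtype.dist_eq, Subtype.dist_eq, dist_eq_norm, dist_eq_norm]
        exact_mod_cast hL q hq x y (lt _ x.2) (lt _ y.2)⟩
    obtain ⟨y, hy, hf, -⟩ := hc.exists_fixedPoint' isClosed_closedBall.isComplete hm
      (mem_closedBall_self hr.le) (edist_ne_top _ _)
    exact ⟨y, fun _ => ⟨mem_closedBall_zero_iff.1 hy, hf⟩⟩
  choose τ hτ using ex
  have uq : ∀ q ∈ O, ∀ x, ‖x‖ < 2 * r → Φ (q, x) = x → x = τ q := fun q hq x hx e => by
    have h1 := hL q hq x (τ q) hx (by linarith [(hτ q hq).1])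
    rw [e, (hτ q hq).2] at h1
    exact sub_eq_zero.1 (norm_le_zero_iff.1 (by linarith))
  refine ⟨τ, fun q hq => ⟨(hτ q hq).1, (hτ q hq).2, uq q hq, ?_⟩⟩
  have hb : ∀ᶠ x in 𝓝 (τ q), ‖x‖ < 2 * r :=
    (isOpen_lt continuous_norm continuous_const).mem_nhds (by
      change ‖τ q‖ < 2 * r
      linarith [(hτ q hq).1])
  have hd : HasFDerivAt Φ (fderiv ℝ Φ (q, τ q)) (q, τ q) :=
    (hΦ.differentiable (by simp) _).hasFDerivAt
  set D := fderiv ℝ Φ (q, τ q) with hD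
  have hx : HasFDerivAt (fun x => Φ (q, x)) (D.comp (ContinuousLinearMap.inr ℝ Q X)) (τ q) :=
    hd.comp (τ q) (hasFDerivAt_prodMk_right q (τ q))
  have hn : ‖D.comp (ContinuousLinearMap.inr ℝ Q X)‖ < 1 :=
    (hx.le_of_lip' (by norm_num) (hb.mono fun x h =>
      hL q hq x (τ q) h hb.self_of_nhds)).trans_lt (by norm_num)
  let A : X ≃L[ℝ] X := ContinuousLinearEquiv.unitsEquiv ℝ X (Units.oneSub _ hn)
  have hA : ∀ x, A x = x - D (0, x) := fun x => rfl
  let e : (Q × X) ≃L[ℝ] Q × X := (ContinuousLinearEquiv.refl ℝ Q).skewProd A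
    (-D.comp (ContinuousLinearMap.inl ℝ Q X))
  have hF : ContDiffAt ℝ ∞ (fun z : Q × X => (z.1, z.2 - Φ z)) (q, τ q) :=
    (contDiff_fst.prodMk (contDiff_snd.sub hΦ)).contDiffAt
  have hF' : HasFDerivAt (fun z : Q × X => (z.1, z.2 - Φ z)) (e : Q × X →L[ℝ] Q × X) (q, τ q) := by
    refine (hasFDerivAt_fst.prodMk (hasFDerivAt_snd.sub hd)).congr_fderiv ?_
    refine ContinuousLinearMap.ext fun z => Prod.ext rfl ?_
    have h1 : D z = D (z.1, 0) + D (0, z.2) := by rw [← map_add]; simp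
    change z.2 - D z = A z.2 + -D (z.1, 0)
    rw [hA, h1]
    abel
  have hs := hF.hasStrictFDerivAt' hF' (by simp)
  have h1 := hF.to_localInverse hF' (by simp)
  have h2 := hs.eventually_right_inverse
  have h3 : hF.localInverse hF' (by simp) (q, τ q - Φ (q, τ q)) = (q, τ q) :=
    hF.localInverse_apply_image hF' (by simp)
  change ∀ᶠ y in _, (fun z : Q × X => (z.1, z.2 - Φ z)) (hF.localInverse hF' (by simp) y) = y at h2
  generalize hF.localInverse hF' (by simp) = G at h1 h2 h3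
  simp only [(hτ q hq).2, sub_self] at h1 h2 h3
  have hi : ContDiffAt ℝ ∞ (fun p : Q => ((p, 0) : Q × X)) q :=
    contDiffAt_id.prodMk contDiffAt_const
  have h4 : ContDiffAt ℝ ∞ (fun p : Q => (G (p, 0)).2) q := (h1.comp q hi).snd
  refine h4.congr_of_eventuallyEq ?_
  have h5 : Tendsto (fun p : Q => (G (p, 0)).2) (𝓝 q) (𝓝 (τ q)) := by
    simpa [ContinuousAt, h3] using h4.continuousAt
  filter_upwards [hO.mem_nhds hq, hi.continuousAt.eventually h2, h5.eventually hb] with p hp e1 e2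
  have e3 : (G (p, 0)).1 = p := congrArg Prod.fst e1
  have e4 : (G (p, 0)).2 - Φ (G (p, 0)) = 0 := congrArg Prod.snd e1
  refine (uq p hp _ e2 ?_).symm
  rw [show (p, (G (p, 0)).2) = G (p, 0) from Prod.ext e3.symm rfl]
  exact (sub_eq_zero.1 e4).symm

end Vale.Agent.P301Z.Tor
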