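import Vale.Agent.P301Z.Tor.Bas
import Vale.Agent.P301Z.Tor.Ucp

/-!
# P301Z, block TOR: the fixed point problem in abstract form
-/

open scoped ContDiff Topology NNReal
open Set Filter Metric
open Vale.Agent.P272.K Vale.Agent.P272.K.LIN Vale.Agent.P301Z.An

noncomputable section

namespace Vale.Agent.P301Z.Tor.FixA

variable {N : ℕ} {V W O M R J : Type} [NormedAddCommGroup V] [NormedSpace ℝ V]
  [NormedAddCommGroup W] [NormedSpace ℝ W] [NormedAddCommGroup O] [NormedSpace ℝ O]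
  [NormedAddCommGroup M] [NormedSpace ℝ M] [NormedAddCommGroup R] [NormedSpace ℝ R]
  [NormedAddCommGroup J] [NormedSpace ℝ J]

/-- constants -/
def cL (N : ℕ) (V : Type) [NormedAddCommGroup V] [NormedSpace ℝ V] : V →L[ℝ] Hs N V :=
  LinearMap.mkContinuous
    { toFun := fun c => Hol.const c
      map_add' := fun _ _ => Hol.ext fun _ => rfl
      map_smul' := fun _ _ => Hol.ext fun _ => rfl } 1 fun c => by
    rw [one_mul]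
    exact Hol.norm_const_le c

theorem norm_cL (c : V) : ‖cL N V c‖ ≤ ‖c‖ := Hol.norm_const_le c

theorem T3_le {X Y Z U : Type} [NormedAddCommGroup X] [NormedSpace ℝ X] [NormedAddCommGroup Y]
    [NormedSpace ℝ Y] [NormedAddCommGroup Z] [NormedSpace ℝ Z] [NormedAddCommGroup U]
    [NormedSpace ℝ U] (A : X →L[ℝ] Y →L[ℝ] Z) (B : Z →L[ℝ] Y →L[ℝ] U) :
    ∃ c : ℝ, 1 ≤ c ∧ ∀ (o o' : X) (g g' : Y) (δ : ℝ), ‖g‖ ≤ 2 → ‖g'‖ ≤ 2 → ‖o'‖ ≤ δ →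
    ‖B (A o' g') g'‖ ≤ c * δ ∧ ‖B (A o g) g - B (A o' g') g'‖ ≤ c * (‖o - o'‖ + δ * ‖g - g'‖) := by
  have k : ∀ o g g', ‖B (A o g) g'‖ ≤ ‖B‖ * ‖A‖ * (‖o‖ * ‖g‖ * ‖g'‖) := fun o g g' => by
    refine (B.le_opNorm₂ _ _).trans ?_
    have := mul_le_mul_of_nonneg_left (A.le_opNorm₂ o g) (norm_nonneg B)
    exact (mul_le_mul_of_nonneg_right this (norm_nonneg g')).trans (le_of_eq (by ring))
  have hc : 0 ≤ ‖B‖ * ‖A‖ := by positivity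
  refine ⟨4 * (‖B‖ * ‖A‖) + 1, by linarith, fun o o' g g' δ hg hg' ho => ?_⟩
  have hδ := (norm_nonneg _).trans ho
  have e : B (A o g) g - B (A o' g') g' =
      B (A (o - o') g) g + (B (A o' (g - g')) g + B (A o' g') (g - g')) := by
    simp only [map_sub, sub_apply]
    abel
  have h0 : ‖o'‖ * ‖g'‖ * ‖g'‖ ≤ δ * 2 * 2 := by gcongr
  have h1 : ‖o - o'‖ * ‖g‖ * ‖g‖ ≤ ‖o - o'‖ * 2 * 2 := by gcongr
  have h2 : ‖o'‖ * ‖g - g'‖ * ‖g‖ ≤ δ * ‖g - g'‖ * 2 := by gcongr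
  have h3 : ‖o'‖ * ‖g'‖ * ‖g - g'‖ ≤ δ * 2 * ‖g - g'‖ := by gcongr
  have h4 : 0 ≤ δ * ‖g - g'‖ := by positivity
  constructor
  · refine (k o' g' g').trans ((mul_le_mul_of_nonneg_left h0 hc).trans ?_)
    nlinarith
  · rw [e]
    refine (norm_add_le _ _).trans ((add_le_add ((k _ _ _).trans (mul_le_mul_of_nonneg_left h1 hc))
      ((norm_add_le _ _).trans (add_le_add ((k _ _ _).trans (mul_le_mul_of_nonneg_left h2 hc))
        ((k _ _ _).trans (mul_le_mul_of_nonneg_left h3 hc))))).trans ?_)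
    nlinarith [norm_nonneg (o - o')]

theorem shift (Ψ : E N × V → W) (s : E N) :
    (fun z : E N × V => Ψ (z.1 + s, z.2)) = fun z => Ψ (z + (s, 0)) :=
  funext fun z => congrArg Ψ (by ext <;> simp)

theorem lip_s (hL : LIP) [FiniteDimensional ℝ V] [FiniteDimensional ℝ O] {Ψ : E N × V → O} {ε : ℝ}
    (hΨ : ContDiff ℝ ∞ Ψ) (hb : ∀ z : E N × V, ‖z.2‖ < 1 → ‖Ψ z‖ ≤ ε ∧ ‖fderiv ℝ Ψ z‖ ≤ ε ∧
      ‖fderiv ℝ (fderiv ℝ Ψ) z‖ ≤ ε) {S : E N × Hs N V → Hs N O}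
    (S2 : ∀ s v x, S (s, v) (pr x) = Ψ (x + s, v (pr x))) (s : E N) {v v' : Hs N V}
    (hv : ‖v‖ < 1) (hv' : ‖v'‖ < 1) :
    ‖S (s, v)‖ ≤ 3 * ε ∧ ‖S (s, v) - S (s, v')‖ ≤ 3 * ε * ‖v - v'‖ := by
  refine hL N _ _ (fun z => Ψ (z.1 + s, z.2)) ε
    (hΨ.comp ((contDiff_fst.add contDiff_const).prodMk contDiff_snd)) (fun z hz => ?_) _ _ _ _
    hv hv' (S2 s _) (S2 s _)
  have e1 : (fderiv ℝ fun z : E N × V => Ψ (z.1 + s, z.2)) =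
      fun z => fderiv ℝ Ψ (z + (s, 0)) := funext fun z => by rw [shift, fderiv_comp_add_right]
  have hz' : ‖(z + (s, 0)).2‖ < 1 := by simpa using hz
  rw [e1, fderiv_comp_add_right]
  exact ⟨(hb (z.1 + s, z.2) hz).1, (hb _ hz').2⟩

theorem core (hN : PNEM) (hL : LIP) [FiniteDimensional ℝ V] [FiniteDimensional ℝ O]
    [CompleteSpace W] (s1 : O →L[ℝ] R →L[ℝ] M) (s2 : M →L[ℝ] R →L[ℝ] W)
    (G : Hs N W →L[ℝ] Hs N J) (G3 : ∀ s u t, G (tr s u) t = G u (t + s)) (r0 : J →L[ℝ] V)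
    (r1 : J →L[ℝ] R) {g0 : R} (hg0 : ‖g0‖ ≤ 1) {η : ℝ} (hη : 0 < η) :
    ∃ ε : ℝ, 0 < ε ∧ ∀ Ψ : E N × V → O, ContDiff ℝ ∞ Ψ → Pe2 Ψ →
      (∀ z : E N × V, ‖z.2‖ < 1 → ‖Ψ z‖ ≤ ε ∧ ‖fderiv ℝ Ψ z‖ ≤ ε ∧
        ‖fderiv ℝ (fderiv ℝ Ψ) z‖ ≤ ε) →
      ∃ τ : V → Hs N W, ∀ a, ‖a‖ < 1 / 4 →
        (∀ x, τ a (pr x) = s2 (s1 (Ψ (x, a - r0 (G (τ a) (pr x)))) (g0 - r1 (G (τ a) (pr x))))
          (g0 - r1 (G (τ a) (pr x)))) ∧
        (∀ t, ‖r0 (G (τ a) t)‖ ≤ η ∧ ‖r1 (G (τ a) t)‖ ≤ η) ∧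
        (∀ a', ‖a'‖ < 1 / 4 → ∀ t, ‖r0 (G (τ a) t) - r0 (G (τ a') t)‖ ≤ η * ‖a - a'‖) ∧
        ∀ x, ContDiffAt ℝ ∞ (fun z : E N × V => r0 (G (τ z.2) (pr z.1))) (x, a) := by
  have := FiniteDimensional.complete ℝ V
  obtain ⟨c, hc, hT⟩ := T3_le (Hol.bilL (w := wT N) s1) (Hol.bilL (w := wT N) s2)
  obtain ⟨K0, hK0⟩ : ∃ K0 : Hs N W →L[ℝ] Hs N V, ∀ u t, K0 u t = r0 (G u t) :=
    ⟨(Hol.map r0).comp G, fun _ _ => rfl⟩
  obtain ⟨K1, hK1⟩ : ∃ K1 : Hs N W →L[ℝ] Hs N R, ∀ u t, K1 u t = r1 (G u t) :=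
    ⟨(Hol.map r1).comp G, fun _ _ => rfl⟩
  obtain ⟨k, hk, k0, k1⟩ : ∃ k : ℝ, 1 ≤ k ∧ (∀ τ, ‖K0 τ‖ ≤ k * ‖τ‖) ∧ ∀ τ, ‖K1 τ‖ ≤ k * ‖τ‖ :=
    ⟨‖K0‖ + ‖K1‖ + 1, by linarith [norm_nonneg K0, norm_nonneg K1],
      fun τ => (K0.le_opNorm τ).trans (by gcongr; linarith [norm_nonneg K1]),
      fun τ => (K1.le_opNorm τ).trans (by gcongr; linarith [norm_nonneg K0])⟩
  have hk0 := zero_le_one.trans hk
  obtain ⟨r, hr, r1', r2⟩ : ∃ r : ℝ, 0 < r ∧ k * r ≤ 1 / 8 ∧ k * r ≤ η :=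
    ⟨min (1 / 8) η / k, by positivity, by rw [mul_div_cancel₀ _ (by positivity)]; simp,
      by rw [mul_div_cancel₀ _ (by positivity)]; simp⟩
  obtain ⟨ε, ε0, he⟩ : ∃ ε : ℝ, 0 < ε ∧ 12 * (c * k * ε) = r :=
    ⟨r / (12 * c * k), by positivity, by field_simp⟩
  refine ⟨ε, ε0, fun Ψ hΨ hp hb => ?_⟩
  obtain ⟨S, S1, S2⟩ := hN N V O Ψ hΨ hp
  let vv : V → Hs N W → Hs N V := fun a τ => cL N _ a - K0 τ
  let gg : Hs N W → Hs N R := fun τ => cL N _ g0 - K1 τ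
  let Φ : (E N × V) × Hs N W → Hs N W := fun z =>
    Hol.bilL s2 (Hol.bilL s1 (S (z.1.1, vv z.1.2 z.2)) (gg z.2)) (gg z.2)
  have Φa : ∀ s a u x, Φ ((s, a), u) (pr x) = s2 (s1 (Ψ (x + s, a - r0 (G u (pr x))))
      (g0 - r1 (G u (pr x)))) (g0 - r1 (G u (pr x))) := fun s a u x => by
    rw [← hK0, ← hK1]
    exact congrArg (fun o => s2 (s1 o _) _) (S2 s (vv a u) x)
  have hΦ : ContDiff ℝ ∞ Φ := by
    have a1 : ContDiff ℝ ∞ fun z : (E N × V) × Hs N W => S (z.1.1, vv z.1.2 z.2) :=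
      S1.comp (contDiff_fst.fst.prodMk (((cL N _).contDiff.comp contDiff_fst.snd).sub
        (K0.contDiff.comp contDiff_snd)))
    have a2 : ContDiff ℝ ∞ fun z : (E N × V) × Hs N W => gg z.2 :=
      contDiff_const.sub (K1.contDiff.comp contDiff_snd)
    exact ((Hol.bilL s2).contDiff.comp
      (((Hol.bilL s1).contDiff.comp a1).clm_apply a2)).clm_apply a2
  have hv : ∀ a τ, ‖a‖ < 1 / 4 → ‖τ‖ < 2 * r → ‖vv a τ‖ < 1 := fun a τ ha hτ => by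
    have h1 := norm_sub_le (cL N _ a) (K0 τ)
    have h2 := mul_le_mul_of_nonneg_left hτ.le hk0
    linarith [norm_cL (N := N) a, k0 τ]
  have hg : ∀ τ, ‖τ‖ < 2 * r → ‖gg τ‖ ≤ 2 := fun τ hτ => by
    have h1 := norm_sub_le (cL N _ g0) (K1 τ)
    have h2 := mul_le_mul_of_nonneg_left hτ.le hk0
    linarith [norm_cL (N := N) g0, k1 τ]
  have key : ∀ s a a' τ τ', ‖a‖ < 1 / 4 → ‖a'‖ < 1 / 4 → ‖τ‖ < 2 * r → ‖τ'‖ < 2 * r →
      ‖Φ ((s, a'), τ')‖ ≤ r / 2 ∧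
      ‖Φ ((s, a), τ) - Φ ((s, a'), τ')‖ ≤ r / 2 * (‖a - a'‖ + ‖τ - τ'‖) := by
    intro s a a' τ τ' ha ha' hτ hτ'
    have l1 := (lip_s hL hΨ hb S2 s (hv a τ ha hτ) (hv a' τ' ha' hτ')).2
    have l2 := (lip_s hL hΨ hb S2 s (hv a' τ' ha' hτ') (hv a' τ' ha' hτ')).1
    obtain ⟨t1, t2⟩ := hT (S (s, vv a τ)) _ _ _ _ (hg τ hτ) (hg τ' hτ') l2
    have e1 : vv a τ - vv a' τ' = cL N _ (a - a') - K0 (τ - τ') := by
      simp only [vv, map_sub]; abel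
    have e2 : gg τ - gg τ' = -K1 (τ - τ') := by simp only [gg, map_sub]; abel
    have b1 : ‖vv a τ - vv a' τ'‖ ≤ k * ‖a - a'‖ + k * ‖τ - τ'‖ := by
      rw [e1]
      exact (norm_sub_le _ _).trans (add_le_add ((norm_cL _).trans
        (le_mul_of_one_le_left (norm_nonneg _) hk)) (k0 _))
    have b2 : ‖gg τ - gg τ'‖ ≤ k * ‖τ - τ'‖ := by rw [e2, norm_neg]; exact k1 _
    have b3 : c * ε ≤ c * k * ε := by
      have := le_mul_of_one_le_right (zero_le_one.trans hc) hk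
      gcongr
    refine ⟨t1.trans (by linarith), t2.trans ?_⟩
    have b4 : c * (‖S (s, vv a τ) - S (s, vv a' τ')‖ + 3 * ε * ‖gg τ - gg τ'‖) ≤
        c * (3 * ε * (k * ‖a - a'‖ + k * ‖τ - τ'‖) + 3 * ε * (k * ‖τ - τ'‖)) := by
      have := l1.trans (mul_le_mul_of_nonneg_left b1 (by positivity))
      gcongr
    refine b4.trans ?_
    rw [← he]
    have : 0 ≤ c * k * ε * ‖a - a'‖ := by positivity
    linarith
  have r3 : r ≤ 1 / 8 := (le_mul_of_one_le_left hr.le hk).trans r1'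
  have op : IsOpen {q : E N × V | ‖q.2‖ < 1 / 4} := isOpen_lt continuous_snd.norm continuous_const
  obtain ⟨τ, hτ⟩ := ucp hΦ op hr
    (fun q hq x x' hx hx' => (key q.1 q.2 q.2 x x' hq hq hx hx').2.trans (by
      rw [sub_self, norm_zero, zero_add]
      gcongr
      linarith))
    (fun q hq => (key q.1 q.2 q.2 0 0 hq hq (by simpa using hr) (by simpa using hr)).1)
  have lt : ∀ q : E N × V, ‖q.2‖ < 1 / 4 → ‖τ q‖ < 2 * r := fun q hq => by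
    linarith [(hτ q hq).1]
  have fp : ∀ s a, ‖a‖ < 1 / 4 → Φ ((s, a), τ (s, a)) = τ (s, a) := fun s a h => (hτ (s, a) h).2.1
  have f0 : ∀ a, ‖a‖ < 1 / 4 → ∀ x, τ (0, a) (pr x) = s2 (s1 (Ψ (x, a - r0 (G (τ (0, a)) (pr x))))
      (g0 - r1 (G (τ (0, a)) (pr x)))) (g0 - r1 (G (τ (0, a)) (pr x))) := fun a ha x => by
    have := Φa 0 a (τ (0, a)) x
    rwa [fp 0 a ha, add_zero] at this
  have etr : ∀ s a, ‖a‖ < 1 / 4 → tr (pr s) (τ (0, a)) = τ (s, a) := fun s a ha => by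
    refine (hτ (s, a) ha).2.2.1 _ ((norm_tr_le _ _).trans_lt (lt (0, a) ha)) (Hol.ext fun t => ?_)
    obtain ⟨x, rfl⟩ := pr_surj t
    rw [Φa, G3, tr_apply, ← pr_add, f0 a ha]
  refine ⟨fun a => τ (0, a), fun a ha => ⟨f0 a ha, fun t => ?_, fun a' ha' t => ?_, fun x => ?_⟩⟩
  · have h1 := (mul_le_mul_of_nonneg_left (hτ (0, a) ha).1 hk0).trans r2
    rw [← hK0, ← hK1]
    exact ⟨((K0 _).norm_apply_le _).trans ((k0 _).trans h1),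
      ((K1 _).norm_apply_le _).trans ((k1 _).trans h1)⟩
  · have h1 := (key 0 a a' _ _ ha ha' (lt (0, a) ha) (lt (0, a') ha')).2
    rw [fp 0 a ha, fp 0 a' ha'] at h1
    have h2 : ‖τ (0, a) - τ (0, a')‖ ≤ r * ‖a - a'‖ := by
      nlinarith [norm_nonneg (τ (0, a) - τ (0, a')), norm_nonneg (a - a')]
    have h3 : r0 (G (τ (0, a)) t) - r0 (G (τ (0, a')) t) = K0 (τ (0, a) - τ (0, a')) t := by
      rw [map_sub, ← hK0, ← hK0]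
      rfl
    rw [h3]
    refine ((K0 _).norm_apply_le _).trans ((k0 _).trans
      ((mul_le_mul_of_nonneg_left h2 hk0).trans ?_))
    rw [← mul_assoc]
    gcongr
  · have h1 : ContDiffAt ℝ ∞ (fun z : E N × V => Hol.evalL (pr 0) (K0 (τ z))) (x, a) :=
      ((Hol.evalL (pr 0)).comp K0).contDiff.contDiffAt.comp (x, a) (hτ (x, a) ha).2.2.2
    refine h1.congr_of_eventuallyEq ?_
    filter_upwards [op.mem_nhds (x := (x, a)) ha] with y hy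
    change _ = K0 (τ (y.1, y.2)) (pr 0)
    rw [← etr y.1 y.2 hy, hK0, G3, pr_zero, zero_add]

end Vale.Agent.P301Z.Tor.FixA
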