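import Vale.Agent.P301Z.Tor.Sk3

/-!
# P301Z, block TOR: the rotated form is almost constant on the tube
-/

open scoped Manifold ContDiff ComplexOrder Topology Matrix
open Set Filter Metric Complex
open Vale.Agent.P272.K
open Vale.Agent.P281Z (Mf)
open Vale.Agent.P281Z.Hg
open Vale.Agent.P301.H599 (IsHolTwoForm)
open Vale.Agent.P301Z.Lat Vale.Agent.P301Z.Rot

set_option maxSynthPendingDepth 3

noncomputable section

namespace Vale.Agent.P301Z.Tor

namespace MtdX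

section ana

variable {X F : Type} [NormedAddCommGroup X] [NormedAddCommGroup F]

theorem sum_bd [NormedSpace ℝ X] [NormedSpace ℝ F] {ι : Type} [Fintype ι] (L : ι → ℂ →L[ℝ] F)
    {f : ι → X → ℂ} {v : X} (hf : ∀ i, ContDiffAt ℝ ∞ (f i) v) (q : ℕ) {ε : ℝ}
    (h : ∀ i, ‖iteratedFDeriv ℝ q (f i) v‖ ≤ ε) :
    ‖iteratedFDeriv ℝ q (fun y => ∑ i, L i (f i y)) v‖ ≤ (∑ i, ‖L i‖) * ε := by
  have hq : (q : WithTop ℕ∞) ≤ ∞ := by exact_mod_cast le_top
  rw [iteratedFDeriv_fun_sum_apply (f := fun i y => L i (f i y)) fun i _ =>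
    ((L i).contDiff.contDiffAt.comp v (hf i)).of_le hq, Finset.sum_mul]
  exact (norm_sum_le _ _).trans (Finset.sum_le_sum fun i _ =>
    ((L i).norm_iteratedFDeriv_comp_left (hf i) hq).trans
      (mul_le_mul_of_nonneg_left (h i) (norm_nonneg _)))

variable [NormedSpace ℂ X] [NormedSpace ℂ F]

theorem cau {f : X → F} {v : X} {r c : ℝ} (hr : 0 < r)
    (h : ∀ y ∈ ball v r, DifferentiableAt ℂ f y ∧ ‖f y‖ ≤ c) : ‖fderiv ℂ f v‖ ≤ 2 * c / r :=
  norm_fderiv_le_div_of_mapsTo_ball (fun y hy => (h y hy).1.differentiableWithinAt)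
    (fun y hy => mem_closedBall_iff_norm.2 ((norm_sub_le _ _).trans (by
      linarith [(h y hy).2, (h v (mem_ball_self hr)).2]))) hr

theorem cau2 {f : X → ℂ} {v : X} {r c : ℝ} (hr : 0 < r)
    (h : ∀ y ∈ ball v (r + r), ContDiffAt ℂ ω f y ∧ ‖f y‖ ≤ c) :
    ‖iteratedFDeriv ℝ 1 f v‖ ≤ 2 * c / r ∧ ‖iteratedFDeriv ℝ 2 f v‖ ≤ 2 * (2 * c / r) / r := by
  have h1 : ∀ y ∈ ball v r, DifferentiableAt ℂ (fderiv ℂ f) y ∧ ‖fderiv ℂ f y‖ ≤ 2 * c / r :=
    fun y hy => ⟨((h y (ball_subset_ball (by linarith) hy)).1.fderiv_right (m := 1)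
      le_top).differentiableAt one_ne_zero, cau hr fun z hz => by
        have k := h z (by
          rw [mem_ball] at *
          linarith [dist_triangle z y v])
        exact ⟨k.1.differentiableAt (by simp), k.2⟩⟩
  have h2 := (h v (mem_ball_self (by linarith))).1
  rw [← (h2.of_le le_top).restrictScalars_iteratedFDeriv (n := 1),
    ← (h2.of_le le_top).restrictScalars_iteratedFDeriv (n := 2)]
  simp only [Function.comp_apply, ContinuousMultilinearMap.norm_restrictScalars]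
  rw [← norm_iteratedFDeriv_fderiv (n := 1), norm_iteratedFDeriv_one, norm_iteratedFDeriv_one]
  exact ⟨(h1 v (mem_ball_self hr)).2, cau hr h1⟩

end ana

variable {d : ℕ}

section alg

variable {w s : Mx d} {T : Cm d → Cm d} {C : ℝ}

/-- the coefficients of the rotated form -/
def LL (d : ℕ) : (Fin d × Fin d) ⊕ (Fin d × Fin d) → ℂ →L[ℝ] B2 (Cm d) :=
  Sum.elim (fun x => (ContinuousLinearMap.id ℝ ℂ).smulRight (I •
      ((cxL (hl x.1)).smulRight (cxL (ah x.2)) - (cxL (ah x.2)).smulRight (cxL (hl x.1)))))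
    fun x => (conjCLE : ℂ →L[ℝ] ℂ).smulRight ((cxL (ah x.1)).smulRight (cxL (ah x.2))) -
      (ContinuousLinearMap.id ℝ ℂ).smulRight ((cxL (hl x.1)).smulRight (cxL (hl x.2)))

/-- the entries of two matrices -/
def en (w s : Mx d) : (Fin d × Fin d) ⊕ (Fin d × Fin d) → ℂ :=
  Sum.elim (fun x => w x.1 x.2) fun x => s x.1 x.2

theorem LL_eq (hs : sᵀ = -s) : bL (rO w s) = ∑ i, LL d i (en w s i) := by
  ext p q
  rw [bL_apply, bv_rO hs]
  simp only [Fintype.sum_sum_type, Fintype.sum_prod_type, LL, en, Sum.elim_inl, Sum.elim_inr,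
    _root_.sum_apply, _root_.add_apply, _root_.sub_apply, _root_.smul_apply,
    ContinuousLinearMap.smulRight_apply, ContinuousLinearMap.id_apply, cxL_apply, Ka.cx_hl,
    Ka.cx_ah, smul_eq_mul, hh, ss, dotProduct, Matrix.mulVec, Pi.star_apply, Finset.mul_sum,
    star_sum, star_mul', ContinuousLinearEquiv.coe_coe, conjCLE_apply, ← Finset.sum_sub_distrib,
    ← Finset.sum_add_distrib]
  refine Finset.sum_congr rfl fun j _ => Finset.sum_congr rfl fun k _ => ?_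
  simp only [Complex.star_def]
  ring

theorem hh_nn (hw : w.PosSemidef) (a : Cm d) : 0 ≤ (hh w a a).re := by
  have k := (Matrix.posSemidef_iff_dotProduct_mulVec.1 hw).2 (star a)
  rw [star_star] at k
  exact (Complex.le_def.1 k).1

theorem hh_add (a b : Cm d) : hh w (a + b) (a + b) = hh w a a + hh w a b + hh w b a + hh w b b := by
  simp only [hh, star_add, Matrix.mulVec_add, add_dotProduct, dotProduct_add]
  ring

theorem hh_le (hw : w.PosSemidef) (a b : Cm d) : ‖hh w a b‖ ≤ (hh w a a).re + (hh w b b).re := by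
  have h : ∀ c : ℂ, 0 ≤ (hh w a a + star c * hh w a b + c * star (hh w a b) +
      c * (star c * hh w b b)).re := fun c => by
    have k := hh_nn hw (a + c • b)
    rwa [hh_add, hh_smul_l, hh_smul_l, hh_smul_r, hh_smul_r, ← hh_star hw.1 a b] at k
  have h1 := h 1
  have h2 := h (-1)
  have h3 := h I
  have h4 := h (-I)
  simp at h1 h2 h3 h4
  refine (norm_le_abs_re_add_abs_im _).trans ?_
  have k1 : |(hh w a b).re| ≤ ((hh w a a).re + (hh w b b).re) / 2 := abs_le.2 ⟨by linarith, by linarith⟩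
  have k2 : |(hh w a b).im| ≤ ((hh w a a).re + (hh w b b).re) / 2 := abs_le.2 ⟨by linarith, by linarith⟩
  linarith

theorem hh_single (j k : Fin d) : hh w (Pi.single j 1) (Pi.single k 1) = w j k := by
  rw [hh, star_single, dot_single, star_one, one_mul, one_mul]

theorem en_le (hw : w.PosSemidef) (hs : sᵀ = -s) (h : Qt w s T)
    (hi : ((C : ℂ) • (1 : Mx d) - w).PosSemidef) (i) : ‖en w s i‖ ≤ C + C := by
  have h1 : ∀ j, (hh w (Pi.single j 1) (Pi.single j 1)).re ≤ C := fun j => by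
    have k := (Complex.le_def.1 (hi.diag_nonneg (i := j))).1
    rw [hh_single]
    simpa using k
  rcases i with ⟨j, k⟩ | ⟨j, k⟩
  · exact (hh_single (w := w) j k ▸ hh_le hw _ _).trans (add_le_add (h1 j) (h1 k))
  · have h2 := hh_le hw (Pi.single j 1) (T (Pi.single k 1))
    rw [hh_T h, hh_T h, ss_skew hs _ (T _), ss_T h, neg_neg, ss, dot_single, one_mul, one_mul] at h2
    exact h2.trans (add_le_add (h1 j) (h1 k))

theorem psd_of (hC : 0 < C) (lo : (w - ((C⁻¹ : ℝ) : ℂ) • (1 : Mx d)).PosSemidef) : w.PosSemidef := by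
  simpa using lo.add (Matrix.PosSemidef.one.smul (Complex.zero_le_real.2 (inv_pos.2 hC).le))

theorem low (hC : 0 < C) (hs : sᵀ = -s) (lo : (w - ((C⁻¹ : ℝ) : ℂ) • (1 : Mx d)).PosSemidef)
    (p : Cm d) : ‖p‖ ≤ C * ‖bL (rO w s) p‖ := by
  have k1 : ss s p p = 0 := by linear_combination (ss_skew hs p p) / 2
  have k2 : bL (rO w s) p (I • p) = 2 * hh w p p := by
    rw [bL_apply, bv_rO hs, ss_smul_r, hh_smul_l, hh_smul_r, k1, Complex.star_def, conj_I]
    simp only [mul_zero, map_zero]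
    linear_combination (-2 * hh w p p) * I_sq
  have k3 := (bL (rO w s) p).le_opNorm (I • p)
  rw [k2, norm_smul, norm_I, one_mul, norm_mul, Complex.norm_two] at k3
  have k4 := hh_nn lo p
  have k5 : hh (w - ((C⁻¹ : ℝ) : ℂ) • (1 : Mx d)) p p =
      hh w p p - ((C⁻¹ * ∑ i, ‖p i‖ ^ 2 : ℝ) : ℂ) := by
    simp only [hh, Matrix.sub_mulVec, Matrix.smul_mulVec, Matrix.one_mulVec, dotProduct_sub,
      dotProduct_smul, smul_eq_mul]
    simp [dotProduct, Complex.mul_conj']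
  rw [k5, sub_re, ofReal_re] at k4
  have k6 : ‖p‖ ^ 2 ≤ ∑ i, ‖p i‖ ^ 2 := by
    have h0 : 0 ≤ ∑ i, ‖p i‖ ^ 2 := by positivity
    rw [← Real.le_sqrt (norm_nonneg _) h0]
    exact (pi_norm_le_iff_of_nonneg (Real.sqrt_nonneg _)).2 fun i => Real.le_sqrt_of_sq_le
      (Finset.single_le_sum (f := fun i => ‖p i‖ ^ 2) (fun _ _ => by positivity) (Finset.mem_univ i))
  have k7 := re_le_norm (hh w p p)
  have k8 := mul_le_mul_of_nonneg_left k6 (inv_pos.2 hC).le
  rcases (norm_nonneg p).eq_or_lt with h | h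
  · rw [← h]
    positivity
  · rw [← inv_mul_le_iff₀ hC]
    refine le_of_mul_le_mul_right ?_ h
    have := norm_nonneg (hh w p p)
    nlinarith

theorem qt_conj {J : Mx d} (hJ : J.det ≠ 0) (h : Qt w s T) :
    Qt (Jᵀ * w * J.map (starRingEnd ℂ)) (Jᵀ * s * J) fun v => J⁻¹ *ᵥ T (J *ᵥ v) := by
  have k : ∀ x, J *ᵥ (J⁻¹ *ᵥ x) = x := fun x => by
    rw [Matrix.mulVec_mulVec, Matrix.mul_nonsing_inv _ (isUnit_iff_ne_zero.2 hJ), Matrix.one_mulVec]
  refine ⟨fun v => ?_, fun v => ?_⟩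
  · simp only [← Matrix.mulVec_mulVec]
    rw [← star_mv, k, h.1]
  · simp only [k, h.2]
    rw [Matrix.mulVec_neg, Matrix.mulVec_mulVec,
      Matrix.nonsing_inv_mul _ (isUnit_iff_ne_zero.2 hJ), Matrix.one_mulVec]

theorem skew_conj (J : Mx d) (hs : sᵀ = -s) : (Jᵀ * s * J)ᵀ = -(Jᵀ * s * J) := by
  rw [Matrix.transpose_mul, Matrix.transpose_mul, Matrix.transpose_transpose, hs, Matrix.neg_mul,
    Matrix.mul_neg, Matrix.mul_assoc]

theorem rO_conj (J : Mx d) (hs : sᵀ = -s) (p q : Cm d) : bv (rO w s) (J *ᵥ p) (J *ᵥ q) =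
    bv (rO (Jᵀ * w * J.map (starRingEnd ℂ)) (Jᵀ * s * J)) p q := by
  rw [bv_rO hs, bv_rO (skew_conj J hs)]
  simp only [hh, ss, star_mv, dot_conj]

end alg

variable {V : Mf d} {s w : Fld V} {u a : Fs V} {Φ : Cm d → V.X} {ρ : ℝ} {v : Cm d}
  {e : Chart d V.X}

theorem tb_open (ρ : ℝ) : IsOpen (Key.Tb d ρ) := by
  rw [Key.Tb, ofPred_forall]
  exact isOpen_iInter_of_finite fun i => isOpen_lt (by fun_prop) continuous_const

/-- the matrix of the pull back of the symplectic form -/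
def sm (s : Fld V) (Φ : Cm d → V.X) (e : Chart d V.X) (v : Cm d) : Mx d :=
  (jmat (fun y => e (Φ y)) v)ᵀ * s e (e (Φ v)) * jmat (fun y => e (Φ y)) v

theorem bv_pf (hΦ : ParT ρ Φ) (hv : v ∈ Key.Tb d ρ) (he : At e (Φ v)) (U : Fs V) (p q : Cm d) :
    bv (Pt.pf Φ U v) p q = bv (vl U e (e (Φ v))) (jmat (fun y => e (Φ y)) v *ᵥ p)
      (jmat (fun y => e (Φ y)) v *ᵥ q) := by
  have h1 := (hΦ.hol v hv e he).differentiableAt (by simp)
  have h2 : ∀ p, fderiv ℝ (fun y => e (Φ y)) v p = jmat (fun y => e (Φ y)) v *ᵥ p := fun p => by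
    rw [h1.fderiv_restrictScalars ℝ]
    exact funext fun i => jmat_mulVec h1 p i
  rw [Pt.pf_eq ⟨hΦ.cont v hv, fun e he => ((hΦ.hol v hv e he).restrict_scalars ℝ).of_le le_top⟩ he,
    ← h2, ← h2]
  exact bv_jc (h1.restrictScalars ℝ) _ p q

theorem sm_hol (hs : IsHolTwoForm s) (hu : Is20 s u) (hΦ : ParT ρ Φ) (hv : v ∈ Key.Tb d ρ) (j k) :
    ContDiffAt ℂ ω (fun y => sm s Φ (chartAt (Cm d) (Φ y)) y j k) v := by
  have h1 : ∀ y ∈ Key.Tb d ρ, ∀ e, At e (Φ y) →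
      bv (Pt.pf Φ u y) (Pi.single j 1) (Pi.single k 1) = sm s Φ e y j k := fun y hy e he => by
    rw [bv_pf hΦ hy he, hu e _ he, bv_f20 (hs.alt e _ he), dot_conj, dot_single, one_mul, one_mul,
      sm]
  have he := Pt.ca (d := d) (Φ v)
  have h2 := hΦ.hol v hv _ he
  have h3 : ContDiffAt ℂ ω (fun y => sm s Φ (chartAt (Cm d) (Φ v)) y j k) v := by
    simp only [sm, Matrix.mul_apply, Matrix.transpose_apply]
    exact ContDiffAt.sum fun l _ => (ContDiffAt.sum fun m _ => (jmat_holo h2 m j).mul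
      (ContDiffAt.comp (g := fun z => s (chartAt (Cm d) (Φ v)) z m l) v
        (hs.holo _ _ he m l).contDiffAt h2)).mul (jmat_holo h2 l k)
  refine h3.congr_of_eventuallyEq ?_
  filter_upwards [(tb_open ρ).mem_nhds hv, Pt.SmA.near (hΦ.cont v hv) he] with y hy hy'
  rw [← h1 y hy _ hy', h1 y hy _ (Pt.ca _)]

theorem fb_eq (hs : IsHolTwoForm s) (hu : Is20 s u) (ha : Is11 w a) (hΦ : ParT ρ Φ)
    (hv : v ∈ Key.Tb d ρ) : fb Φ (a - u + (dR V).cj u) v =
      bL (rO (Key.pl w Φ v) (sm s Φ (chartAt (Cm d) (Φ v)) v)) := by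
  have he := Pt.ca (d := d) (Φ v)
  ext p q
  rw [fb, bL_apply, bL_apply, bv_pf hΦ hv he, vl_add, vl_sub, (dR_real V).cj u _ _ he, hu _ _ he,
    ha _ _ he]
  exact rO_conj _ (hs.alt _ _ he) p q

end MtdX

open MtdX

theorem mtd : MTD := by
  intro d C hC
  set K := ∑ i, ‖LL d i‖ with hK
  have K0 : 0 ≤ K := Finset.sum_nonneg fun _ _ => norm_nonneg _
  refine ⟨K * (C + C) + C, fun η hη => ?_⟩
  set ε := η / (K + 1) with hε
  have ε0 : 0 < ε := by positivity
  have hKε : K * ε ≤ η := by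
    rw [hε, ← mul_div_assoc, div_le_iff₀ (by positivity)]
    nlinarith
  set r := 4 * (C + C) / ε + 1 with hr
  have r1 : 1 ≤ r := le_add_of_nonneg_left (by positivity)
  have r0 : 0 < r := by linarith
  have r2 : 2 * (2 * (C + C) / r) ≤ ε := by
    rw [← mul_div_assoc, div_le_iff₀ r0, hr, mul_add ε, mul_div_cancel₀ _ ε0.ne']
    linarith
  refine ⟨2 + (r + r), ε, by linarith, ε0, fun V s w u a Φ hs hd hk hu ha hΦ hF => ?_⟩
  set S := fun y => sm s Φ (chartAt (Cm d) (Φ y)) y with hS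
  have sk : ∀ y, (S y)ᵀ = -S y := fun y => skew_conj _ (hs.alt _ _ (Pt.ca _))
  have ps : ∀ y ∈ Key.Tb d (2 + (r + r)), (Key.pl w Φ y).PosSemidef := fun y hy =>
    psd_of hC (hF y hy).lo
  have qt : ∀ y ∈ Key.Tb d (2 + (r + r)), ∃ T, Qt (Key.pl w Φ y) (S y) T := fun y hy => by
    have he := Pt.ca (d := d) (Φ y)
    obtain ⟨T, hT⟩ := qt_of_rel (hk.kahler.posDef _ _ he).isHermitian (hs.alt _ _ he) (hd _ _ he)
      (by simpa using hk.rel _ _ he)
    exact ⟨_, qt_conj (hΦ.unit y hy _ he) hT⟩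
  have bd : ∀ y ∈ Key.Tb d (2 + (r + r)), ∀ i, ‖en (Key.pl w Φ y) (S y) i‖ ≤ C + C :=
    fun y hy => (qt y hy).elim fun T hT => en_le (ps y hy) (sk y) hT (hF y hy).hi
  have sub : ∀ v ∈ Tb d 2, ∀ y ∈ ball v (r + r), y ∈ Key.Tb d (2 + (r + r)) := fun v hv y hy i => by
    have k1 := (abs_re_le_norm (y i - v i)).trans_lt
      ((norm_le_pi_norm (y - v) i).trans_lt (mem_ball_iff_norm.1 hy))
    have k2 := abs_add_le (v i).re (y i - v i).re
    rw [← add_re, add_sub_cancel] at k2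
    linarith [hv i]
  have sub' : ∀ v ∈ Tb d 2, v ∈ Key.Tb d (2 + (r + r)) := fun v hv =>
    sub v hv v (mem_ball_self (by linarith))
  have der : ∀ v ∈ Key.Tb d (2 + (r + r)), ∀ (q : ℕ) (c : ℝ),
      (∀ i, ‖iteratedFDeriv ℝ q (fun y => en (Key.pl w Φ y) (S y) i) v‖ ≤ c) →
      ‖iteratedFDeriv ℝ q (fb Φ (a - u + (dR V).cj u)) v‖ ≤ K * c := fun v hv q c h => by
    have k1 : fb Φ (a - u + (dR V).cj u) =ᶠ[𝓝 v] fun y => ∑ i, LL d i (en (Key.pl w Φ y) (S y) i) := by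
      filter_upwards [(tb_open _).mem_nhds hv] with y hy
      rw [fb_eq hs hu ha hΦ hy, LL_eq (sk y)]
    rw [(k1.iteratedFDeriv ℝ q).eq_of_nhds]
    refine sum_bd _ (fun i => ?_) q h
    rcases i with ⟨j, k⟩ | ⟨j, k⟩
    · exact (hF v hv).sm j k
    · exact ((sm_hol hs hu hΦ hv j k).restrict_scalars ℝ).of_le le_top
  have d12 : ∀ v ∈ Tb d 2, ‖iteratedFDeriv ℝ 1 (fb Φ (a - u + (dR V).cj u)) v‖ ≤ η ∧
      ‖iteratedFDeriv ℝ 2 (fb Φ (a - u + (dR V).cj u)) v‖ ≤ η := fun v hv => by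
    have k1 := fun j k => cau2 (f := fun y => S y j k) r0 fun y hy =>
      ⟨sm_hol hs hu hΦ (sub v hv y hy) j k, bd y (sub v hv y hy) (.inr (j, k))⟩
    have k2 : 0 ≤ 2 * (C + C) / r := by positivity
    refine ⟨(der v (sub' v hv) 1 ε fun i => ?_).trans hKε,
      (der v (sub' v hv) 2 ε fun i => ?_).trans hKε⟩
    · rcases i with ⟨j, k⟩ | ⟨j, k⟩
      · exact (hF v (sub' v hv)).small j k 1 le_rfl one_le_two
      · exact (k1 j k).1.trans (by linarith)
    · rcases i with ⟨j, k⟩ | ⟨j, k⟩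
      · exact (hF v (sub' v hv)).small j k 2 one_le_two le_rfl
      · exact (k1 j k).2.trans ((div_le_self (by linarith) r1).trans r2)
  have z0 : (0 : Cm d) ∈ Key.Tb d (2 + (r + r)) := sub' 0 fun i => by simp
  refine ⟨fun v hv p => ?_, fun p q => ?_, ?_, fun p => ?_, fun v hv => ?_, fun v hv => ?_⟩
  · obtain ⟨T, hT⟩ := qt v (sub' v hv)
    refine ⟨-T p, fun q => ?_⟩
    rw [fb_eq hs hu ha hΦ (sub' v hv), bL_apply, bL_apply]
    exact jr_rO (ps v (sub' v hv)).1 (sk v) hT p q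
  · rw [fb_eq hs hu ha hΦ z0, bL_apply, bL_apply, bv_rO (sk 0), bv_rO (sk 0), hh_smul_l, hh_smul_l,
      hh_smul_r, hh_smul_r, ss_smul_r, ss_skew (sk 0) q (I • p), ss_smul_r, ss_skew (sk 0) p q]
    simp only [star_add, star_sub, star_mul', star_neg, hh_star (ps 0 z0).1,
      Complex.star_def, conj_I, conj_conj]
    linear_combination (-I * (hh (Key.pl w Φ 0) p q - hh (Key.pl w Φ 0) q p) - ss (S 0) p q +
      starRingEnd ℂ (ss (S 0) p q)) * I_sq
  · have k := der 0 z0 0 (C + C) fun i => by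
      rw [norm_iteratedFDeriv_zero]
      exact bd 0 z0 i
    rw [norm_iteratedFDeriv_zero] at k
    linarith
  · rw [fb_eq hs hu ha hΦ z0]
    exact (low hC (sk 0) (hF 0 z0).lo p).trans
      (mul_le_mul_of_nonneg_right (le_add_of_nonneg_left (by positivity)) (norm_nonneg _))
  · rw [← norm_iteratedFDeriv_one]
    exact (d12 v hv).1
  · rw [← norm_iteratedFDeriv_one, norm_iteratedFDeriv_fderiv]
    exact (d12 v hv).2

end Vale.Agent.P301Z.Tor
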