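import Vale.Agent.P301Z.Tor.Bas

/-!
# P301Z, block TOR: the statements on the tube in `Cm N`
-/

open scoped ContDiff Topology NNReal Matrix
open Set Filter Complex Module Metric MeasureTheory
open Vale.Agent.P272.K Vale.Agent.P272.K.LIN Vale.Agent.P301Z.An

set_option maxSynthPendingDepth 3

noncomputable section

namespace Vale.Agent.P301Z.Tor

variable {N n : ℕ}

/-- the tube domain -/
def Tb (N : ℕ) (R : ℝ) : Set (Cm N) := {v | ∀ i, |(v i).re| < R}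

/-- the period attached to an integer vector -/
def per (q : Fin N → ℤ) : Cm N := fun i => 2 * Real.pi * I * (q i : ℂ)

/-- the basic periods -/
def pv (j : Fin N) : Cm N := Pi.single j (2 * Real.pi * I)

/-- real vectors -/
def reL (N : ℕ) : E N →L[ℝ] Cm N :=
  ContinuousLinearMap.pi fun i => ofRealCLM.comp (ContinuousLinearMap.proj i)

theorem reL_apply (y : E N) (i : Fin N) : reL N y i = (y i : ℂ) := rfl

/-- imaginary vectors -/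
def imL (N : ℕ) : E N →L[ℝ] Cm N := (2 * Real.pi * I : ℂ) • reL N

theorem imL_apply (x : E N) (i : Fin N) : imL N x i = 2 * Real.pi * I * (x i : ℂ) := rfl

theorem imL_zv (q : Fin N → ℤ) : imL N (zv q) = per q := funext fun i => by
  simp [imL_apply, zv, per]

theorem imL_single (j : Fin N) : imL N (Pi.single j 1) = pv j := funext fun i => by
  by_cases h : i = j
  · subst h; simp [imL_apply, pv]
  · simp [imL_apply, pv, h]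

/-- the linear parametrisation of the tube -/
def lm (μ : Cm n ≃L[ℝ] E N) : P N n →L[ℝ] Cm N :=
  (imL N).coprod ((reL N).comp (μ : Cm n →L[ℝ] E N))

theorem lm_apply (μ : Cm n ≃L[ℝ] E N) (z : P N n) : lm μ z = imL N z.1 + reL N (μ z.2) := rfl

theorem lm_re (μ : Cm n ≃L[ℝ] E N) (z : P N n) (i : Fin N) : (lm μ z i).re = μ z.2 i := by
  simp [lm_apply, imL_apply, reL_apply]

/-- the pull back of a form -/
def pl (μ : Cm n ≃L[ℝ] E N) (o : B2 (Cm N)) : B2 (P N n) := o.bilinearComp (lm μ) (lm μ)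

theorem pl_apply (μ : Cm n ≃L[ℝ] E N) (o : B2 (Cm N)) (u v : P N n) :
    pl μ o u v = o (lm μ u) (lm μ v) := rfl

/-- closed periodic forms without periods on the tube -/
structure TF (Ω : Cm N → B2 (Cm N)) : Prop where
  sm : ∀ v ∈ Tb N 2, ContDiffAt ℝ ∞ Ω v
  per : ∀ v ∈ Tb N 2, ∀ q, Ω (v + per q) = Ω v
  skew : ∀ v, Sk (Ω v)
  closed : ∀ v ∈ Tb N 2, Cl Ω v
  zero : ∀ v ∈ Tb N 2, ∀ i j,
    ∫ a in Icc (0 : Fin 2 → ℝ) 1, Ω (v + a 0 • pv i + a 1 • pv j) (pv i) (pv j) = 0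

/-- almost constant forms -/
structure TD (C η : ℝ) (Ω : Cm N → B2 (Cm N)) : Prop where
  cx : ∀ v ∈ Tb N 2, Cx (Ω v)
  cj : ∀ p q, Ω 0 (I • p) (I • q) = star (Ω 0 p q)
  up : ‖Ω 0‖ ≤ C
  lo : ∀ p, ‖p‖ ≤ C * ‖Ω 0 p‖
  b1 : ∀ v ∈ Tb N 2, ‖fderiv ℝ Ω v‖ ≤ η
  b2 : ∀ v ∈ Tb N 2, ‖fderiv ℝ (fderiv ℝ Ω) v‖ ≤ η

/-- a Lagrangian fibration in the tube -/
structure TFb (Ω : Cm N → B2 (Cm N)) (U : Set (Cm N)) (π : Cm N → Cm n) : Prop where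
  opn : IsOpen U
  sub : U ⊆ Tb N 1
  per : ∀ v ∈ U, ∀ q, v + per q ∈ U ∧ π (v + per q) = π v
  maps : ∀ v ∈ U, π v ∈ ball (0 : Cm n) 1
  onto : ∀ c ∈ ball (0 : Cm n) 1, ∃ v ∈ U, π v = c
  prop : ∀ K ⊆ ball (0 : Cm n) 1, IsCompact K → ∃ K', IsCompact K' ∧ K' ⊆ U ∧
    (∀ v ∈ K', π v ∈ K) ∧ ∀ v ∈ U, π v ∈ K → ∃ q, v + Tor.per q ∈ K'
  conn : ∀ c ∈ ball (0 : Cm n) 1, IsPreconnected (U ∩ π ⁻¹' {c})
  dif : ∀ v ∈ U, ∃ D, HasFDerivAt π D v ∧ Dif (Ω v) D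

/-- a periodic primitive of `b` on `U` which vanishes outside a smaller tube -/
structure TP (b : Cm N → B2 (Cm N)) (U : Set (Cm N)) (γ : Cm N → Cm N →L[ℝ] ℂ) : Prop where
  sm : ContDiff ℝ ∞ γ
  per : ∀ v q, γ (v + per q) = γ v
  supp : ∀ v, v ∉ Tb N 1 → γ v = 0
  eq : ∀ v ∈ U, ∀ p q, fderiv ℝ γ v p q - fderiv ℝ γ v q p = b v p q

/-- **MOD**: the normal form of a constant form -/
def MOD : Prop := ∀ (n : ℕ) (o : B2 (Cm (n + n))), Sk o → Cx o → (∀ p, o p = 0 → p = 0) →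
  (∀ x x', o (imL _ x) (imL _ x') = 0) → (∀ y y', o (reL _ y) (reL _ y') = 0) →
  ∃ (κ : E (n + n) ≃L[ℝ] Cm n) (μ : Cm n ≃L[ℝ] E (n + n)), (∀ y, ‖μ y‖ ≤ ‖y‖) ∧ pl μ o = om0 κ

/-- **TRF**: from the tube to the model -/
def TRF : Prop := ∀ (N n : ℕ) (μ : Cm n ≃L[ℝ] E N), (∀ y, ‖μ y‖ ≤ ‖y‖) → ∃ c : ℝ, 0 < c ∧
  ∀ Ω : Cm N → B2 (Cm N), TF Ω → ∃ Ω' : P N n → B2 (P N n), Fm Ω' ∧
    (∀ z : P N n, ‖z.2‖ < 1 → Ω' z = pl μ (Ω (lm μ z))) ∧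
    ∀ (κ : E N ≃L[ℝ] Cm n) (o : B2 (Cm N)) (ε : ℝ), pl μ o = om0 κ →
      (∀ v ∈ Tb N 2, Cx (Ω v) ∧ ‖Ω v - o‖ ≤ ε ∧ ‖fderiv ℝ Ω v‖ ≤ ε ∧
        ‖fderiv ℝ (fderiv ℝ Ω) v‖ ≤ ε) → Dat κ (c * ε) Ω'

/-- **BACK**: from the model to the tube -/
def BACK : Prop := ∀ (N n : ℕ) (μ : Cm n ≃L[ℝ] E N), (∀ y, ‖μ y‖ ≤ ‖y‖) →
  ∀ (Ω b : Cm N → B2 (Cm N)) (Ω' b' : P N n → B2 (P N n)) U π g b₀ r
    (γ : P N n → P N n →L[ℝ] ℂ), (∀ z : P N n, ‖z.2‖ < 1 → Ω' z = pl μ (Ω (lm μ z))) →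
    (∀ z : P N n, ‖z.2‖ < 1 → b' z = pl μ (b (lm μ z))) → Fb Ω' U π g b₀ r → ContDiff ℝ ∞ γ →
    Pe2 γ → (∀ z : P N n, ‖z.2‖ < 1 → ∀ u v, fderiv ℝ γ z u v - fderiv ℝ γ z v u = b' z u v) →
    ∃ (U' : Set (Cm N)) (π' : Cm N → Cm n) (γ' : Cm N → Cm N →L[ℝ] ℂ), TFb Ω U' π' ∧ TP b U' γ'

/-- **TUB**: Lagrangian fibrations in almost flat tubes -/
def TUB : Prop := ∀ (n : ℕ) (C : ℝ), ∃ η : ℝ, 0 < η ∧
  ∀ Ω b : Cm (n + n) → B2 (Cm (n + n)), TF Ω → TF b → TD C η Ω →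
    ∃ (U : Set (Cm (n + n))) (π : Cm (n + n) → Cm n) (γ : Cm (n + n) → Cm (n + n) →L[ℝ] ℂ),
      TFb Ω U π ∧ TP b U γ

end Vale.Agent.P301Z.Tor
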