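import Vale.Agent.P301Z.Sk
import Vale.Agent.P301Z.Pt.Pf
import Vale.Agent.P301Z.Rot.Alg
import Vale.Agent.P301Z.Tor.Sk2

/-!
# P301Z, block TOR: the statements on manifolds
-/

open scoped Manifold ContDiff ComplexOrder Topology Matrix
open Set Filter Metric
open Vale.Agent.P272.K
open Vale.Agent.P277Z (Hol)
open Vale.Agent.P281Z (Mf)
open Vale.Agent.P281Z.Hg
open Vale.Agent.P301.H599 (IsHolTwoForm)
open Vale.Agent.P301.H450 (IsHK)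
open Vale.Agent.P301Z.Lat

set_option maxSynthPendingDepth 3

noncomputable section

namespace Vale.Agent.P301Z.Tor

/-- a smooth parametrisation of an open part of `V` by the tube modulo the periods -/
structure RP {d : ℕ} (V : Mf d) (Ψ : Cm d → V.X) : Prop where
  sm : ∀ v ∈ Tb d 2, Pt.SmA d Ψ v
  bij : ∀ v ∈ Tb d 2, ∀ e : Chart d V.X, At e (Ψ v) →
    Function.Bijective (fderiv ℝ (fun y => e (Ψ y)) v)
  peri : ∀ v ∈ Tb d 2, ∀ q, Ψ (v + per q) = Ψ v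
  inj : ∀ v ∈ Tb d 2, ∀ v' ∈ Tb d 2, Ψ v = Ψ v' → ∃ q, v' = v + per q

/-- the pull back of a two-form as a bilinear map -/
def fb {d : ℕ} {V : Mf d} (Ψ : Cm d → V.X) (u : Fs V) (v : Cm d) : B2 (Cm d) :=
  Rot.bL (Pt.pf Ψ u v)

/-- a local Lagrangian fibration -/
structure LF0 {n : ℕ} (V : Mf (n + n)) (s : Fld V) (U : Set V.X) (π : V.X → Cm n) : Prop where
  opn : IsOpen U
  hol : ∀ x ∈ U, ∀ j, Hol (n + n) (fun y => π y j) x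
  maps : ∀ x ∈ U, π x ∈ ball (0 : Cm n) 1
  onto : ∀ b ∈ ball (0 : Cm n) 1, ∃ x ∈ U, π x = b
  prop : ∀ K ⊆ ball (0 : Cm n) 1, IsCompact K → IsCompact (U ∩ π ⁻¹' K)
  sbm : ∀ x ∈ U, ∀ e : Chart (n + n) V.X, At e x →
    Function.Surjective (fderiv ℂ (fun z => π (e.symm z)) (e x))
  conn : ∀ b ∈ ball (0 : Cm n) 1, IsPreconnected (U ∩ π ⁻¹' {b})
  lag : ∀ x ∈ U, ∀ e : Chart (n + n) V.X, At e x → ∀ v v',
    fderiv ℂ (fun z => π (e.symm z)) (e x) v = 0 → fderiv ℂ (fun z => π (e.symm z)) (e x) v' = 0 →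
    v ⬝ᵥ (s e (e x) *ᵥ v') = 0

/-- **LOC**: local inverses of a parametrisation -/
def LOC : Prop := ∀ (d : ℕ) (V : Mf d) (Ψ : Cm d → V.X), RP V Ψ → ∀ v ∈ Tb d 2,
  ∀ e : Chart d V.X, At e (Ψ v) → ∃ σ : Cm d → Cm d, ContDiffAt ℝ ∞ σ (e (Ψ v)) ∧
    σ (e (Ψ v)) = v ∧ (∀ᶠ z in 𝓝 (e (Ψ v)), Ψ (σ z) = e.symm z) ∧
    (∀ p, fderiv ℝ σ (e (Ψ v)) (fderiv ℝ (fun y => e (Ψ y)) v p) = p) ∧
    ∀ O ∈ 𝓝 v, Ψ '' O ∈ 𝓝 (Ψ v)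

/-- **MTD**: the rotated form is almost constant -/
def MTD : Prop := ∀ (d : ℕ) (C : ℝ), 0 < C → ∃ C' : ℝ, ∀ η : ℝ, 0 < η → ∃ ρ η' : ℝ, 2 ≤ ρ ∧
  0 < η' ∧ ∀ (V : Mf d) (s w : Fld V) (u a : Fs V) (Φ : Cm d → V.X), IsHolTwoForm s →
    (∀ e x, At e x → (s e (e x)).det ≠ 0) → IsHK s w 1 → Is20 s u → Is11 w a → ParT ρ Φ →
    (∀ v ∈ Key.Tb d ρ, Key.Flat (Key.pl w Φ) C η' 2 v) → TD C' η (fb Φ (a - u + (dR V).cj u))

/-- **MFB**: the fibration on the manifold -/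
def MFB : Prop := ∀ (n : ℕ) (V : Mf (n + n)) (s : Fld V) (u : Fs V) (c : ℂ)
  (Ψ : Cm (n + n) → V.X) (U : Set (Cm (n + n))) (π : Cm (n + n) → Cm n), RP V Ψ →
  IsHolTwoForm s → c ≠ 0 → (∀ e x, At e x → vl u e (e x) = f20 (c • s e (e x))) →
  TFb (fb Ψ u) U π → ∃ π' : V.X → Cm n, LF0 V s (Ψ '' U) π'

/-- **MBE**: the primitive on the manifold -/
def MBE : Prop := ∀ (d : ℕ) (V : Mf d) (b : Fld V) (u : Fs V) (Ψ : Cm d → V.X) (U : Set (Cm d))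
  (γ : Cm d → Cm d →L[ℝ] ℂ), RP V Ψ → U ⊆ Tb d 1 → Is11 b u → TP (fb Ψ u) U γ →
  ∃ β : Fs V, (dR V).dg 1 β = β ∧
    ∀ x ∈ Ψ '' U, ∀ e : Chart d V.X, At e x → vl ((dR V).d β) e (e x) = f11 (b e (e x))

end Vale.Agent.P301Z.Tor
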